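import Claimed.Agent.R256.Act.E1.Main
import Claimed.Agent.R256.Lay.Contract

/-!
# Row 256, section Act, E1 = Lemma act:stationary-boundary (06 l.314-430), file 7: LINE AVOIDANCE FOR THE STORED MARKS      (architect helper279; prefix `ae1_av_`)

EXIT **`ae1_av`** = PORT 3 (`lay_rs_av_one`, `LayRsAv` unfolded) of `Lay/RsMain.lean` (helper54):   in the classical equality configuration `c = 1`, `J = 0`, exact quadratic side of static depth `xs`,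
`a1 - 1 + σ ≤ xs < p_*` on `[a0, a1]`:  at almost every time root `a`, at the moved roots `(a', v)`, `|a' - a| ≤ η h`:   every affine line predicted by the side is met by the stored marks within `δ^u` with probability `≤ δ^(e0 u - acc)`.
`e0` does not depend on `a`.
 `ae1_av_mark`  stored marks at a general root (any `v`, `Rm`)
 `ae1_av_time`  vertical lines: `ae1_conf` with the lists of the exact side on the success event (cost `s^-e`)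
 `ae1_av_doc`   one configuration: `lay_avoid_core` (graph form from `ae1_main`) + failure of the success event
 `ae1_av_root`  one root, one width `s^y`, `uf`-most `n`
 `ae1_av_store` stored marks → normalised marks (one finite law)
 `ae1_av`       quantifiers;  `u ≤ acc/e0` is trivial
-/

set_option autoImplicit false

namespace Claimed.Agent.R256

open Claimed.Agent.R255
open Claimed.Agent.R255.FLaw (pair)
open Filter Topology MeasureTheory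
open Classical

noncomputable section

/-- the stored marks at a general root of the exact quadratic side -/
theorem ae1_av_mark {π : SfPar} (hπ : π.E1) (D : SfDoc) (hs : 0 < D.s ∧ D.s < 1) (xs a v h Rm B : ℝ) (hB : 1 ≤ B) (ω : D.Row 1) :
    (D.smk π ⟨ae1Q π, ae1Sd xs, a, v, h, Rm, B⟩ ω).th = trep (D.s ^ h) Rm ((D.T 1 ω - ae1Ta D.s a (D.ae1Z π xs a ω)) / D.s ^ a) ∧
    (D.smk π ⟨ae1Q π, ae1Sd xs, a, v, h, Rm, B⟩ ω).r = trep (D.s ^ h) Rm (((D.lab 1 ω).be - ae1Ra D.s a (D.ae1Z π xs a ω)) / D.s ^ (a - 1)) := by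
  obtain ⟨h0, h1⟩ := hs
  obtain ⟨rT, rTe, rbe⟩ := ae1_mk_raw π D ω
  obtain ⟨hcut, hb⟩ := ae1_mk_cut hπ
  obtain ⟨c1, c2, c3, c4⟩ := ae1_mk_const (D.raw π (nmDsEq π) ω) D.s (ae1Q π) a hcut (hb a)
  obtain ⟨f1, f2⟩ := ae1_mk_frame hπ D xs a ω
  rw [f1, f2]
  obtain ⟨u1, u2⟩ := ae1_mk_unit h0 h1 a (D.T 1 ω)
  obtain ⟨v1, v2⟩ := ae1_mk_unit h0 h1 (a - 1) (D.lab 1 ω).be
  have m1 : ((D.raw π (nmDsEq π) ω).mark D.s π (ae1Q π) a true).th = (D.T 1 ω - nmRep D.s a (D.T 1 ω)) / D.s ^ a := by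
    show ((D.raw π (nmDsEq π) ω).Te - (D.raw π (nmDsEq π) ω).ta D.s a) / D.s ^ a = _
    unfold NmRaw.ta
    rw [rTe, rT]
  have m2 : ((D.raw π (nmDsEq π) ω).mark D.s π (ae1Q π) a true).r = ((D.lab 1 ω).be - nmRep D.s (a - 1) (D.lab 1 ω).be) / D.s ^ (a - 1) := by
    show ((D.raw π (nmDsEq π) ω).be - ((D.raw π (nmDsEq π) ω).Ra D.s (ae1Q π) a
      + ((D.raw π (nmDsEq π) ω).Te - (D.raw π (nmDsEq π) ω).ta D.s a) * (D.raw π (nmDsEq π) ω).ka D.s (ae1Q π) a)) / D.s ^ ((ae1Q π).ds.b a) = _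
    rw [c2, c4, rbe, mul_zero, add_zero]
    congr 2
    exact hb a
  have m3 : ((D.raw π (nmDsEq π) ω).mark D.s π (ae1Q π) a true).k = 0 := by
    show ((D.raw π (nmDsEq π) ω).kraw (ae1Q π) - (D.raw π (nmDsEq π) ω).ka D.s (ae1Q π) a) * _ = 0
    rw [c3, c4, sub_zero, zero_mul]
  have hst : D.smk π ⟨ae1Q π, ae1Sd xs, a, v, h, Rm, B⟩ ω = nmStore (D.s ^ h) Rm B ((D.raw π (nmDsEq π) ω).mark D.s π (ae1Q π) a true) := rfl
  have hcond : |((D.raw π (nmDsEq π) ω).mark D.s π (ae1Q π) a true).th| ≤ B ∧ |((D.raw π (nmDsEq π) ω).mark D.s π (ae1Q π) a true).r| ≤ B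
      ∧ |((D.raw π (nmDsEq π) ω).mark D.s π (ae1Q π) a true).k| ≤ B := by
    rw [m1, m2, m3, abs_of_nonneg u1, abs_of_nonneg v1, abs_zero]
    exact ⟨u2.trans hB, v2.trans hB, by linarith⟩
  refine ⟨?_, ?_⟩
  · rw [hst]
    unfold nmStore
    rw [if_pos hcond, m1]
  · rw [hst]
    unfold nmStore
    rw [if_pos hcond, m2]

/-- **vertical lines**: one predicted time interval of length `s^(a+y)` -/
theorem ae1_av_time {π : SfPar} (hπ : π.E1) (C0 τ κ0 t : ℝ) (D : SfDoc) (hD : D.Wk π C0 τ κ0 t) (xs a y e : ℝ) (ha : 0 ≤ a) (hy : 0 < y)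
    (hay : a + y + t < 1) (he : 0 < e) (hey : 4 * e ≤ π.d * y) (hty : 400 * t ≤ π.d * y) (hyt : π.d * y ≤ 1 / t)
    (hP : (D.P 1).NVal (D.ae1G π xs a e) (D.Pc π (nmDsEq π) xs) (pair D.y0 (D.tc a)) (D.s ^ (-e))) (I : NmZv D.Idx → ℝ) :
    (D.P 1).pr (fun ρ => D.ae1G π xs a e ρ ∧ I (D.ae1Z π xs a ρ) ≤ D.T 1 ρ ∧ D.T 1 ρ ≤ I (D.ae1Z π xs a ρ) + D.s ^ (a + y))
      ≤ D.s ^ (π.d * y / 4) := by
  have hC := hD.ok.core
  have hs := hC.hs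
  have ht := hD.tpos
  have h10 := hD.h10
  obtain ⟨hd0, hd1⟩ := hπ.val.d1
  have hty' : 400 * t ≤ y := by
    have : π.d * y ≤ 1 * y := mul_le_mul_of_nonneg_right hd1 hy.le
    linarith
  obtain ⟨hiG, hia⟩ := hD.near a ha (by linarith)
  obtain ⟨hjG, hja⟩ := hD.near (a + y) (by linarith) (by linarith)
  obtain ⟨hia1, hia2⟩ := abs_le.1 hia
  obtain ⟨hja1, hja2⟩ := abs_le.1 hja
  have hij : D.gt a < D.gt (a + y) := by linarith
  have hj1 : D.gt (a + y) < 1 := by linarith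
  have hNP : (1 : ℝ) ≤ D.s ^ (-e) := Real.one_le_rpow_of_pos_of_le_one_of_nonpos hs.1 hs.2.le (by linarith)
  have hrow := ae1_side_row hπ C0 τ κ0 t D hD xs a (D.gt a) (D.s ^ (-e)) hiG (by linarith) (by linarith) (D.ae1G π xs a e) hNP hP
  have hrow' : D.RowPr (D.gt a) (D.ae1G π xs a e) (D.ae1Z π xs a) (D.s ^ (-e) * D.s ^ (-(10 * t))) :=
    (ae1_pr_mono D _ _ (D.ae1G π xs a e) (D.ae1Z π xs a) _ _ (fun ω hω => ⟨hω.1, hω⟩) le_rfl).1 hrow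
  have hN0 : 0 ≤ D.s ^ (-e) * D.s ^ (-(10 * t)) := mul_nonneg (Real.rpow_nonneg hs.1.le _) (Real.rpow_nonneg hs.1.le _)
  have key := ae1_conf D π C0 t (D.gt a) (D.gt (a + y)) _ hC ht h10 hiG hjG hij hj1 hN0
    (fun ρ => D.ae1G π xs a e ρ ∧ I (D.ae1Z π xs a ρ) ≤ D.T 1 ρ ∧ D.T 1 ρ ≤ I (D.ae1Z π xs a ρ) + D.s ^ (a + y)) _ (D.ae1Z π xs a)
    (D.ae1G π xs a e) hrow' (fun _ => I) (by
      rintro ρ0 ρ - ⟨g1, g2, g3⟩
      refine ⟨g1, g2, g3.trans ?_⟩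
      have : D.s ^ (a + y) ≤ D.s ^ (D.gt (a + y) - t) := lay_rpow_anti hs.1 hs.2 (by linarith)
      linarith)
  refine key.trans ?_
  have hx : π.d * y / 4 = (π.d * y / 2) / 2 := by ring
  rw [hx]
  have hdy : 0 < π.d * y := mul_pos hd0 hy
  refine ae1_aux_close hs.1 hs.2 ht h10 (by linarith) (by linarith) (mul_nonneg hN0 (Real.rpow_nonneg hs.1.le _)) ?_
  rw [← Real.rpow_add hs.1, ← Real.rpow_add hs.1]
  refine lay_rpow_anti hs.1 hs.2 ?_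
  have hg : y - 2 * t ≤ D.gt (a + y) - D.gt a := by linarith
  have hg1 := mul_le_mul_of_nonneg_left hg hd0.le
  have hg2 := mul_le_mul_of_nonneg_right hd1 (by linarith : (0 : ℝ) ≤ 2 * t)
  have e1 : π.d * (y - 2 * t) = π.d * y - π.d * (2 * t) := by ring
  linarith

/-- **one configuration, one width `s^y`** -/
theorem ae1_av_doc {π : SfPar} (hπ : π.E1) (C0 τ κ0 t : ℝ) (D : SfDoc) (hD : D.Wk π C0 τ κ0 t) (xs a y χ e pG pN : ℝ) (ha : 0 ≤ a) (hy : 0 < y)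
    (hay : a + y + t < 1) (hχ : 0 < χ ∧ χ ≤ 1 / 4) (he : 0 < e) (hey : 8 * e ≤ π.d * χ * y) (hty : 800 * t ≤ π.d * χ * y) (hyt : π.d * χ * y ≤ 1 / t)
    (hP : (D.P 1).NVal (D.ae1G π xs a e) (D.Pc π (nmDsEq π) xs) (pair D.y0 (D.tc a)) (D.s ^ (-e)))
    (hN : (D.P 1).pr (fun ω => ¬ D.ae1G π xs a e ω) ≤ pN)
    (hG : ∀ v sl : NmZv D.Idx → ℝ, (∀ x, |sl x| ≤ D.s ^ (π.b2 a - a - 4 * χ * ((1 - χ) * y))) →
      (D.P 1).pr (D.ae1Ev π xs a ((1 - χ) * y) v sl) ≤ pG)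
    (al be ga : NmZv D.Idx → ℝ) (hn : ∀ x, al x ^ 2 + be x ^ 2 = 1) :
    (D.P 1).pr (fun ρ => (D.P 1).p ρ ≠ 0 ∧ |al (D.ae1Z π xs a ρ) * ((D.T 1 ρ - ae1Ta D.s a (D.ae1Z π xs a ρ)) / D.s ^ a)
        + be (D.ae1Z π xs a ρ) * (((D.lab 1 ρ).be - ae1Ra D.s a (D.ae1Z π xs a ρ)) / D.s ^ (a - 1)) - ga (D.ae1Z π xs a ρ)| ≤ D.s ^ y)
      ≤ pN + (D.s ^ (π.d * χ * y / 8) + pG) := by
  have hC := hD.ok.core
  have hs := hC.hs
  have ht := hD.tpos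
  have h10 := hD.h10
  obtain ⟨hd0, hd1⟩ := hπ.val.d1
  have hb2 : π.b2 a = a - 1 := (ae1_par_exp hπ a).1
  have hχy : 0 < χ * y := mul_pos hχ.1 hy
  have hdχy : π.d * χ * y ≤ χ * y := by
    have := mul_le_mul_of_nonneg_right hd1 hχy.le
    linarith
  have hχy1 : χ * y ≤ y := by
    have := mul_le_mul_of_nonneg_right (hχ.2.trans (by norm_num : (1 / 4 : ℝ) ≤ 1)) hy.le
    linarith
  have hw0 : 0 < D.s ^ y := Real.rpow_pos_of_pos hs.1 _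
  have hwθ : ∀ θ : ℝ, (D.s ^ y) ^ θ = D.s ^ (y * θ) := fun θ => (Real.rpow_mul hs.1.le y θ).symm
  have hst : D.s ^ t ≤ 1 / 10 := by
    rw [Real.rpow_neg hs.1.le] at h10
    have hp : 0 < D.s ^ t := Real.rpow_pos_of_pos hs.1 _
    rw [le_div_iff₀ (by norm_num)]
    have := mul_le_mul_of_nonneg_right h10 hp.le
    rw [inv_mul_cancel₀ hp.ne'] at this
    linarith
  have hw2 : (D.s ^ y) ^ χ ≤ 1 / 2 := by
    rw [hwθ]
    have : D.s ^ (y * χ) ≤ D.s ^ t := lay_rpow_anti hs.1 hs.2 (by linarith)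
    linarith
  -- (V)
  have hV : ∀ I : NmZv D.Idx → ℝ, (D.P 1).pr (fun ρ => D.ae1G π xs a e ρ ∧ I (D.ae1Z π xs a ρ) ≤ D.T 1 ρ ∧
      D.T 1 ρ ≤ I (D.ae1Z π xs a ρ) + 8 * 1 * (D.s ^ y) ^ χ * D.s ^ a) ≤ D.s ^ (π.d * χ * y / 8) := by
    intro I
    have key := ae1_av_time hπ C0 τ κ0 t D hD xs a (χ * y / 2) e ha (by linarith) (by linarith) he (by linarith) (by linarith) (by linarith) hP I
    have e1 : π.d * (χ * y / 2) / 4 = π.d * χ * y / 8 := by ring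
    rw [e1] at key
    refine (ent_pr_mono _ fun ρ _ hρ => ⟨hρ.1, hρ.2.1, hρ.2.2.trans ?_⟩).trans key
    have hlen : 8 * 1 * (D.s ^ y) ^ χ * D.s ^ a ≤ D.s ^ (a + χ * y / 2) := by
      rw [hwθ]
      have q1 := lay_rpow_abs hs.1 h10 (y * χ + a)
      rw [Real.rpow_add hs.1] at q1
      have q2 : D.s ^ (y * χ + a - t) ≤ D.s ^ (a + χ * y / 2) := lay_rpow_anti hs.1 hs.2 (by linarith)
      have q3 : 0 ≤ D.s ^ (y * χ) * D.s ^ a := mul_nonneg (Real.rpow_nonneg hs.1.le _) (Real.rpow_nonneg hs.1.le _)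
      linarith
    linarith
  -- (G)
  have hGr : ∀ v sl : NmZv D.Idx → ℝ, (∀ x, |sl x| ≤ D.s ^ (π.b2 a - a - 4 * χ * ((1 - χ) * y))) →
      (D.P 1).pr (fun ρ => D.ae1G π xs a e ρ ∧ |(D.lab 1 ρ).be - (v (D.ae1Z π xs a ρ) + sl (D.ae1Z π xs a ρ) * D.T 1 ρ)|
        ≤ (D.s ^ y) ^ (1 - χ) * D.s ^ (π.b2 a)) ≤ pG := by
    intro v sl hsl
    refine (ent_pr_mono _ fun ρ _ hρ => ?_).trans (hG v sl hsl)
    show |(D.lab 1 ρ).be - (v (D.ae1Z π xs a ρ) + sl (D.ae1Z π xs a ρ) * D.T 1 ρ)| ≤ D.s ^ (π.b2 a + (1 - χ) * y)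
    refine hρ.2.trans (le_of_eq ?_)
    rw [hwθ, ← Real.rpow_add hs.1]
    congr 1
    ring
  have hka : ∀ x : NmZv D.Idx, |(fun _ : NmZv D.Idx => (0 : ℝ)) x| + (D.s ^ y) ^ (-χ) * D.s ^ (π.b2 a - a)
      ≤ D.s ^ (π.b2 a - a - 4 * χ * ((1 - χ) * y)) := by
    intro x
    rw [abs_zero, zero_add, hwθ, ← Real.rpow_add hs.1]
    refine lay_rpow_anti hs.1 hs.2 ?_
    have h3 : χ * y ≤ 4 * (1 - χ) * (χ * y) := by
      have : (1 : ℝ) ≤ 4 * (1 - χ) := by linarith [hχ.2]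
      have := mul_le_mul_of_nonneg_right this hχy.le
      linarith
    have e2 : 4 * χ * ((1 - χ) * y) = 4 * (1 - χ) * (χ * y) := by ring
    rw [e2]
    linarith
  have hmk : ∀ ρ : D.Row 1, ((D.lab 1 ρ).be - (ae1Ra D.s a (D.ae1Z π xs a ρ)
      + (fun _ : NmZv D.Idx => (0 : ℝ)) (D.ae1Z π xs a ρ) * (D.T 1 ρ - ae1Ta D.s a (D.ae1Z π xs a ρ)))) / D.s ^ (π.b2 a)
      = ((D.lab 1 ρ).be - ae1Ra D.s a (D.ae1Z π xs a ρ)) / D.s ^ (a - 1) := by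
    intro ρ
    rw [hb2]
    simp only [zero_mul, add_zero]
  have hr : ∀ ρ, (D.P 1).p ρ ≠ 0 → |((D.lab 1 ρ).be - (ae1Ra D.s a (D.ae1Z π xs a ρ)
      + (fun _ : NmZv D.Idx => (0 : ℝ)) (D.ae1Z π xs a ρ) * (D.T 1 ρ - ae1Ta D.s a (D.ae1Z π xs a ρ)))) / D.s ^ (π.b2 a)| ≤ 1 := by
    intro ρ _
    rw [hmk]
    obtain ⟨-, -, v1, v2, -, -⟩ := ae1_mark hπ D hs xs a 1 1 one_pos le_rfl ρ
    rw [abs_of_nonneg v1]
    exact v2
  have main := lay_avoid_core π D hs.1 a (D.s ^ y) χ 1 _ _ _ le_rfl hw0 hχ.1 (by linarith [hχ.2]) hw2 _ (D.ae1Z π xs a) (D.ae1G π xs a e) hV hGr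
    (ae1Ta D.s a) (ae1Ra D.s a) (fun _ => 0) hka hr al be ga hn
  refine le_trans (le_trans (ent_pr_mono (D.P 1) fun ρ _ h => ?_) (ent_pr_or_le (D.P 1) _ _)) (add_le_add hN main)
  by_cases hg : D.ae1G π xs a e ρ
  · refine Or.inr ⟨hg, ?_⟩
    rw [hmk]
    exact h.2
  · exact Or.inl hg

/-- stored marks → normalised marks:  `δ^u + 2 δ^Rm ≤ 3 δ^u ≤ δ^(u - ε)` -/
theorem ae1_av_store {Ω ζ : Type} [Fintype Ω] (P : FLaw Ω) (Z : Ω → ζ) (th r thn rn : Ω → ℝ) (δ u ε Rm : ℝ) (h0 : 0 < δ) (h1 : δ < 1) (hu : u ≤ Rm)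
    (h3 : 3 ≤ δ ^ (-ε)) (hth : ∀ ω, P.p ω ≠ 0 → |th ω - thn ω| ≤ δ ^ Rm) (hr : ∀ ω, P.p ω ≠ 0 → |r ω - rn ω| ≤ δ ^ Rm)
    (al be ga : ζ → ℝ) (hab : ∀ z, al z ^ 2 + be z ^ 2 = 1) :
    P.pr (fun ω => |al (Z ω) * th ω + be (Z ω) * r ω - ga (Z ω)| ≤ δ ^ u)
      ≤ P.pr (fun ω => P.p ω ≠ 0 ∧ |al (Z ω) * thn ω + be (Z ω) * rn ω - ga (Z ω)| ≤ δ ^ (u - ε)) := by
  refine ent_pr_mono P fun ω hω h => ⟨hω, ?_⟩
  have hR : δ ^ Rm ≤ δ ^ u := lay_rpow_anti h0 h1 hu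
  have hpu : 0 < δ ^ u := Real.rpow_pos_of_pos h0 _
  have ha : |al (Z ω)| ≤ 1 := by
    rw [← abs_one, ← sq_le_sq]
    nlinarith [hab (Z ω), sq_nonneg (be (Z ω))]
  have hb : |be (Z ω)| ≤ 1 := by
    rw [← abs_one, ← sq_le_sq]
    nlinarith [hab (Z ω), sq_nonneg (al (Z ω))]
  have k1 : |al (Z ω) * (th ω - thn ω)| ≤ δ ^ u := by
    have := nm_abs_mul_le ha ((hth ω hω).trans hR)
    linarith
  have k2 : |be (Z ω) * (r ω - rn ω)| ≤ δ ^ u := by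
    have := nm_abs_mul_le hb ((hr ω hω).trans hR)
    linarith
  have e1 : al (Z ω) * thn ω + be (Z ω) * rn ω - ga (Z ω)
      = (al (Z ω) * th ω + be (Z ω) * r ω - ga (Z ω)) - al (Z ω) * (th ω - thn ω) - be (Z ω) * (r ω - rn ω) := by ring
  have e2 : δ ^ (u - ε) = δ ^ u * δ ^ (-ε) := by
    rw [← Real.rpow_add h0]
    congr 1
  have h4 : δ ^ u * 3 ≤ δ ^ u * δ ^ (-ε) := mul_le_mul_of_nonneg_left h3 hpu.le
  rw [e1, e2]
  rw [abs_le] at h k1 k2 ⊢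
  constructor <;> linarith [h.1, h.2, k1.1, k1.2, k2.1, k2.2]

/-- **one root, one width `s^y`, `uf`-most configurations** -/
theorem ae1_av_root {π : SfPar} {C0 : ℝ} {κ : ℝ → ℝ} (S : NmSeq π C0 κ) (hπ : π.E1) (hX : S.HasX) (c0 : ℝ) (Ds : Set ℝ) (h1 : (1 : ℝ) ∈ Ds)
    (hFP : S.FlatP c0 Ds) (xs a y χ e0m e1 : ℝ) (ha : 0 < a) (hy : 0 < y) (hay : a + y < 1) (hχ : 0 < χ ∧ χ ≤ 1 / 4)
    (hxs : xs < S.pst (nmDsEq π) a) (he1 : 0 < e1) (he1a : 16 * e1 ≤ c0 * (π.d * χ)) (he1b : 16 * e1 ≤ π.d * χ) (he1c : 2 * e1 ≤ e0m * (1 - χ))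
    (hG : ∀ᶠ n in uf, ∀ v sl : NmZv (S.D n).Idx → ℝ, (∀ x, |sl x| ≤ (S.D n).s ^ (π.b2 a - a - 4 * χ * ((1 - χ) * y))) →
      ((S.D n).P 1).pr ((S.D n).ae1Ev π xs a ((1 - χ) * y) v sl) ≤ (S.D n).s ^ (e0m * ((1 - χ) * y))) :
    ∀ᶠ n in uf, ∀ al be ga : NmZv (S.D n).Idx → ℝ, (∀ x, al x ^ 2 + be x ^ 2 = 1) →
      ((S.D n).P 1).pr (fun ρ => ((S.D n).P 1).p ρ ≠ 0 ∧
        |al ((S.D n).ae1Z π xs a ρ) * (((S.D n).T 1 ρ - ae1Ta (S.D n).s a ((S.D n).ae1Z π xs a ρ)) / (S.D n).s ^ a)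
          + be ((S.D n).ae1Z π xs a ρ) * ((((S.D n).lab 1 ρ).be - ae1Ra (S.D n).s a ((S.D n).ae1Z π xs a ρ)) / (S.D n).s ^ (a - 1))
          - ga ((S.D n).ae1Z π xs a ρ)| ≤ (S.D n).s ^ y) ≤ (S.D n).s ^ (e1 * y) := by
  obtain ⟨hd0, hd1⟩ := hπ.val.d1
  have hX0 : 0 < π.d * χ * y := mul_pos (mul_pos hd0 hχ.1) hy
  obtain ⟨t, ht, t1, t2, t3, t4⟩ : ∃ t : ℝ, 0 < t ∧ t ≤ 1 / (|C0| + 4) ∧ 800 * t ≤ π.d * χ * y ∧ π.d * χ * y ≤ 1 / t ∧ a + y + t < 1 := by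
    have hc : 0 < 1 / (|C0| + 4) := by positivity
    refine ⟨min (min (1 / (|C0| + 4)) (π.d * χ * y / 800)) (min (1 / (π.d * χ * y)) ((1 - a - y) / 2)), ?_, ?_, ?_, ?_, ?_⟩
    · exact lt_min (lt_min hc (by linarith)) (lt_min (by positivity) (by linarith))
    · exact (min_le_left _ _).trans (min_le_left _ _)
    · have := (min_le_left (min (1 / (|C0| + 4)) (π.d * χ * y / 800)) (min (1 / (π.d * χ * y)) ((1 - a - y) / 2))).trans (min_le_right _ _)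
      linarith
    · have hpos : 0 < min (min (1 / (|C0| + 4)) (π.d * χ * y / 800)) (min (1 / (π.d * χ * y)) ((1 - a - y) / 2)) :=
        lt_min (lt_min hc (by linarith)) (lt_min (by positivity) (by linarith))
      have := (min_le_right (min (1 / (|C0| + 4)) (π.d * χ * y / 800)) (min (1 / (π.d * χ * y)) ((1 - a - y) / 2))).trans (min_le_left _ _)
      rw [le_div_iff₀ hpos]
      rw [le_div_iff₀ hX0] at this
      linarith
    · have := (min_le_right (min (1 / (|C0| + 4)) (π.d * χ * y / 800)) (min (1 / (π.d * χ * y)) ((1 - a - y) / 2))).trans (min_le_right _ _)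
      linarith
  have he1y : 0 < e1 * y := mul_pos he1 hy
  have F1 := ae1_s_wk S 1 t one_pos ht t1
  have F2 := ae1_s_small S ((1 / 3 : ℝ) ^ (1 / (e1 * y))) (by positivity)
  have F3 := ae1_s_G S hπ hX c0 Ds h1 hFP xs a (π.d * χ * y / 8) (by linarith) ⟨ha, by linarith⟩ hxs
  filter_upwards [F1, F2, F3, hG] with n G1 G2 G3 G4 al be ga hn
  have hs := G1.ok.core.hs
  have main := ae1_av_doc hπ C0 1 (κ 1) t (S.D n) G1 xs a y χ (π.d * χ * y / 8) _ _ ha.le hy t4 hχ (by linarith) (by linarith) t2 t3 G3.2 G3.1 G4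
    al be ga hn
  refine main.trans ?_
  have hsm : (S.D n).s ^ (e1 * y) ≤ 1 / 3 := by
    have h3 : (S.D n).s ^ (e1 * y) ≤ ((1 / 3 : ℝ) ^ (1 / (e1 * y))) ^ (e1 * y) := Real.rpow_le_rpow hs.1.le G2.2.le he1y.le
    rwa [← Real.rpow_mul (by norm_num), one_div_mul_cancel he1y.ne', Real.rpow_one] at h3
  have hp : 0 < (S.D n).s ^ (e1 * y) := Real.rpow_pos_of_pos hs.1 _
  have e2 : (S.D n).s ^ (2 * e1 * y) = (S.D n).s ^ (e1 * y) * (S.D n).s ^ (e1 * y) := by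
    rw [← Real.rpow_add hs.1]
    congr 1
    ring
  have b1 : (S.D n).s ^ (c0 * (π.d * χ * y / 8)) ≤ (S.D n).s ^ (2 * e1 * y) := by
    refine lay_rpow_anti hs.1 hs.2 ?_
    have := mul_le_mul_of_nonneg_right he1a hy.le
    linarith
  have b2 : (S.D n).s ^ (π.d * χ * y / 8) ≤ (S.D n).s ^ (2 * e1 * y) := by
    refine lay_rpow_anti hs.1 hs.2 ?_
    have := mul_le_mul_of_nonneg_right he1b hy.le
    linarith
  have b3 : (S.D n).s ^ (e0m * ((1 - χ) * y)) ≤ (S.D n).s ^ (2 * e1 * y) := by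
    refine lay_rpow_anti hs.1 hs.2 ?_
    have := mul_le_mul_of_nonneg_right he1c hy.le
    linarith
  have b4 : (S.D n).s ^ (e1 * y) * (S.D n).s ^ (e1 * y) ≤ (S.D n).s ^ (e1 * y) * (1 / 3) := mul_le_mul_of_nonneg_left hsm hp.le
  rw [e2] at b1 b2 b3
  linarith

/-- **EXIT: line avoidance for the stored marks of the exact quadratic side, `c = 1`, `J = 0`**      (= `LayRsAv S (layRsRt π xs B) a0 a1 v0 v1` of Lay/RsMain.lean, unfolded; all `v`) -/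
theorem ae1_av {π : SfPar} {C0 : ℝ} {κ : ℝ → ℝ} (S : NmSeq π C0 κ) (hπ : π.E1) (hκ : ∀ τ, 0 < τ → 0 < κ τ) (hX : S.HasX) (c0 : ℝ) (hc0 : 0 < c0)
    (Ds : Set ℝ) (h1 : (1 : ℝ) ∈ Ds) (hF : S.Flat Ds) (hFP : S.FlatP c0 Ds) (xs B a0 a1 σ : ℝ) (hB : 1 ≤ B) (h0 : 0 ≤ a0) (h11 : a1 ≤ 1) (hσ : 0 < σ)
    (hxa : a1 - 1 + σ ≤ xs) (hxs : ∀ a, a0 ≤ a → a ≤ a1 → xs < S.pst (nmDsEq π) a) :
    ∀ᵐ a : ℝ, a0 < a → a < a1 → ∃ e0 : ℝ, 0 < e0 ∧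
      ∀ (G : Finset ℝ) (K acc : ℝ), (∀ u ∈ G, 0 ≤ u ∧ u ≤ K) → 0 < acc → ∃ η h0 : ℝ, 0 < η ∧ 0 < h0 ∧ ∀ h : ℝ, 0 < h → h < h0 → ∀ Rm : ℝ, K + 1 ≤ Rm →
      ∀ a' v : ℝ, |a' - a| ≤ η * h → a0 ≤ a' → a' ≤ a1 → ∀ᶠ n in uf, ∀ u ∈ G, ∀ al be ga : NmZv (S.D n).Idx → ℝ, (∀ z, al z ^ 2 + be z ^ 2 = 1) →
        ((S.D n).P 1).pr (fun ω => |al ((S.D n).side π (ae1Q π) (ae1Sd xs) a' ω) * ((S.D n).smk π ⟨ae1Q π, ae1Sd xs, a', v, h, Rm, B⟩ ω).th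
          + be ((S.D n).side π (ae1Q π) (ae1Sd xs) a' ω) * ((S.D n).smk π ⟨ae1Q π, ae1Sd xs, a', v, h, Rm, B⟩ ω).r
          - ga ((S.D n).side π (ae1Q π) (ae1Sd xs) a' ω)| ≤ ((S.D n).s ^ h) ^ u) ≤ ((S.D n).s ^ h) ^ (e0 * u - acc) := by
  obtain ⟨e0m, χm, he0m, hχm0, hχm1, H⟩ := ae1_main S hπ hκ hX c0 hc0 Ds h1 hF hFP
  obtain ⟨hd0, hd1⟩ := hπ.val.d1
  have hexp := ae1_par_exp hπ
  have hstr : ∀ a ∈ Set.Ioo a0 a1, π.b1 a + σ ≤ S.pst (nmDsEq π) a := by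
    intro a ha
    rw [(hexp a).2.1]
    linarith [hxs a ha.1.le ha.2.le, ha.2]
  obtain ⟨χ, hχd⟩ : ∃ χ : ℝ, χ = χm / 4 := ⟨_, rfl⟩
  have hχ : 0 < χ ∧ χ ≤ 1 / 4 := by
    rw [hχd]
    constructor <;> linarith
  have hχ4 : 4 * χ = χm := by rw [hχd]; ring
  obtain ⟨e1, he1, he1a, he1b, he1c⟩ : ∃ e1 : ℝ, 0 < e1 ∧ 16 * e1 ≤ c0 * (π.d * χ) ∧ 16 * e1 ≤ π.d * χ ∧ 2 * e1 ≤ e0m * (1 - χ) := by
    have p1 : 0 < π.d * χ := mul_pos hd0 hχ.1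
    have p2 : 0 < c0 * (π.d * χ) := mul_pos hc0 p1
    have p3 : 0 < e0m * (1 - χ) := mul_pos he0m (by linarith [hχ.2])
    refine ⟨min (min (c0 * (π.d * χ)) (π.d * χ)) (e0m * (1 - χ)) / 16, ?_, ?_, ?_, ?_⟩
    · have := lt_min (lt_min p2 p1) p3
      linarith
    · linarith [(min_le_left (min (c0 * (π.d * χ)) (π.d * χ)) (e0m * (1 - χ))).trans (min_le_left _ _)]
    · linarith [(min_le_left (min (c0 * (π.d * χ)) (π.d * χ)) (e0m * (1 - χ))).trans (min_le_right _ _)]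
    · have := min_le_right (min (c0 * (π.d * χ)) (π.d * χ)) (e0m * (1 - χ))
      have := lt_min (lt_min p2 p1) p3
      linarith
  filter_upwards [H a0 a1 σ hσ h0 h11 hstr] with a Ha ha0 ha1
  obtain ⟨z0, ηm, hz0, hηm, Hz⟩ := Ha ⟨ha0, ha1⟩ xs (by rw [(hexp a).2.1]; linarith)
  refine ⟨e1, he1, ?_⟩
  intro G K acc hG hacc
  obtain ⟨ε, hε⟩ : ∃ ε : ℝ, ε = acc / (2 * e1) := ⟨_, rfl⟩
  have hε0 : 0 < ε := by rw [hε]; positivity
  have hεe : e1 * ε = acc / 2 := by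
    rw [hε]
    field_simp
  have h1χ : 0 < 1 - χ := by linarith [hχ.2]
  have hη0 : 0 < ηm * ((1 - χ) * ε) := mul_pos hηm (mul_pos h1χ hε0)
  have hK1 : 0 < |K| + 1 := by positivity
  have ha_pos : 0 < a := lt_of_le_of_lt h0 ha0
  have ha_lt : a < 1 := lt_of_lt_of_le ha1 h11
  obtain ⟨hh0, hh00, q1, q2, q3⟩ : ∃ hh0 : ℝ, 0 < hh0 ∧ (|K| + 1) * hh0 ≤ z0 ∧ (ηm * ((1 - χ) * ε) + |K| + 1) * hh0 ≤ 1 - a ∧
      (ηm * ((1 - χ) * ε)) * hh0 ≤ a / 2 := by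
    have p1 : 0 < ηm * ((1 - χ) * ε) + |K| + 1 := by positivity
    refine ⟨min (z0 / (|K| + 1)) (min ((1 - a) / (ηm * ((1 - χ) * ε) + |K| + 1)) (a / 2 / (ηm * ((1 - χ) * ε)))), ?_, ?_, ?_, ?_⟩
    · exact lt_min (div_pos hz0 hK1) (lt_min (div_pos (by linarith) p1) (div_pos (by linarith) hη0))
    · have := min_le_left (z0 / (|K| + 1)) (min ((1 - a) / (ηm * ((1 - χ) * ε) + |K| + 1)) (a / 2 / (ηm * ((1 - χ) * ε))))
      rw [le_div_iff₀ hK1] at this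
      linarith
    · have := (min_le_right (z0 / (|K| + 1)) (min ((1 - a) / (ηm * ((1 - χ) * ε) + |K| + 1)) (a / 2 / (ηm * ((1 - χ) * ε))))).trans (min_le_left _ _)
      rw [le_div_iff₀ p1] at this
      linarith
    · have := (min_le_right (z0 / (|K| + 1)) (min ((1 - a) / (ηm * ((1 - χ) * ε) + |K| + 1)) (a / 2 / (ηm * ((1 - χ) * ε))))).trans (min_le_right _ _)
      rw [le_div_iff₀ hη0] at this
      linarith
  refine ⟨ηm * ((1 - χ) * ε), hh0, hη0, hh00, ?_⟩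
  intro h hh hhh Rm hRm a' v ha' ha'0 ha'1
  obtain ⟨hl, hu⟩ := abs_le.1 ha'
  have hηh : ηm * ((1 - χ) * ε) * h ≤ ηm * ((1 - χ) * ε) * hh0 := mul_le_mul_of_nonneg_left hhh.le hη0.le
  have hKh : (|K| + 1) * h ≤ (|K| + 1) * hh0 := mul_le_mul_of_nonneg_left hhh.le hK1.le
  have F0 := ae1_s_small S (min 1 ((1 / 3 : ℝ) ^ (1 / (h * ε)))) (lt_min one_pos (by positivity))
  have F1 : ∀ᶠ n in uf, ∀ u ∈ G, acc < e1 * u → ∀ al be ga : NmZv (S.D n).Idx → ℝ, (∀ x, al x ^ 2 + be x ^ 2 = 1) →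
      ((S.D n).P 1).pr (fun ρ => ((S.D n).P 1).p ρ ≠ 0 ∧
        |al ((S.D n).ae1Z π xs a' ρ) * (((S.D n).T 1 ρ - ae1Ta (S.D n).s a' ((S.D n).ae1Z π xs a' ρ)) / (S.D n).s ^ a')
          + be ((S.D n).ae1Z π xs a' ρ) * ((((S.D n).lab 1 ρ).be - ae1Ra (S.D n).s a' ((S.D n).ae1Z π xs a' ρ)) / (S.D n).s ^ (a' - 1))
          - ga ((S.D n).ae1Z π xs a' ρ)| ≤ (S.D n).s ^ (h * (u - ε))) ≤ (S.D n).s ^ (e1 * (h * (u - ε))) := by
    refine (Filter.eventually_all_finset _).2 fun u hu' => ?_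
    by_cases hua : acc < e1 * u
    swap
    · exact Filter.Eventually.of_forall fun n h' => absurd h' hua
    have huε : ε < u - ε := by
      have : e1 * (2 * ε) < e1 * u := by linarith
      have := lt_of_mul_lt_mul_left this he1.le
      linarith
    have huK : u - ε ≤ |K| := by linarith [(hG u hu').2, le_abs_self K]
    have hy : 0 < h * (u - ε) := mul_pos hh (by linarith)
    have hyK : h * (u - ε) ≤ |K| * h := by
      have := mul_le_mul_of_nonneg_left huK hh.le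
      linarith
    have hyε : h * ε ≤ h * (u - ε) := mul_le_mul_of_nonneg_left huε.le hh.le
    have hz1 : (1 - χ) * (h * (u - ε)) ≤ h * (u - ε) := by
      have := mul_le_mul_of_nonneg_right (by linarith [hχ.1] : 1 - χ ≤ 1) hy.le
      linarith
    have hgr := Hz ((1 - χ) * (h * (u - ε))) (mul_pos h1χ hy) (by linarith) a' (by
      refine ha'.trans ?_
      have := mul_le_mul_of_nonneg_left (mul_le_mul_of_nonneg_left hyε h1χ.le) hηm.le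
      linarith) (hxs a' ha'0 ha'1)
    rw [← hχ4] at hgr
    have := ae1_av_root S hπ hX c0 Ds h1 hFP xs a' (h * (u - ε)) χ e0m e1 (by linarith) hy (by linarith) hχ (hxs a' ha'0 ha'1) he1 he1a he1b he1c hgr
    filter_upwards [this] with n hn _
    exact hn
  filter_upwards [F0, F1] with n G0 G1 u hu' al be ga hab
  have hs0 := G0.1
  have hs1 : (S.D n).s < 1 := lt_of_lt_of_le G0.2 (min_le_left _ _)
  have hδ0 : 0 < (S.D n).s ^ h := Real.rpow_pos_of_pos hs0 _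
  have hδ1 : (S.D n).s ^ h < 1 := Real.rpow_lt_one hs0.le hs1 hh
  by_cases hua : acc < e1 * u
  swap
  · exact (ent_pr_le_one _ _).trans (Real.one_le_rpow_of_pos_of_le_one_of_nonpos hδ0 hδ1.le (by linarith))
  have hhε : 0 < h * ε := mul_pos hh hε0
  have h3 : 3 ≤ ((S.D n).s ^ h) ^ (-ε) := by
    rw [← Real.rpow_mul hs0.le]
    have h4 : (S.D n).s ^ (h * ε) ≤ ((1 / 3 : ℝ) ^ (1 / (h * ε))) ^ (h * ε) :=
      Real.rpow_le_rpow hs0.le (G0.2.le.trans (min_le_right _ _)) hhε.le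
    rw [← Real.rpow_mul (by norm_num), one_div_mul_cancel hhε.ne', Real.rpow_one] at h4
    have e3 : h * -ε = -(h * ε) := by ring
    rw [e3, Real.rpow_neg hs0.le]
    have hp : 0 < (S.D n).s ^ (h * ε) := Real.rpow_pos_of_pos hs0 _
    rw [le_inv_comm₀ (by norm_num) hp]
    linarith
  have hst := ae1_av_store ((S.D n).P 1) ((S.D n).ae1Z π xs a')
    (fun ω => ((S.D n).smk π ⟨ae1Q π, ae1Sd xs, a', v, h, Rm, B⟩ ω).th) (fun ω => ((S.D n).smk π ⟨ae1Q π, ae1Sd xs, a', v, h, Rm, B⟩ ω).r)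
    (fun ω => ((S.D n).T 1 ω - ae1Ta (S.D n).s a' ((S.D n).ae1Z π xs a' ω)) / (S.D n).s ^ a')
    (fun ω => (((S.D n).lab 1 ω).be - ae1Ra (S.D n).s a' ((S.D n).ae1Z π xs a' ω)) / (S.D n).s ^ (a' - 1))
    ((S.D n).s ^ h) u ε Rm hδ0 hδ1 (by linarith [(hG u hu').2]) h3
    (fun ω _ => by
      rw [(ae1_av_mark hπ (S.D n) ⟨hs0, hs1⟩ xs a' v h Rm B hB ω).1]
      exact ae1_mk_trep hδ0 _ _)
    (fun ω _ => by
      rw [(ae1_av_mark hπ (S.D n) ⟨hs0, hs1⟩ xs a' v h Rm B hB ω).2]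
      exact ae1_mk_trep hδ0 _ _) al be ga hab
  refine le_trans hst ?_
  have key := G1 u hu' hua al be ga hab
  rw [← Real.rpow_mul hs0.le]
  refine key.trans ?_
  rw [← Real.rpow_mul hs0.le]
  refine lay_rpow_anti hs0 hs1 ?_
  have e4 : e1 * (h * (u - ε)) = h * (e1 * u - e1 * ε) := by ring
  rw [e4, hεe]
  have := mul_le_mul_of_nonneg_left (by linarith : e1 * u - acc ≤ e1 * u - acc / 2) hh.le
  linarith

end

end Claimed.Agent.R256
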