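import Claimed.Agent.R256.Act.E1.Fin
import Claimed.Agent.R256.Nm.Grid
import Claimed.Agent.R256.Nm.FlatP
import Claimed.Agent.R256.Lay.SepEq
import Claimed.Agent.R256.Nm.Pro.Mono
import Claimed.Agent.R256.Nm.Pred.Doc

/-!
# Row 256, section Act, E1 = Lemma act:stationary-boundary (06 l.314-430), file 2: DEFINITIONS      (architect helper279; prefix `ae1_`)

THE CONFIGURATION.   `π.E1` : classical equality family `c2 = q = 1`, `J = 0`:   `u = 0`, `b_1 i = b_2 i = n i = i - 1`, `b_2 i - i = -1`, `r_i = s^(± t)`.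
`ae1Q π` = unclipped quadratic template of the equality display (constant cuts, endpoint `1`: `Te = T_1`, `be = β_1(T_1)`),   `ae1Sd xs` = exact side `(y_0, [P]_xs, t_a, R_a)`,   `ae1Rt π xs a h B` = the root `(a, 0)` ON THE BOUNDARY `v = 0`, gap `h`, stored marks of depth `200`,
`ae1Pk Q` = package (`K = 7`, `RQ = 13`, depths `Q ∪ {6}`, children `l = 1, 40`),   `ae1Par π B` = regime (`c = 1`).
`ae1Ta`, `ae1Ra` = the frame `(t_a, R_a)` read on a value of the side;   `ae1Be`, `ae1Ka` = the physical line `t ↦ v + sl t` in the normalised marks `θ = (T_1 - t_a)/s^a`, `r = (β_1 - R_a)/s^(a-1)`:   `r - be - ka θ = (β_1 - v - sl T_1)/s^(a-1)`.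
`D.Wk π C0 τ κ0 t` = WORKING configuration: `Ok` at the tolerance `t`, margin convention `10 ≤ s^-t` of Lay/SepKit, gates `t`-dense.
-/

set_option autoImplicit false

namespace Claimed.Agent.R256

open Claimed.Agent.R255
open Claimed.Agent.R255.FLaw (pair)
open Filter Topology
open Classical

noncomputable section

/-- the classical equality configuration `q = c_2 = 1`, `J = 0` -/
structure SfPar.E1 (π : SfPar) : Prop where
  val : π.Valid
  c2 : π.c2 = 1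
  q : π.q = 1
  J : π.J = 0
  hyb : π.hyb = false

/-- the unclipped quadratic template -/
def ae1Q (π : SfPar) : NmQ := ⟨nmDsEq π, NmTp.quad, 0⟩

/-- the exact quadratic side of depth `xs` -/
def ae1Sd (xs : ℝ) : NmSd := ⟨true, false, 0, 0, xs⟩

/-- the boundary root -/
def ae1Rt (π : SfPar) (xs a h B : ℝ) : NmRt := ⟨ae1Q π, ae1Sd xs, a, 0, h, 200, B⟩

/-- the package -/
def ae1Pk (Q : Finset ℝ) : ItPk := ⟨2, 7, 13, 1, insert 6 Q, {1, 40}⟩

/-- the regime -/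
def ae1Par (π : SfPar) (B : ℝ) : ItPar := ⟨1, π.d, 0, 0, 1, B + 1⟩

/-- the side as an observation -/
def SfDoc.ae1Z (D : SfDoc) (π : SfPar) (xs a : ℝ) : D.Row 1 → NmZv D.Idx := D.side π (ae1Q π) (ae1Sd xs) a

/-- `t_a` read on a value of the side -/
def ae1Ta (s a : ℝ) {I : Type} (x : NmZv I) : ℝ := (x.2.1.2.2 : ℝ) / (2 : ℝ) ^ nmLev s a

/-- `R_a` read on a value of the side -/
def ae1Ra (s a : ℝ) {I : Type} (x : NmZv I) : ℝ := (x.2.2.1 : ℝ) / (2 : ℝ) ^ nmLev s (a - 1)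

/-- the normalised intercept of the physical line `t ↦ v + sl t` -/
def ae1Be (s a : ℝ) {I : Type} (v sl : NmZv I → ℝ) (x : NmZv I) : ℝ := (v x + sl x * ae1Ta s a x - ae1Ra s a x) / s ^ (a - 1)

/-- the normalised slope -/
def ae1Ka (s : ℝ) {I : Type} (sl : NmZv I → ℝ) (x : NmZv I) : ℝ := sl x * s

/-- the line event -/
def SfDoc.ae1Ev (D : SfDoc) (π : SfPar) (xs a z : ℝ) (v sl : NmZv D.Idx → ℝ) (ρ : D.Row 1) : Prop :=
  |(D.lab 1 ρ).be - (v (D.ae1Z π xs a ρ) + sl (D.ae1Z π xs a ρ) * D.T 1 ρ)| ≤ D.s ^ (π.b2 a + z)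

/-- the success event of the derivative lists: charged rows on which `[P]_xs` has score `≤ e` given `(y_0, t_a)` -/
def SfDoc.ae1G (D : SfDoc) (π : SfPar) (xs a e : ℝ) (ω : D.Row 1) : Prop :=
  (D.P 1).p ω ≠ 0 ∧ (D.P 1).surC (D.Pc π (nmDsEq π) xs) (pair D.y0 (D.tc a)) ω ≤ e * D.lgs

/-- a working configuration -/
structure SfDoc.Wk (D : SfDoc) (π : SfPar) (C0 τ κ0 t : ℝ) : Prop where
  ok : D.Ok π C0 τ κ0 t
  tpos : 0 < t
  t1 : t ≤ 1 / (|C0| + 4)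
  h10 : (10 : ℝ) ≤ D.s ^ (-t)
  near : ∀ a : ℝ, 0 ≤ a → a ≤ 1 → D.gt a ∈ D.G ∧ |D.gt a - a| ≤ t

theorem ae1_defs_eqns_cite : True := by
  have := @ae1Q.eq_1; have := @ae1Sd.eq_1; have := @ae1Rt.eq_1; have := @ae1Pk.eq_1; have := @ae1Par.eq_1; have := @SfDoc.ae1Z.eq_1
  have := @ae1Ta.eq_1; have := @ae1Ra.eq_1; have := @ae1Be.eq_1; have := @ae1Ka.eq_1; have := @SfDoc.ae1Ev.eq_1; have := @SfDoc.ae1G.eq_1
  trivial

/-! ## elementary facts (leaf L-256-E1-EL) -/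

/-- the exponents -/
theorem ae1_par_exp {π : SfPar} (hπ : π.E1) (i : ℝ) :
    π.b2 i = i - 1 ∧ π.b1 i = i - 1 ∧ π.u i = 0 ∧ π.n i = i - 1 ∧ (nmDsEq π).b i = i - 1 ∧ π.Cr = 1 ∧ π.LS = 1 ∧ π.mu 1 = 1 - π.d + 2 * π.Γ := by
  have h1 := hπ.c2
  have h2 := hπ.q
  have h3 := hπ.J
  refine ⟨?_, ?_, ?_, ?_, ?_, ?_, ?_, ?_⟩
  · unfold SfPar.b2; rw [h2]; ring
  · unfold SfPar.b1; rw [h2, h3]; ring
  · unfold SfPar.u; rw [h3]; ring
  · unfold SfPar.n; rw [h2, h3]; ring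
  · unfold NmDs.b nmDsEq; simp only; rw [h1]; ring
  · unfold SfPar.Cr; rw [h2, h3]; ring
  · unfold SfPar.LS SfPar.Qm; rw [if_neg (by rw [h1]; norm_num), h2]; norm_num
  · unfold SfPar.mu SfPar.mnum; ring

/-- the template belongs to the family; every boundary point is an equality point -/
theorem ae1_par_fam {π : SfPar} (hπ : π.E1) : (ae1Q π).Fam π ∧ (nmDsEq π).Raw π ∧ (ae1Q π).ds.De = 1 ∧ (ae1Q π).ds.glob = false ∧
    ∀ a : ℝ, 0 < a → a ≤ 1 → (ae1Q π).EqPt π a 0 ∧ (ae1Q π).Dom π a 0 ∧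
      (ae1Q π).Z π a 0 = (2 + 3 * π.d - 2 * π.Γ - π.η) * a - (1 - π.η) := by
  have h1 := hπ.c2
  have h2 := hπ.q
  have h3 := hπ.J
  have h4 := hπ.hyb
  refine ⟨⟨le_refl _, (fun h => by cases h), Or.inl ⟨by rw [h1]; norm_num, by rw [h1, h2], rfl, (fun h => by cases h)⟩⟩, ⟨rfl, Or.inr rfl⟩, rfl, rfl,
    fun a ha0 ha1 => ?_⟩
  obtain ⟨e1, e2, e3, e4, e5, e6, -, -⟩ := ae1_par_exp hπ a
  have hl : (ae1Q π).l π a 0 = a - 1 := by
    show (nmDsEq π).b a + 0 = a - 1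
    rw [e5, add_zero]
  have hw : (ae1Q π).w π a 0 = a - 1 := by
    show (nmDsEq π).b a + 2 * 0 = a - 1
    rw [e5]; ring
  refine ⟨⟨rfl, by rw [hl, e2], Or.inr (Or.inl ⟨h4, rfl, by rw [e6]; norm_num, ha0, ha1, e3.symm⟩)⟩,
    ⟨ha0.le, ha1, le_refl _, fun h => by rw [h4] at h; cases h⟩, ?_⟩
  unfold NmQ.Z NmQ.W
  rw [hw]
  have hg : (ae1Q π).g = 0 := rfl
  rw [hg]
  have := hπ.val.pd
  have hp : π.p = 1 + 2 * π.d - 2 * π.Γ := by linarith
  rw [hp]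
  ring

/-- the boundary root is admissible (any `Λ`), the package is sane and fits -/
theorem ae1_rt_ok {π : SfPar} (hπ : π.E1) (Λ xs a h B : ℝ) (ha : 0 < a ∧ a < 1) (hx : a - 1 < xs) (Q : Finset ℝ) (hQ : ∀ q ∈ Q, 0 ≤ q ∧ q ≤ 3) :
    (ae1Rt π xs a h B).Ok π Λ ∧ (ae1Pk Q).Ok ∧ (ae1Rt π xs a h B).Reg π (B + 1) (ae1Par π B) ∧
      (0 < h → a + 40 * h < 1 → (ae1Rt π xs a h B).Fits π (ae1Pk Q)) := by
  have h1 := hπ.c2
  have h4 := hπ.hyb
  have hc : (ae1Rt π xs a h B).c π = 1 := by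
    show (if (false : Bool) = true then π.q - π.J else π.c2) = 1
    rw [if_neg (by simp), h1]
  obtain ⟨-, -, -, -, e5, -, -, -⟩ := ae1_par_exp hπ a
  have hl : (ae1Q π).l π a 0 = a - 1 := by
    show (nmDsEq π).b a + 0 = a - 1
    rw [e5, add_zero]
  refine ⟨?_, ?_, ⟨hc.symm, rfl, rfl⟩, fun hh h40 => ?_⟩
  · exact
      { q := (ae1_par_fam hπ).1
        g0 := rfl
        ha := ha
        hv := le_refl _
        rate := by rw [hc]; norm_num
        hyb := fun h => by rw [h4] at h; cases h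
        brq := fun _ => ⟨(fun h => by cases h), rfl⟩
        brl := fun h => by cases h
        anc := fun h => by cases h
        cq := fun h => by cases h
        eq := fun _ _ => ⟨by
          show (ae1Q π).l π a 0 < xs
          rw [hl]; exact hx, fun h => by cases h⟩ }
  · refine ⟨le_refl _, by norm_num [ae1Pk], by norm_num [ae1Pk], by norm_num [ae1Pk], ⟨1, by simp [ae1Pk]⟩, fun l hl => ?_, fun q hq => ?_⟩
    · have : l = 1 ∨ l = 40 := by simpa [ae1Pk] using hl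
      rcases this with rfl | rfl <;> norm_num
    · have : q = 6 ∨ q ∈ Q := by simpa [ae1Pk] using hq
      show 0 ≤ q ∧ q ≤ 7
      rcases this with rfl | hq'
      · norm_num
      · have := hQ q hq'
        exact ⟨this.1, by linarith⟩
  · refine ⟨hh, fun p hp => ?_, fun l hl => ?_, ?_, ?_, fun l hl => ?_⟩
    · have : p = 6 ∨ p ∈ Q := by simpa [ae1Pk] using hp
      show a + p * h < 1
      rcases this with rfl | hq'
      · nlinarith
      · have := hQ p hq'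
        nlinarith
    · have : l = 1 ∨ l = 40 := by simpa [ae1Pk] using hl
      show a + l * h < 1
      rcases this with rfl | rfl
      · nlinarith
      · exact h40
    · show a + 13 * h < 1
      nlinarith
    · show (2 : ℝ) * 13 ≤ 200
      norm_num
    · have : l = 1 ∨ l = 40 := by simpa [ae1Pk] using hl
      rw [hc]
      show (2 + 1) * l ≤ (200 : ℝ)
      rcases this with rfl | rfl <;> norm_num

/-- the bound of the line test exceeds the boundary entropy by `4Γ + η`      (`g = 1 - d + 2Γ`;  `d ≤ 1/2`: `2 + 5d + 2Γ`;  `d ≥ 1/2`: `4 + d + 2Γ`) -/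
theorem ae1_num_lt {π : SfPar} (hπ : π.Valid) :
    (2 + 3 * π.d - 2 * π.Γ - π.η) + (4 * π.Γ + π.η)
      ≤ 2 * π.d + (1 - π.d + 2 * π.Γ) + 2 * min 1 (2 * π.d) + min 1 (π.d + (1 - π.d + 2 * π.Γ)) := by
  have h1 := hπ.eta.1
  have h2 := hπ.gam
  have h3 := hπ.d1
  have e1 : min 1 (π.d + (1 - π.d + 2 * π.Γ)) = 1 := min_eq_left (by linarith)
  have e2 : π.d ≤ min 1 (2 * π.d) := le_min h3.2 (by linarith)
  rw [e1]
  linarith

/-- fine configurations of small tolerance are working configurations      (`t0 = min t (10^(-1/t))`: `s ≤ t0`;  `nm_gt_mem`, `nm_gt_near` of Nm/Pred/Doc, `nm_pro_ok_mono` of Nm/Pro/Mono) -/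
theorem ae1_wk (π : SfPar) (C0 τ κ0 t : ℝ) (ht : 0 < t) (ht1 : t ≤ 1 / (|C0| + 4)) :
    ∃ t0 : ℝ, 0 < t0 ∧ ∀ t' : ℝ, t' ≤ t0 → ∀ D : SfDoc, D.Fine π C0 τ κ0 t' → D.Wk π C0 τ κ0 t := by
  refine ⟨min t ((10 : ℝ) ^ (-(1 / t))), lt_min ht (Real.rpow_pos_of_pos (by norm_num) _), fun t' ht' D hD => ?_⟩
  have h1 : t' ≤ t := ht'.trans (min_le_left _ _)
  have h2 : t' ≤ (10 : ℝ) ^ (-(1 / t)) := ht'.trans (min_le_right _ _)
  have hs := hD.ok.core.hs
  refine ⟨nm_pro_ok_mono D π C0 τ κ0 κ0 t' t hD.pos h1 (le_refl _) hD.ok, ht, ht1, ?_, fun a h0 ha1 => ?_⟩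
  · have h3 : D.s ≤ (10 : ℝ) ^ (-(1 / t)) := hD.sm.trans h2
    have h4 : ((10 : ℝ) ^ (-(1 / t))) ^ (-t) ≤ D.s ^ (-t) := Real.rpow_le_rpow_of_nonpos hs.1 h3 (by linarith)
    rw [← Real.rpow_mul (by norm_num)] at h4
    have e : -(1 / t) * -t = 1 := by field_simp
    rwa [e, Real.rpow_one] at h4
  · obtain ⟨j, hj, -⟩ := hD.mesh a h0 ha1
    exact ⟨nm_gt_mem D ⟨j, hj⟩ a, (nm_gt_near hD h0 ha1).trans h1⟩

/-- along a sequence -/
theorem ae1_s_wk {π : SfPar} {C0 : ℝ} {κ : ℝ → ℝ} (S : NmSeq π C0 κ) (τ t : ℝ) (hτ : 0 < τ) (ht : 0 < t) (ht1 : t ≤ 1 / (|C0| + 4)) :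
    ∀ᶠ n in uf, (S.D n).Wk π C0 τ (κ τ) t := by
  obtain ⟨t0, ht0, H⟩ := ae1_wk π C0 τ (κ τ) t ht ht1
  have h1 : ∀ᶠ n in uf, S.t n < t0 := S.lim.eventually (gt_mem_nhds ht0)
  filter_upwards [h1] with n hn
  exact H (S.t n) hn.le (S.D n) (S.fine n τ hτ)

/-- the scales tend to `0` -/
theorem ae1_s_small {π : SfPar} {C0 : ℝ} {κ : ℝ → ℝ} (S : NmSeq π C0 κ) (s0 : ℝ) (hs0 : 0 < s0) :
    ∀ᶠ n in uf, 0 < (S.D n).s ∧ (S.D n).s < s0 := by
  have h1 : ∀ᶠ n in uf, S.t n < s0 := S.lim.eventually (gt_mem_nhds hs0)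
  filter_upwards [h1] with n hn
  have hf := S.fine n 1 one_pos
  exact ⟨hf.ok.core.hs.1, lt_of_le_of_lt hf.sm hn⟩

end

end Claimed.Agent.R256
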