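import Claimed.Agent.R256.Act.E1.Defs
import Claimed.Agent.R255.Rate.ExtGrid

/-!
# Row 256, section Act, E1 = Lemma act:stationary-boundary (06 l.314-430), file 3: ONE DOCUMENTED CONFIGURATION      (architect helper279; prefix `ae1_`)

Everything on ONE `D : SfDoc` with `D.Wk π C0 τ κ0 t` (working tolerance `t`, margin `10 ≤ s^-t`: a constant `≤ 10` costs one `t`, `lay_rpow_abs`), family `π.E1`:  `b_2 i = i - 1`, `b_2 i - i = -1`, `u = 0`.   Kit: Lay/SepKit, template: Lay/SepEq (`lay_sep_eq`).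
## A. marks and line      `ae1_mark`, `ae1_line`      (06 l.343-352)
## B. lists      `ae1_side_row` (starting rows know the exact side), `ae1_lab_x` (a label knows `X^(0)`), `ae1_lab_comp`
## C. causal time lists      `ae1_conf` (= `lay_conf` with `N` values of the side), `ae1_time`      (06 l.357-360, names:mark-dimension)
## D. THE COST STEP      `Ae1Sit`, `ae1_c_row/a/b/c/sz`, `ae1_cost` (PROVED from them and `lay_extract`)      (06 l.386-424)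
 gates `i < j`, `y = j - i`;  meshes `g = s^(i-1+ϖ)` (values at the starting time `Ta`), `g' = s^(-1+ϖ)` (slopes);  `bin ρ' ρ = (Ta ρ', ⌊(v + sl Ta)/g⌋, ⌊sl/g'⌋)`,  `sg (T, m, m') = layShear T (m g) (m' g') 0`.
 (row) `|be_j - (v + sl T_j)| ≤ 4 s^(j-1-X-t)`:  `cmpA (j,1)` `s^(j-1-t)`, `eqK` `len_j |K_j| ≤ s^(j-1-t)`, tube `s^(j-1)`, `|sl| len_j ≤ s^(-1-X) s^(j-t)`.
 (a) `Ta = T_i ρ0` (`lay_ta_eq`): the bin is a function of the side: `≤ N`.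
 (b) label `lam`: `≤ N` values of `W`, `≤ 2` of `Ta` (`lay_ta_two`), `≤ 4` slope bins (`|sl - J(W)| ≤ g'`, `lay_floor_count`);  then `v + sl Ta = (v + sl T_j) - m' g' (T_j - Ta) + O(g' s^(i-t))` lies within `5 g s^-t` of `lam.be - m' g' (lam.T - Ta)`: `≤ 12 s^-t` value bins.   Total `≤ 96 N s^-t ≤ N s^(-3t)`.
 (c) `|be_j - m g - (T_j - Ta) m' g'| ≤ 4 s^(j-1-X-t) + g + s^(i-t) g' ≤ 6 s^(i-1+ϖ-t)` (`ϖ ≤ y - X`);  `len_j |K_j| ≤ s^(j-1-t)`, `len_j |m' g'| ≤ 2 s^(j-1-X-t)`;  `r²/f ≤ s^(1-j-3t)` (`lay_pref2`):  `sfR2 ≤ 9 s^(-y+ϖ-4t) ≤ s^(-(1-τc) y)` (`τc y + 5t ≤ ϖ`).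
 (sz) `|m g| ≤ s^-C0 + 6 s^(-2-t)`, `|m' g'| ≤ 2 s^-2`.
-/

set_option autoImplicit false

namespace Claimed.Agent.R256

open Claimed.Agent.R255
open Claimed.Agent.R255.FLaw (pair)
open Classical

noncomputable section

/-! ## A. marks and line -/

/-- the raw datum of the equality display -/
theorem ae1_mk_raw (π : SfPar) (D : SfDoc) (ω : D.Row 1) :
    (D.raw π (nmDsEq π) ω).T = D.T 1 ω ∧ (D.raw π (nmDsEq π) ω).Te = D.T 1 ω ∧ (D.raw π (nmDsEq π) ω).be = (D.lab 1 ω).be := by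
  have h1 : D.labAt (nmDsEq π).De ω = D.lab 1 ω := by
    show D.labAt 1 ω = _
    unfold SfDoc.labAt
    rw [if_pos rfl]
  have h2 : D.kbar π (nmDsEq π) ω = 0 := by
    unfold SfDoc.kbar
    rw [if_neg (by simp [nmDsEq])]
  refine ⟨rfl, ?_, ?_⟩
  · show (D.labAt (nmDsEq π).De ω).T = _
    rw [h1]
    rfl
  · show (D.labAt (nmDsEq π).De ω).be - D.kbar π (nmDsEq π) ω * (D.labAt (nmDsEq π).De ω).T = _
    rw [h1, h2]
    ring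

theorem ae1_mk_cut {π : SfPar} (hπ : π.E1) : (nmDsEq π).cut = NmCut.const ∧ ∀ a : ℝ, (nmDsEq π).b a = a - 1 := by
  constructor
  · unfold nmDsEq
    simp only
    rw [if_neg (by rw [hπ.c2]; exact lt_irrefl _)]
  · intro a
    unfold NmDs.b nmDsEq
    simp only
    rw [hπ.c2]
    ring

theorem ae1_mk_const (x : NmRaw) (s : ℝ) (q : NmQ) (a : ℝ) (hc : q.ds.cut = NmCut.const) (hb : q.ds.b a = a - 1) :
    x.Rc s q a = nmCell s (a - 1) x.be ∧ x.Ra s q a = nmRep s (a - 1) x.be ∧ x.kraw q = 0 ∧ x.ka s q a = 0 := by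
  have h1 : x.Rraw s q a = x.be := by
    unfold NmRaw.Rraw
    rw [hc]
  have h2 : x.kraw q = 0 := by
    unfold NmRaw.kraw
    rw [hc]
  refine ⟨?_, ?_, h2, ?_⟩
  · unfold NmRaw.Rc
    rw [h1, hb]
  · unfold NmRaw.Ra
    rw [h1, hb]
  · unfold NmRaw.ka
    rw [h2, nm_rep_zero]

theorem ae1_mk_unit {s : ℝ} (h0 : 0 < s) (h1 : s < 1) (b x : ℝ) : 0 ≤ (x - nmRep s b x) / s ^ b ∧ (x - nmRep s b x) / s ^ b ≤ 1 := by
  have hp : 0 < s ^ b := Real.rpow_pos_of_pos h0 _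
  have a1 := nm_rep_le s b x
  have a2 := (abs_le.1 (nm_rep_abs h0 h1 b x)).2
  exact ⟨div_nonneg (by linarith) hp.le, (div_le_one hp).2 a2⟩

theorem ae1_mk_frame {π : SfPar} (hπ : π.E1) (D : SfDoc) (xs a : ℝ) (ω : D.Row 1) :
    ae1Ta D.s a (D.ae1Z π xs a ω) = nmRep D.s a (D.T 1 ω) ∧ ae1Ra D.s a (D.ae1Z π xs a ω) = nmRep D.s (a - 1) (D.lab 1 ω).be := by
  obtain ⟨rT, rTe, rbe⟩ := ae1_mk_raw π D ω
  obtain ⟨hcut, hb⟩ := ae1_mk_cut hπ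
  obtain ⟨c1, c2, c3, c4⟩ := ae1_mk_const (D.raw π (nmDsEq π) ω) D.s (ae1Q π) a hcut (hb a)
  refine ⟨rfl, ?_⟩
  show (((D.raw π (nmDsEq π) ω).Rc D.s (ae1Q π) a : ℤ) : ℝ) / _ = _
  rw [c1, rbe]
  rfl

/-- LEAF L-256-E1-MK.   The stored marks of the boundary root are the normalised time and curvature in the frame `(t_a, R_a)` of the side, up to `δ^200`;  both lie in `[0,1]`.
`Te = T_1`, `be = β_1` (`labAt 1 = lab 1`, no global bin), constant cut: `Rraw = be`, `kraw = 0`, `ka = 0`, `k = 0`;  `0 ≤ x - nmRep s b x ≤ 2^(-nmLev s b) ≤ s^b`;  `B ≥ 1`: `nmStore` stores `trep δ 200`, `|trep δ R x - x| ≤ δ^R`. -/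
theorem ae1_mark {π : SfPar} (hπ : π.E1) (D : SfDoc) (hs : 0 < D.s ∧ D.s < 1) (xs a h B : ℝ) (hh : 0 < h) (hB : 1 ≤ B) (ω : D.Row 1) :
    0 ≤ (D.T 1 ω - ae1Ta D.s a (D.ae1Z π xs a ω)) / D.s ^ a ∧ (D.T 1 ω - ae1Ta D.s a (D.ae1Z π xs a ω)) / D.s ^ a ≤ 1 ∧
    0 ≤ ((D.lab 1 ω).be - ae1Ra D.s a (D.ae1Z π xs a ω)) / D.s ^ (a - 1) ∧ ((D.lab 1 ω).be - ae1Ra D.s a (D.ae1Z π xs a ω)) / D.s ^ (a - 1) ≤ 1 ∧
    (D.smk π (ae1Rt π xs a h B) ω).th = trep (D.s ^ h) 200 ((D.T 1 ω - ae1Ta D.s a (D.ae1Z π xs a ω)) / D.s ^ a) ∧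
    (D.smk π (ae1Rt π xs a h B) ω).r = trep (D.s ^ h) 200 (((D.lab 1 ω).be - ae1Ra D.s a (D.ae1Z π xs a ω)) / D.s ^ (a - 1)) := by
  obtain ⟨h0, h1⟩ := hs
  obtain ⟨rT, rTe, rbe⟩ := ae1_mk_raw π D ω
  obtain ⟨hcut, hb⟩ := ae1_mk_cut hπ
  obtain ⟨c1, c2, c3, c4⟩ := ae1_mk_const (D.raw π (nmDsEq π) ω) D.s (ae1Q π) a hcut (hb a)
  obtain ⟨f1, f2⟩ := ae1_mk_frame hπ D xs a ω
  rw [f1, f2]
  obtain ⟨u1, u2⟩ := ae1_mk_unit h0 h1 a (D.T 1 ω)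
  obtain ⟨v1, v2⟩ := ae1_mk_unit h0 h1 (a - 1) (D.lab 1 ω).be
  have m1 : ((D.raw π (nmDsEq π) ω).mark D.s π (ae1Q π) a true).th = (D.T 1 ω - nmRep D.s a (D.T 1 ω)) / D.s ^ a := by
    show ((D.raw π (nmDsEq π) ω).Te - (D.raw π (nmDsEq π) ω).ta D.s a) / D.s ^ a = _
    unfold NmRaw.ta
    rw [rTe, rT]
  have m2 : ((D.raw π (nmDsEq π) ω).mark D.s π (ae1Q π) a true).r = ((D.lab 1 ω).be - nmRep D.s (a - 1) (D.lab 1 ω).be) / D.s ^ (a - 1) := by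
    show ((D.raw π (nmDsEq π) ω).be - ((D.raw π (nmDsEq π) ω).Ra D.s (ae1Q π) a
      + ((D.raw π (nmDsEq π) ω).Te - (D.raw π (nmDsEq π) ω).ta D.s a) * (D.raw π (nmDsEq π) ω).ka D.s (ae1Q π) a)) / D.s ^ ((ae1Q π).ds.b a) = _
    rw [c2, c4, rbe, mul_zero, add_zero]
    congr 2
    exact hb a
  have m3 : ((D.raw π (nmDsEq π) ω).mark D.s π (ae1Q π) a true).k = 0 := by
    show ((D.raw π (nmDsEq π) ω).kraw (ae1Q π) - (D.raw π (nmDsEq π) ω).ka D.s (ae1Q π) a) * _ = 0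
    rw [c3, c4, sub_zero, zero_mul]
  have hst : D.smk π (ae1Rt π xs a h B) ω = nmStore (D.s ^ h) 200 B ((D.raw π (nmDsEq π) ω).mark D.s π (ae1Q π) a true) := rfl
  have hcond : |((D.raw π (nmDsEq π) ω).mark D.s π (ae1Q π) a true).th| ≤ B ∧ |((D.raw π (nmDsEq π) ω).mark D.s π (ae1Q π) a true).r| ≤ B
      ∧ |((D.raw π (nmDsEq π) ω).mark D.s π (ae1Q π) a true).k| ≤ B := by
    rw [m1, m2, m3, abs_of_nonneg u1, abs_of_nonneg v1, abs_zero]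
    exact ⟨u2.trans hB, v2.trans hB, by linarith⟩
  refine ⟨u1, u2, v1, v2, ?_, ?_⟩
  · rw [hst]
    unfold nmStore
    rw [if_pos hcond, m1]
  · rw [hst]
    unfold nmStore
    rw [if_pos hcond, m2]

theorem ae1_mk_trep {δ : ℝ} (h0 : 0 < δ) (R x : ℝ) : |trep δ R x - x| ≤ δ ^ R := by
  have a1 := ig_trep_le δ R x
  have a2 := ig_lt_trep δ R x
  have a3 := ig_msh_le δ R h0
  rw [abs_le]
  constructor <;> linarith

theorem ae1_mk_num {δ τ ρ θ be ka rs θs : ℝ} (hδ0 : 0 < δ) (hδ1 : δ < 1) (h3 : 3 ≤ δ ^ (-(τ / 2)))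
    (hρ : 0 ≤ ρ ∧ ρ ≤ 1) (hθ : 0 ≤ θ ∧ θ ≤ 1) (hka : |ka| ≤ δ ^ (-(τ / 2))) (hl : |ρ - be - ka * θ| ≤ δ ^ (400 : ℝ))
    (hrs : |rs - ρ| ≤ δ ^ (200 : ℝ)) (hθs : |θs - θ| ≤ δ ^ (200 : ℝ)) :
    |be| ≤ δ ^ (-τ) ∧ |ka| ≤ δ ^ (-τ) ∧ |rs - be - ka * θs| ≤ δ ^ (10 - τ) := by
  obtain ⟨E, hE⟩ : ∃ E, E = δ ^ (-(τ / 2)) := ⟨_, rfl⟩
  obtain ⟨w, hw⟩ : ∃ w, w = δ ^ (200 : ℝ) := ⟨_, rfl⟩
  have hw0 : 0 < w := by rw [hw]; exact Real.rpow_pos_of_pos hδ0 _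
  have hw1 : w ≤ 1 := by rw [hw]; exact Real.rpow_le_one hδ0.le hδ1.le (by norm_num)
  have h400 : δ ^ (400 : ℝ) ≤ w := by rw [hw]; exact lay_rpow_anti hδ0 hδ1 (by norm_num)
  have eEE : δ ^ (-τ) = E * E := by
    rw [hE, ← Real.rpow_add hδ0]
    congr 1
    ring
  have e10 : w * (E * E) ≤ δ ^ (10 - τ) := by
    rw [← eEE, hw, ← Real.rpow_add hδ0]
    exact lay_rpow_anti hδ0 hδ1 (by linarith)
  rw [← hE] at h3 hka
  rw [← hw] at hrs hθs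
  have hEE : E + 2 ≤ E * E := by nlinarith
  have k1 : |ka * θ| ≤ E := by
    have := nm_abs_mul_le hka (show |θ| ≤ 1 by rw [abs_of_nonneg hθ.1]; exact hθ.2)
    linarith
  have k2 : |ka * (θs - θ)| ≤ E * w := nm_abs_mul_le hka hθs
  rw [eEE]
  refine ⟨?_, ?_, le_trans ?_ e10⟩
  · have e : be = ρ - ka * θ - (ρ - be - ka * θ) := by ring
    rw [abs_le] at k1 hl ⊢
    constructor <;> linarith [hρ.1, hρ.2]
  · exact hka.trans (by nlinarith)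
  · have e : rs - be - ka * θs = (ρ - be - ka * θ) + (rs - ρ) - ka * (θs - θ) := by ring
    have h5 : w * (E + 2) ≤ w * (E * E) := mul_le_mul_of_nonneg_left hEE hw0.le
    rw [e]
    rw [abs_le] at k2 hl hrs ⊢
    constructor <;> nlinarith

/-- LEAF L-256-E1-MK.   **the line in the normalised marks.**   `z = 400 h`, `δ = s^h`, `800 χ' ≤ τ`:   `|ka| = |sl| s ≤ s^(-χ' z) ≤ δ^(-τ/2)`,  `|be| ≤ |r| + |ka| |θ| + s^z ≤ 3 δ^(-τ/2)`,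
`|r_st - be - ka θ_st| ≤ δ^400 + δ^200 (1 + |ka|) ≤ δ^(10-τ)`      (`ae1_mark`; identity `r - be - ka θ = (β_1 - v - sl T_1)/s^(a-1)`). -/
theorem ae1_line {π : SfPar} (hπ : π.E1) (D : SfDoc) (hs : 0 < D.s ∧ D.s < 1) (xs a h B τ χ' : ℝ) (hh : 0 < h) (hB : 1 ≤ B) (hτ : 0 < τ ∧ τ ≤ 1)
    (hχ : 0 ≤ χ' ∧ 800 * χ' ≤ τ) (h3 : (3 : ℝ) ≤ (D.s ^ h) ^ (-(τ / 2))) (dsp : ℝ → NmNm → NmNm → ItDsp) (v sl : NmZv D.Idx → ℝ)
    (hsl : ∀ x, |sl x| ≤ D.s ^ (π.b2 a - a - χ' * (400 * h))) (A : D.Row 1 → Prop) (hA : 0 < (D.P 1).pr A)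
    (hAl : ∀ ω, A ω → D.ae1Ev π xs a (400 * h) v sl ω) :
    (nmTan D π (ae1Rt π xs a h B) dsp).LtLine A (D.ae1Z π xs a) (ae1Be D.s a v sl) (ae1Ka D.s sl) τ := by
  obtain ⟨h0, h1⟩ := id hs
  have hδ0 : 0 < D.s ^ h := Real.rpow_pos_of_pos h0 _
  have hδ1 : D.s ^ h < 1 := Real.rpow_lt_one h0.le h1 hh
  have hb2 : π.b2 a = a - 1 := by
    unfold SfPar.b2
    rw [hπ.q, one_mul]
  have key : ∀ ω, A ω → |ae1Be D.s a v sl (D.ae1Z π xs a ω)| ≤ (D.s ^ h) ^ (-τ) ∧ |ae1Ka D.s sl (D.ae1Z π xs a ω)| ≤ (D.s ^ h) ^ (-τ) ∧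
      |(D.smk π (ae1Rt π xs a h B) ω).r - ae1Be D.s a v sl (D.ae1Z π xs a ω)
        - ae1Ka D.s sl (D.ae1Z π xs a ω) * (D.smk π (ae1Rt π xs a h B) ω).th| ≤ (D.s ^ h) ^ (10 - τ) := by
    intro ω hω
    obtain ⟨u1, u2, v1, v2, m1, m2⟩ := ae1_mark hπ D hs xs a h B hh hB ω
    have hev := hAl ω hω
    unfold SfDoc.ae1Ev at hev
    obtain ⟨x, hx⟩ : ∃ x, x = D.ae1Z π xs a ω := ⟨_, rfl⟩
    rw [← hx] at u1 u2 v1 v2 m1 m2 hev ⊢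
    have hpa : 0 < D.s ^ a := Real.rpow_pos_of_pos h0 _
    have hpa1 : 0 < D.s ^ (a - 1) := Real.rpow_pos_of_pos h0 _
    have esa : D.s ^ a = D.s ^ (a - 1) * D.s := by
      rw [← Real.rpow_add_one h0.ne']
      congr 1
      ring
    refine ae1_mk_num hδ0 hδ1 h3 ⟨v1, v2⟩ ⟨u1, u2⟩ ?_ ?_ ?_ ?_
    · unfold ae1Ka
      rw [abs_mul, abs_of_pos h0]
      calc |sl x| * D.s ≤ D.s ^ (π.b2 a - a - χ' * (400 * h)) * D.s := mul_le_mul_of_nonneg_right (hsl x) h0.le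
        _ = D.s ^ (h * (-(400 * χ'))) := by
            rw [← Real.rpow_add_one h0.ne', hb2]
            congr 1
            ring
        _ = (D.s ^ h) ^ (-(400 * χ')) := Real.rpow_mul h0.le _ _
        _ ≤ _ := lay_rpow_anti hδ0 hδ1 (by linarith [hχ.2])
    · have e : ((D.lab 1 ω).be - ae1Ra D.s a x) / D.s ^ (a - 1) - ae1Be D.s a v sl x - ae1Ka D.s sl x * ((D.T 1 ω - ae1Ta D.s a x) / D.s ^ a)
          = ((D.lab 1 ω).be - (v x + sl x * D.T 1 ω)) / D.s ^ (a - 1) := by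
        unfold ae1Be ae1Ka
        rw [esa]
        field_simp
        ring
      rw [e, abs_div, abs_of_pos hpa1, div_le_iff₀ hpa1]
      refine hev.trans (le_of_eq ?_)
      rw [← Real.rpow_mul h0.le, ← Real.rpow_add h0, hb2]
      congr 1
      ring
    · rw [m2]
      exact ae1_mk_trep hδ0 _ _
    · rw [m1]
      exact ae1_mk_trep hδ0 _ _
  exact ⟨hA, fun ω _ hω => ⟨(key ω hω).1, (key ω hω).2.1⟩, fun ω _ hω => (key ω hω).2.2⟩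

/-! ## B. lists -/

/-- lists indexed by the values of the condition -/
theorem ae1_row_nval {Ω α β : Type} [Fintype Ω] (P : FLaw Ω) (E : Ω → Prop) (B : Ω → β) (A : Ω → α) (N : ℝ) (hN : 0 ≤ N)
    (h : P.NVal E B A N) : ∃ f : α → Finset β, (∀ x, ((f x).card : ℝ) ≤ N) ∧ ∀ ω, P.p ω ≠ 0 → E ω → B ω ∈ f (A ω) := by
  choose g hg1 hg2 using h
  refine ⟨fun x => if h : ∃ ω₀, A ω₀ = x then g h.choose else ∅, fun x => ?_, fun ω hp hE => ?_⟩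
  · by_cases h : ∃ ω₀, A ω₀ = x
    · simp only [dif_pos h]
      exact hg1 _
    · simp only [dif_neg h]
      simpa using hN
  · have h : ∃ ω₀, A ω₀ = A ω := ⟨ω, rfl⟩
    simp only [dif_pos h]
    exact hg2 _ ω hp hE h.choose_spec.symm

/-- numbers within `r` of `c` meet few cells of the depth `b` -/
theorem ae1_row_cells {s : ℝ} (h0 : 0 < s) (h1 : s < 1) (b c r : ℝ) (hr : 0 ≤ r) :
    ∃ I : Finset ℤ, (I.card : ℝ) ≤ 4 * r * s ^ (-b) + 2 ∧ ∀ x, |x - c| ≤ r → nmCell s b x ∈ I := by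
  obtain ⟨W, hW⟩ : ∃ W : ℝ, W = (2 : ℝ) ^ nmLev s b := ⟨_, rfl⟩
  have hW0 : 0 < W := by rw [hW]; positivity
  have hW1 : W ≤ 2 * s ^ (-b) := by
    have h2 := nm_wd_gt h0 h1 b
    unfold nmWd at h2
    rw [← hW] at h2
    have hp : 0 < s ^ b := Real.rpow_pos_of_pos h0 _
    rw [Real.rpow_neg h0.le]
    rw [← div_eq_mul_inv, lt_div_iff₀ hW0] at h2
    rw [← div_eq_mul_inv, le_div_iff₀ hp]
    linarith
  refine ⟨Finset.Icc ⌊(c - r) * W⌋ ⌊(c + r) * W⌋, ?_, fun x hx => ?_⟩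
  · rw [Int.card_Icc]
    have g1 : ⌊(c - r) * W⌋ ≤ ⌊(c + r) * W⌋ := Int.floor_le_floor (mul_le_mul_of_nonneg_right (by linarith) hW0.le)
    have g2 : ((⌊(c + r) * W⌋ + 1 - ⌊(c - r) * W⌋).toNat : ℤ) = ⌊(c + r) * W⌋ + 1 - ⌊(c - r) * W⌋ := Int.toNat_of_nonneg (by omega)
    have g3 : (((⌊(c + r) * W⌋ + 1 - ⌊(c - r) * W⌋).toNat : ℕ) : ℝ) = (⌊(c + r) * W⌋ : ℝ) + 1 - ⌊(c - r) * W⌋ := by
      have := congrArg (fun z : ℤ => (z : ℝ)) g2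
      push_cast at this
      exact this
    rw [g3]
    have g4 := Int.floor_le ((c + r) * W)
    have g5 := Int.lt_floor_add_one ((c - r) * W)
    have g6 : r * W ≤ r * (2 * s ^ (-b)) := mul_le_mul_of_nonneg_left hW1 hr
    nlinarith
  · have hx' := abs_le.1 hx
    unfold nmCell
    rw [← hW, Finset.mem_Icc]
    exact ⟨Int.floor_le_floor (mul_le_mul_of_nonneg_right (by linarith) hW0.le),
      Int.floor_le_floor (mul_le_mul_of_nonneg_right (by linarith) hW0.le)⟩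

/-- the exact side, explicitly -/
theorem ae1_row_side {π : SfPar} (hπ : π.E1) (D : SfDoc) (xs a : ℝ) (ω : D.Row 1) :
    D.ae1Z π xs a ω = ((some (D.y0 ω), nmZero), (0, D.Pc π (nmDsEq π) xs ω, D.tc a ω), (nmCell D.s (a - 1) (D.lab 1 ω).be, 0, 0)) := by
  obtain ⟨rT, rTe, rbe⟩ := ae1_mk_raw π D ω
  obtain ⟨hcut, hb⟩ := ae1_mk_cut hπ
  obtain ⟨c1, c2, c3, c4⟩ := ae1_mk_const (D.raw π (nmDsEq π) ω) D.s (ae1Q π) a hcut (hb a)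
  have k1 : (D.raw π (nmDsEq π) ω).kc D.s (ae1Q π) a = 0 := by
    unfold NmRaw.kc
    rw [c3, nm_cell_zero]
  have k2 : (D.raw π (nmDsEq π) ω).kb = 0 := rfl
  show ((some (D.y0 ω), nmZero), ((D.raw π (nmDsEq π) ω).kb, D.Pc π (nmDsEq π) xs ω, D.tc a ω),
    ((D.raw π (nmDsEq π) ω).Rc D.s (ae1Q π) a, (D.raw π (nmDsEq π) ω).kc D.s (ae1Q π) a, 0)) = _
  rw [k1, k2, c1, rbe]

theorem ae1_row_num {u NP c1 c2 : ℝ} (hu : 10 ≤ u) (hNP : 1 ≤ NP) (h1 : c1 ≤ 4 * u ^ 2 + 2) (h2 : c2 ≤ 8 * u ^ 2 + 2) (h10 : 0 ≤ c1) (h20 : 0 ≤ c2) :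
    c1 * (NP * c2) ≤ NP * u ^ 10 := by
  have hu2 : 100 ≤ u ^ 2 := by nlinarith
  have a1 : c1 ≤ 5 * u ^ 2 := by linarith
  have a2 : c2 ≤ 9 * u ^ 2 := by linarith
  have a3 : c1 * c2 ≤ (5 * u ^ 2) * (9 * u ^ 2) := mul_le_mul a1 a2 h20 (by positivity)
  have a4 : (5 * u ^ 2) * (9 * u ^ 2) ≤ u ^ 10 := by
    have e : u ^ 10 = (u ^ 2) ^ 2 * ((u ^ 2) * (u ^ 2) * (u ^ 2)) := by ring
    have b1 : (45 : ℝ) ≤ (u ^ 2) * (u ^ 2) * (u ^ 2) := by nlinarith [mul_nonneg (by positivity : (0 : ℝ) ≤ u ^ 2) (by positivity : (0 : ℝ) ≤ u ^ 2)]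
    calc (5 * u ^ 2) * (9 * u ^ 2) = (u ^ 2) ^ 2 * 45 := by ring
      _ ≤ (u ^ 2) ^ 2 * ((u ^ 2) * (u ^ 2) * (u ^ 2)) := mul_le_mul_of_nonneg_left b1 (by positivity)
      _ = _ := e.symm
  calc c1 * (NP * c2) = NP * (c1 * c2) := by ring
    _ ≤ NP * u ^ 10 := mul_le_mul_of_nonneg_left (a3.trans a4) (by linarith)

/-- LEAF L-256-E1-ROW.   **starting rows know the exact side** (06 l.398-400).   Gate `i ≥ a - t`, `i < 1`.   Along `Conn i 1 ρ0 ω`:  `y_0` = index of `ρ0` (`base`);  `T_1 ∈ [T_i, T_i + len_i)`, `len_i ≤ s^(a-2t)`: `≤ 2 s^(-2t) + 2` cells `t_a`;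
`|β_1 - be_i| ≤ 2 s^(i-1-t) ≤ 2 s^(a-1-2t)` (`cmpA (i,1)`, `eqK`): `≤ 8 s^(-2t) + 2` cells `R_a`;  `[P]_xs`: `≤ NP` values given `(y_0, t_a)`;  all other entries of the side are constants. -/
theorem ae1_side_row {π : SfPar} (hπ : π.E1) (C0 τ κ0 t : ℝ) (D : SfDoc) (hD : D.Wk π C0 τ κ0 t) (xs a i NP : ℝ) (hi : i ∈ D.G) (hai : a - t ≤ i) (hi1 : i < 1)
    (G : D.Row 1 → Prop) (hNP : 1 ≤ NP) (hP : (D.P 1).NVal G (D.Pc π (nmDsEq π) xs) (pair D.y0 (D.tc a)) NP) :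
    D.RowPr i (fun ω => (D.P 1).p ω ≠ 0 ∧ G ω) (D.ae1Z π xs a) (NP * D.s ^ (-(10 * t))) := by
  obtain ⟨h0, h1⟩ := hD.ok.core.hs
  have ht := hD.tpos
  have g1 := hD.ok.core.gate.1
  obtain ⟨f, hf1, hf2⟩ := ae1_row_nval (D.P 1) G _ _ NP (by linarith) hP
  obtain ⟨u, hu⟩ : ∃ u, u = D.s ^ (-t) := ⟨_, rfl⟩
  have hu10 : 10 ≤ u := hu ▸ hD.h10
  have eu2 : D.s ^ (-(2 * t)) = u ^ 2 := by
    rw [hu, ← Real.rpow_natCast, ← Real.rpow_mul h0.le]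
    congr 1
    push_cast
    ring
  have eu10 : D.s ^ (-(10 * t)) = u ^ 10 := by
    rw [hu, ← Real.rpow_natCast, ← Real.rpow_mul h0.le]
    congr 1
    push_cast
    ring
  intro ρ
  obtain ⟨It, hIt1, hIt2⟩ := ae1_row_cells h0 h1 a (D.T i ρ) (D.s ^ (a - 2 * t)) (Real.rpow_pos_of_pos h0 _).le
  obtain ⟨IR, hIR1, hIR2⟩ := ae1_row_cells h0 h1 (a - 1) (D.lab i ρ).be (2 * D.s ^ (a - 1 - 2 * t))
    (mul_nonneg (by norm_num) (Real.rpow_pos_of_pos h0 _).le)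
  have cIt : (It.card : ℝ) ≤ 4 * u ^ 2 + 2 := by
    refine hIt1.trans (le_of_eq ?_)
    rw [mul_assoc, ← Real.rpow_add h0, ← eu2]
    congr 3
    ring
  have cIR : (IR.card : ℝ) ≤ 8 * u ^ 2 + 2 := by
    refine hIR1.trans (le_of_eq ?_)
    have e : 4 * (2 * D.s ^ (a - 1 - 2 * t)) * D.s ^ (-(a - 1)) = 8 * (D.s ^ (a - 1 - 2 * t) * D.s ^ (-(a - 1))) := by ring
    rw [e, ← Real.rpow_add h0, ← eu2]
    congr 3
    ring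
  refine ⟨It.biUnion fun m => ((f ((D.idx i ρ, D.ray i ρ), m)) ×ˢ IR).image
    (fun y => ((some (D.idx i ρ, D.ray i ρ), nmZero), (0, y.1, m), (y.2, 0, 0))), ?_, fun ω hc hE => ?_⟩
  · rw [eu10]
    refine le_trans ?_ (ae1_row_num hu10 hNP cIt cIR (Nat.cast_nonneg _) (Nat.cast_nonneg _))
    calc ((It.biUnion fun m => ((f ((D.idx i ρ, D.ray i ρ), m)) ×ˢ IR).image
          (fun y => ((some (D.idx i ρ, D.ray i ρ), nmZero), ((0 : ℤ), y.1, m), (y.2, (0 : ℤ), (0 : ℤ))))).card : ℝ)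
        ≤ ∑ m ∈ It, ((((f ((D.idx i ρ, D.ray i ρ), m)) ×ˢ IR).image
          (fun y => ((some (D.idx i ρ, D.ray i ρ), nmZero), ((0 : ℤ), y.1, m), (y.2, (0 : ℤ), (0 : ℤ))))).card : ℝ) := by
          exact_mod_cast Finset.card_biUnion_le
      _ ≤ ∑ _m ∈ It, NP * (IR.card : ℝ) := by
          refine Finset.sum_le_sum fun m _ => ?_
          refine le_trans (Nat.cast_le.2 Finset.card_image_le) ?_
          rw [Finset.card_product]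
          push_cast
          exact mul_le_mul_of_nonneg_right (hf1 _) (Nat.cast_nonneg _)
      _ = _ := by rw [Finset.sum_const, nsmul_eq_mul]
  · obtain ⟨b1, b2, b3, -⟩ := hD.ok.core.base i hi 1 g1 hi1 ρ ω hc
    have hray := hD.ok.core.normC hπ.hyb i hi 1 g1 hi1 ρ ω hc
    have hlen1 : D.len 1 = D.s := hD.ok.core.hlen.1
    have hlen := (hD.ok.core.hlen.2 i hi).2
    have hy0 : D.y0 ω = (D.idx i ρ, D.ray i ρ) := by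
      unfold SfDoc.y0
      rw [b3, hray]
    have hb2i : π.b2 i = i - 1 := by
      unfold SfPar.b2
      rw [hπ.q, one_mul]
    have hb21 : π.b2 1 = 0 := by
      unfold SfPar.b2
      simp
    have hT : |D.T 1 ω - D.T i ρ| ≤ D.s ^ (a - 2 * t) := by
      rw [abs_of_nonneg (by linarith)]
      have : D.s ^ (i - t) ≤ D.s ^ (a - 2 * t) := lay_rpow_anti h0 h1 (by linarith)
      linarith
    have hbe : |(D.lab 1 ω).be - (D.lab i ρ).be| ≤ 2 * D.s ^ (a - 1 - 2 * t) := by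
      have c1 := (hD.ok.aff.cmpA i hi 1 g1 hi1 ρ ω hc).1
      rw [hb2i, hb21, min_eq_left (by linarith)] at c1
      have c2 := hD.ok.aff.eqK (by rw [hπ.c2]; exact one_pos) (by rw [hπ.c2]) (by rw [hπ.q, hπ.c2]) i hi ρ
      rw [hb2i] at c2
      have c3 : |(D.T 1 ω - D.T i ρ) * (D.lab i ρ).K| ≤ D.len i * |(D.lab i ρ).K| := by
        rw [abs_mul, abs_of_nonneg (by linarith : 0 ≤ D.T 1 ω - D.T i ρ)]
        exact mul_le_mul_of_nonneg_right (by linarith) (abs_nonneg _)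
      have c4 : D.s ^ (i - 1 - t) ≤ D.s ^ (a - 1 - 2 * t) := lay_rpow_anti h0 h1 (by linarith)
      have e : (D.lab 1 ω).be - (D.lab i ρ).be
          = -((D.lab i ρ).beAt (D.T 1 ω) - (D.lab 1 ω).be) + (D.T 1 ω - D.T i ρ) * (D.lab i ρ).K := by
        unfold SfTest.beAt SfDoc.T
        ring
      rw [e]
      refine (abs_add_le _ _).trans ?_
      rw [abs_neg]
      linarith
    rw [ae1_row_side hπ D xs a ω, hy0]
    refine Finset.mem_biUnion.2 ⟨D.tc a ω, hIt2 _ hT, Finset.mem_image.2 ⟨(D.Pc π (nmDsEq π) xs ω, nmCell D.s (a - 1) (D.lab 1 ω).be), ?_, rfl⟩⟩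
    refine Finset.mem_product.2 ⟨?_, hIR2 _ hbe⟩
    have := hf2 ω hE.1 hE.2
    unfold FLaw.pair at this
    rw [hy0] at this
    exact this

/-- the number of integers between two floors -/
theorem ae1_aux_icc (c r : ℝ) (hr : 0 ≤ r) : ((Finset.Icc ⌊c - r⌋ ⌊c + r⌋).card : ℝ) ≤ 2 * r + 2 := by
  rw [Int.card_Icc]
  have h1 : ⌊c - r⌋ ≤ ⌊c + r⌋ := Int.floor_le_floor (by linarith)
  have h2 : ((⌊c + r⌋ + 1 - ⌊c - r⌋).toNat : ℤ) = ⌊c + r⌋ + 1 - ⌊c - r⌋ := Int.toNat_of_nonneg (by omega)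
  have h3 : (((⌊c + r⌋ + 1 - ⌊c - r⌋).toNat : ℕ) : ℝ) = (⌊c + r⌋ : ℝ) + 1 - ⌊c - r⌋ := by
    have := congrArg (fun z : ℤ => (z : ℝ)) h2
    push_cast at this
    exact this
  rw [h3]
  have h4 := Int.floor_le (c + r)
  have h5 := Int.lt_floor_add_one (c - r)
  linarith

/-- union of lists over a list -/
theorem ae1_aux_union {α β : Type} (L : Finset α) (f : α → Finset β) (N M : ℝ) (hM : 0 ≤ M) (hL : (L.card : ℝ) ≤ N) (hf : ∀ a, ((f a).card : ℝ) ≤ M) :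
    ((L.biUnion f).card : ℝ) ≤ N * M := by
  calc ((L.biUnion f).card : ℝ) ≤ ∑ b ∈ L, ((f b).card : ℝ) := by exact_mod_cast Finset.card_biUnion_le
    _ ≤ ∑ b ∈ L, M := Finset.sum_le_sum fun b _ => hf b
    _ = L.card * M := by rw [Finset.sum_const, nsmul_eq_mul]
    _ ≤ N * M := mul_le_mul_of_nonneg_right hL hM


/-- LEAF L-256-E1-LAB.   **a label knows `X^(0)`**: `own` (`|X - lam.x| ≤ r_j ≤ s^-t`, `u = 0`), `normC` (same ray), `nmLev s 0 = 0`: `≤ 2 s^-t + 2` cells. -/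
theorem ae1_lab_x {π : SfPar} (hπ : π.E1) (C0 τ κ0 t : ℝ) (D : SfDoc) (hD : D.Wk π C0 τ κ0 t) (j : ℝ) (hj : j ∈ D.G) (hj1 : j < 1)
    {β : Type} (E : D.Row 1 → Prop) (B : D.Row 1 → β) (N : ℝ) (hN : 0 ≤ N) (h : D.LabPr j E B (D.Xc 0) N) :
    D.LabPr j E B (fun _ => ()) (N * D.s ^ (-(2 * t))) := by
  have hs := hD.ok.core.hs
  have ht := hD.tpos
  intro lam _
  have hr0 : 0 ≤ D.s ^ (-t) := Real.rpow_nonneg hs.1.le _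
  choose f hfc hfm using h lam
  refine ⟨(Finset.Icc ⌊lam.x - D.s ^ (-t)⌋ ⌊lam.x + D.s ^ (-t)⌋).biUnion f, ?_, fun ω hmet hE _ => ?_⟩
  · have h1 := ae1_aux_union (Finset.Icc ⌊lam.x - D.s ^ (-t)⌋ ⌊lam.x + D.s ^ (-t)⌋) f (D.s ^ (-(2 * t))) N hN ?_ hfc
    · rw [mul_comm]
      exact h1
    · refine (ae1_aux_icc lam.x _ hr0).trans ?_
      have e3 := lay_rpow_abs hs.1 hD.h10 (-t)
      have e4 : -t - t = -(2 * t) := by ring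
      rw [e4] at e3
      have := hD.h10
      linarith
  · unfold SfDoc.Met at hmet
    rw [if_neg hj1.ne] at hmet
    obtain ⟨ρ, hlab, hc⟩ := hmet
    obtain ⟨o1, _, o3, _⟩ := hD.ok.core.own j hj ρ
    have hray := hD.ok.core.normC hπ.hyb j hj 1 hD.ok.core.gate.1 hj1 ρ ω hc
    have hX := o3.1
    rw [hlab] at o1 hX
    rw [hray, o1] at hX
    have hu : π.u j = 0 := by
      unfold SfPar.u
      rw [hπ.J, zero_mul]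
    have hr := (hD.ok.aff.hr j hj).2
    rw [hu, zero_sub] at hr
    have hX' := abs_le.1 (hX.trans hr)
    have hcell : D.Xc 0 ω = ⌊(D.ray 1 ω).X⌋ := by
      unfold SfDoc.Xc nmCell nmLev
      simp
    refine Finset.mem_biUnion.2 ⟨D.Xc 0 ω, ?_, hfm _ ω (by unfold SfDoc.Met; rw [if_neg hj1.ne]; exact ⟨ρ, hlab, hc⟩) hE rfl⟩
    rw [hcell, Finset.mem_Icc]
    exact ⟨Int.floor_le_floor (by linarith [hX'.1]), Int.floor_le_floor (by linarith [hX'.2])⟩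

/-- LEAF L-256-E1-LAB.   composition of a label list with a list on the support -/
theorem ae1_lab_comp (D : SfDoc) (j : ℝ) {β γ : Type} (E : D.Row 1 → Prop) (B : D.Row 1 → β) (W : D.Row 1 → γ) (N1 N2 : ℝ) (hN2 : 0 ≤ N2)
    (h1 : D.LabPr j E B (fun _ => ()) N1) (h2 : (D.P 1).NVal (fun _ => True) W B N2) :
    D.LabPr j (fun ω => (D.P 1).p ω ≠ 0 ∧ E ω) W (fun _ => ()) (N1 * N2) := by
  intro lam _
  obtain ⟨S1, hS1, hm1⟩ := h1 lam ()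
  have hf : ∀ b : β, ∃ S : Finset γ, (S.card : ℝ) ≤ N2 ∧ ∀ ω, (D.P 1).p ω ≠ 0 → B ω = b → W ω ∈ S := by
    intro b
    by_cases hb : ∃ ω₀, B ω₀ = b
    · obtain ⟨ω₀, rfl⟩ := hb
      obtain ⟨S, hS, hm⟩ := h2 ω₀
      exact ⟨S, hS, fun ω hp hB => hm ω hp trivial hB⟩
    · exact ⟨∅, by simpa using hN2, fun ω _ hB => absurd ⟨ω, hB⟩ hb⟩
  choose f hfc hfm using hf
  exact ⟨S1.biUnion f, ae1_aux_union S1 f N1 N2 hN2 hS1 hfc,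
    fun ω hmet hE _ => Finset.mem_biUnion.2 ⟨B ω, hm1 ω hmet hE.2 rfl, hfm _ ω hE.1 rfl⟩⟩

/-- LEAF L-256-E1-LAB.   events may shrink, lists may grow -/
theorem ae1_pr_mono (D : SfDoc) (i : ℝ) {β : Type} (E E' : D.Row 1 → Prop) (B : D.Row 1 → β) (N N' : ℝ) (hE : ∀ ω, E' ω → E ω) (hN : N ≤ N') :
    (D.RowPr i E B N → D.RowPr i E' B N') ∧ (D.LabPr i E B (fun _ => ()) N → D.LabPr i E' B (fun _ => ()) N') := by
  constructor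
  · intro h ρ
    obtain ⟨S, hS, hm⟩ := h ρ
    exact ⟨S, hS.trans hN, fun ω hc hE' => hm ω hc (hE ω hE')⟩
  · intro h lam x
    obtain ⟨S, hS, hm⟩ := h lam x
    exact ⟨S, hS.trans hN, fun ω hc hE' hx => hm ω hc (hE ω hE') hx⟩

/-! ## C. causal time lists -/

/-- LEAF L-256-E1-CONF.   **time confinement with `N` values of the side** = `lay_conf` (Lay/SepKit; copy its proof) with the list size `N` and intervals of length `s^(j-t)`: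
times of the `j`-rows below `ρ0`: per value of the side an interval of length `≤ 2 s^(j-t)`, separation `len_j ≥ s^(j+t)`: `≤ 2 s^(-2t) + 1 ≤ s^(-3t)`;  `M = N s^(-3t)`;  `tp (i,j)`, `sp (j,1)`. -/
theorem ae1_conf (D : SfDoc) (π : SfPar) (C0 t i j N : ℝ) (hD : D.Core π C0 t) (ht : 0 < t) (h10 : (10 : ℝ) ≤ D.s ^ (-t))
    (hi : i ∈ D.G) (hj : j ∈ D.G) (hij : i < j) (hj1 : j < 1) (hN : 0 ≤ N)
    (Ev : D.Row 1 → Prop) (ζ : Type) (Z : D.Row 1 → ζ) (E : D.Row 1 → Prop) (hZ : D.RowPr i E Z N) (I : D.Row i → ζ → ℝ)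
    (h : ∀ ρ0 ρ, D.Conn i 1 ρ0 ρ → Ev ρ → E ρ ∧ I ρ0 (Z ρ) ≤ D.T 1 ρ ∧ D.T 1 ρ ≤ I ρ0 (Z ρ) + D.s ^ (j - t)) :
    (D.P 1).pr Ev ≤ D.s ^ (-t) * (N * D.s ^ (π.d * (j - i) - 4 * t) + D.s ^ (1 / t)) ^ ((2 : ℝ) / 3) + D.s ^ (1 / t) := by
  have hs := hD.hs
  have h1G := hD.gate.1
  set U : D.Row j → Prop := fun ρ' => ∃ ρ, D.Conn j 1 ρ' ρ ∧ Ev ρ with hU
  set S : D.Row i → Prop := fun ρ0 => ∃ ρ', U ρ' ∧ D.Conn i j ρ0 ρ' with hS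
  have hpred : D.Pred i j U S := fun ρ' hu ρ0 hc => ⟨ρ', hu, hc⟩
  have hcount : ∀ ρ0, S ρ0 → (({t' | ∃ ρ', U ρ' ∧ D.Conn i j ρ0 ρ' ∧ D.T j ρ' = t'} : Set ℝ).ncard : ℝ)
      ≤ N * D.s ^ (-(3 * t)) := by
    intro ρ0 _
    obtain ⟨L, hL, hmem⟩ := hZ ρ0
    set F : ζ → Set ℝ := fun x => {t' | (∃ ρ' : D.Row j, D.T j ρ' = t') ∧ I ρ0 x - D.s ^ (j - t) ≤ t' ∧
      t' ≤ I ρ0 x - D.s ^ (j - t) + 2 * D.s ^ (j - t)} with hF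
    have hl : 0 < D.s ^ (j + t) := Real.rpow_pos_of_pos hs.1 _
    have hΛ : 0 ≤ 2 * D.s ^ (j - t) := mul_nonneg (by norm_num) (Real.rpow_nonneg hs.1.le _)
    have hFx : ∀ x ∈ L, (F x).Finite ∧ ((F x).ncard : ℝ) ≤ D.s ^ (-(3 * t)) := by
      intro x _
      obtain ⟨f1, c1⟩ := lay_sep_count (F x) (I ρ0 x - D.s ^ (j - t)) (2 * D.s ^ (j - t)) (D.s ^ (j + t)) hl hΛ
        (fun y hy => hy.2) (by
          rintro y ⟨⟨ρ1, rfl⟩, -⟩ y' ⟨⟨ρ2, rfl⟩, -⟩ hne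
          exact ((hD.hlen.2 j hj).1).trans (hD.grid j hj ρ1 ρ2 hne))
      refine ⟨f1, c1.trans ?_⟩
      have e1 : 2 * D.s ^ (j - t) / D.s ^ (j + t) = 2 * D.s ^ (-(2 * t)) := by
        rw [mul_div_assoc, ← Real.rpow_sub hs.1]
        congr 2
        ring
      rw [e1]
      have e2 : (1 : ℝ) ≤ D.s ^ (-(2 * t)) := by
        rw [← Real.rpow_zero D.s]
        exact lay_rpow_anti hs.1 hs.2 (by linarith)
      have e3 := lay_rpow_abs hs.1 h10 (-(2 * t))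
      have e4 : -(2 * t) - t = -(3 * t) := by ring
      rw [e4] at e3
      linarith
    obtain ⟨f2, c2⟩ := lay_ncard_image_le L F (D.s ^ (-(3 * t))) N (Real.rpow_nonneg hs.1.le _) hL hFx
    have hsub : ({t' | ∃ ρ', U ρ' ∧ D.Conn i j ρ0 ρ' ∧ D.T j ρ' = t'} : Set ℝ) ⊆ ⋃ x ∈ L, F x := by
      rintro _ ⟨ρ', ⟨ρ, c1, hE⟩, c0, rfl⟩
      have hc := hD.trans i hi j hj 1 h1G hij hj1 ρ0 ρ' ρ c0 c1
      obtain ⟨g1, g2, g3⟩ := h ρ0 ρ hc hE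
      obtain ⟨m1, m2, -, -⟩ := hD.base j hj 1 h1G hj1 ρ' ρ c1
      have hl1 : 0 < D.len 1 := by rw [hD.hlen.1]; exact hs.1
      have n3 := (hD.hlen.2 j hj).2
      refine Set.mem_iUnion₂.2 ⟨Z ρ, hmem ρ hc g1, ⟨ρ', rfl⟩, by linarith, by linarith⟩
    have h3 := Set.ncard_le_ncard hsub f2
    exact (Nat.cast_le.2 h3).trans c2
  have htp := hD.tp i hi j hj hij U S (N * D.s ^ (-(3 * t))) hpred hcount
  have hS1 : (D.P i).pr S ≤ 1 := ent_pr_le_one _ _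
  have hU' : (D.P j).pr U ≤ N * D.s ^ (π.d * (j - i) - 4 * t) + D.s ^ (1 / t) := by
    refine htp.trans ?_
    have e6 : D.s ^ (-t) * (N * D.s ^ (-(3 * t))) * D.s ^ (π.d * (j - i)) = N * D.s ^ (π.d * (j - i) - 4 * t) := by
      have : D.s ^ (π.d * (j - i) - 4 * t) = D.s ^ (-t) * D.s ^ (-(3 * t)) * D.s ^ (π.d * (j - i)) := by
        rw [← Real.rpow_add hs.1, ← Real.rpow_add hs.1]
        congr 1
        ring
      rw [this]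
      ring
    rw [e6]
    have := mul_le_mul_of_nonneg_left hS1 (mul_nonneg hN (Real.rpow_nonneg hs.1.le (π.d * (j - i) - 4 * t)))
    linarith
  have hpred2 : D.Pred j 1 Ev U := fun ρ hE ρ' hc => ⟨ρ, hc, hE⟩
  have hsp := hD.sp j hj 1 h1G hj1 Ev U hpred2
  refine hsp.trans ?_
  have h0 : 0 ≤ (D.P j).pr U := ent_pr_nonneg _ _
  have := Real.rpow_le_rpow h0 hU' (show (0 : ℝ) ≤ 2 / 3 by norm_num)
  have h2 := mul_le_mul_of_nonneg_left this (Real.rpow_nonneg hs.1.le (-t))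
  linarith

/-- numerics of `ae1_time` -/
theorem ae1_aux_close {s t x Y : ℝ} (h0 : 0 < s) (h1 : s < 1) (ht : 0 < t) (h10 : (10 : ℝ) ≤ s ^ (-t)) (hx : 200 * t ≤ x) (hx1 : x ≤ 1 / t)
    (hY0 : 0 ≤ Y) (hY : Y ≤ s ^ (x - x / 20 - 9 * t)) :
    s ^ (-t) * (Y + s ^ (1 / t)) ^ ((2 : ℝ) / 3) + s ^ (1 / t) ≤ s ^ (x / 2) := by
  have a1 : s ^ (1 / t) ≤ s ^ (x - x / 20 - 9 * t) := lay_rpow_anti h0 h1 (by linarith)
  have hw0 : 0 ≤ s ^ (x - x / 20 - 9 * t) := Real.rpow_nonneg h0.le _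
  have a2 : Y + s ^ (1 / t) ≤ s ^ (x - x / 20 - 9 * t - t) := by
    have := lay_rpow_abs h0 h10 (x - x / 20 - 9 * t)
    linarith
  have hpos : 0 ≤ Y + s ^ (1 / t) := add_nonneg hY0 (Real.rpow_nonneg h0.le _)
  have a3 : (Y + s ^ (1 / t)) ^ ((2 : ℝ) / 3) ≤ s ^ ((x - x / 20 - 9 * t - t) * (2 / 3)) := by
    rw [Real.rpow_mul h0.le]
    exact Real.rpow_le_rpow hpos a2 (by norm_num)
  have a4 : s ^ (-t) * (Y + s ^ (1 / t)) ^ ((2 : ℝ) / 3) ≤ s ^ (-t + (x - x / 20 - 9 * t - t) * (2 / 3)) := by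
    rw [Real.rpow_add h0]
    exact mul_le_mul_of_nonneg_left a3 (Real.rpow_nonneg h0.le _)
  have a5 : s ^ (1 / t) ≤ s ^ (-t + (x - x / 20 - 9 * t - t) * (2 / 3)) := lay_rpow_anti h0 h1 (by linarith)
  have a6 := lay_rpow_abs h0 h10 (-t + (x - x / 20 - 9 * t - t) * (2 / 3))
  have a7 : s ^ (-t + (x - x / 20 - 9 * t - t) * (2 / 3) - t) ≤ s ^ (x / 2) := lay_rpow_anti h0 h1 (by linarith)
  have hu0 : 0 ≤ s ^ (-t + (x - x / 20 - 9 * t - t) * (2 / 3)) := Real.rpow_nonneg h0.le _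
  linarith


/-- LEAF L-256-E1-TIME.   **the causal time lists of the tangent datum** (clause `time` of `Tan.LtRob`).   `δ = s^h`, depths `0 ≤ p < v ≤ 3`, gates `i, j` within `t` of `a + p h`, `a + v h`.
`ae1_conf` with the side `Z' = (Z, θ_p, θ_v)`, `Ev = G ∧ θ_v ∈ c (Z, θ_p)`:   `thn 0 v = tcell δ v (trep δ 200 θ) = tcell δ v θ` (nested cells, `v ≤ 200`), `θ = (T_1 - t_a)/s^a` (`ae1_mark`);
 the cell `m` of `θ_v` confines `T_1` to `[t_a + s^a m 2^-lev, .. + s^(a + v h)]`, `s^(a+vh) ≤ s^(j-t)`;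
 rows of `i`: `≤ NZ` values of `Z`; `T_1 ∈ [T_i, T_i + s^(i-t))`: `≤ 2 s^(-2t) + 2` cells `θ_p`; `≤ δ^(-(d (v-p) - τ1))` cells `θ_v`:   `N = NZ s^(-3t) δ^(-(d(v-p) - τ1))`,   `N s^(d (j-i) - 4t) ≤ NZ s^(τ1 h - 9t)`.
 Numerics: `NZ ≤ s^(-τ1 h/20)`, `200 t ≤ τ1 h`, `2 t < (v - p) h`, `τ1 h ≤ 1/t`:  result `≤ s^(τ1 h/2)`. -/
theorem ae1_time {π : SfPar} (hπ : π.E1) (C0 τ κ0 t : ℝ) (D : SfDoc) (hD : D.Wk π C0 τ κ0 t) (xs a h B p v τ1 NZ i j : ℝ) (hh : 0 < h) (hB : 1 ≤ B)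
    (hp : 0 ≤ p) (hpv : p < v) (hv : v ≤ 3) (hi : i ∈ D.G) (hj : j ∈ D.G) (hia : |i - (a + p * h)| ≤ t) (hja : |j - (a + v * h)| ≤ t) (hj1 : j < 1)
    (hτ1 : 0 < τ1 ∧ τ1 ≤ 1) (ht1 : 200 * t ≤ τ1 * h) (ht2 : 2 * t < (v - p) * h) (ht3 : τ1 * h ≤ 1 / t) (G : D.Row 1 → Prop)
    (hZ : D.RowPr i G (D.ae1Z π xs a) NZ) (hNZ : 1 ≤ NZ ∧ NZ ≤ D.s ^ (-(τ1 * h / 20))) (dsp : ℝ → NmNm → NmNm → ItDsp)
    (c : NmZv D.Idx × ℤ → Finset ℤ) (hc : ∀ x, ((c x).card : ℝ) ≤ (D.s ^ h) ^ (-(π.d * (v - p) - τ1))) :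
    (D.P 1).pr (fun ω => G ω ∧ (nmTan D π (ae1Rt π xs a h B) dsp).thn 0 v ω
      ∈ c (D.ae1Z π xs a ω, (nmTan D π (ae1Rt π xs a h B) dsp).thn 0 p ω)) ≤ (D.s ^ h) ^ (τ1 / 2) := by
  have hC := hD.ok.core
  have hs := hC.hs
  have ht := hD.tpos
  have h10 := hD.h10
  have hδ0 : 0 < D.s ^ h := Real.rpow_pos_of_pos hs.1 _
  have hδ1 : D.s ^ h < 1 := Real.rpow_lt_one hs.1.le hs.2 hh
  have hsa : 0 < D.s ^ a := Real.rpow_pos_of_pos hs.1 _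
  obtain ⟨hd0, hd1⟩ := hπ.val.d1
  have hia' := abs_le.1 hia
  have hja' := abs_le.1 hja
  have hij : i < j := by linarith [hia'.2, hja'.1]
  have hi1 : i < 1 := hij.trans hj1
  have hpw : ∀ y : ℝ, (D.s ^ h) ^ y = D.s ^ (h * y) := fun y => (Real.rpow_mul hs.1.le h y).symm
  obtain ⟨θ, hθ⟩ : ∃ θ : D.Row 1 → ℝ, ∀ ω, θ ω = (D.T 1 ω - ae1Ta D.s a (D.ae1Z π xs a ω)) / D.s ^ a := ⟨_, fun _ => rfl⟩
  have hthn : ∀ q : ℝ, q ≤ 200 → ∀ ω : D.Row 1, (nmTan D π (ae1Rt π xs a h B) dsp).thn 0 q ω = tcell (D.s ^ h) q (θ ω) := by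
    intro q hq ω
    obtain ⟨_, _, _, _, h5, _⟩ := ae1_mark hπ D hs xs a h B hh hB ω
    show tcell (D.s ^ h) q (D.smk π (ae1Rt π xs a h B) ω).th = _
    rw [h5, hθ]
    exact rx_cell_trep hδ0 hδ1 hq _
  have hev : (fun ω => G ω ∧ (nmTan D π (ae1Rt π xs a h B) dsp).thn 0 v ω
        ∈ c (D.ae1Z π xs a ω, (nmTan D π (ae1Rt π xs a h B) dsp).thn 0 p ω))
      = fun ω => G ω ∧ tcell (D.s ^ h) v (θ ω) ∈ c (D.ae1Z π xs a ω, tcell (D.s ^ h) p (θ ω)) := by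
    funext ω
    rw [hthn v (by linarith) ω, hthn p (by linarith) ω]
  rw [hev]
  have hT1 : ∀ ω, D.T 1 ω = ae1Ta D.s a (D.ae1Z π xs a ω) + D.s ^ a * θ ω := by
    intro ω
    rw [hθ, mul_div_cancel₀ _ hsa.ne']
    ring
  have hcpos : 0 ≤ (D.s ^ h) ^ (-(π.d * (v - p) - τ1)) := Real.rpow_nonneg hδ0.le _
  have h3pos : 0 ≤ D.s ^ (-(3 * t)) := Real.rpow_nonneg hs.1.le _
  have hN0 : 0 ≤ NZ * (D.s ^ (-(3 * t)) * (D.s ^ h) ^ (-(π.d * (v - p) - τ1))) :=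
    mul_nonneg (by linarith [hNZ.1]) (mul_nonneg h3pos hcpos)
  have hrow : D.RowPr i (fun ω => G ω ∧ tcell (D.s ^ h) v (θ ω) ∈ c (D.ae1Z π xs a ω, tcell (D.s ^ h) p (θ ω)))
      (fun ω => (D.ae1Z π xs a ω, tcell (D.s ^ h) p (θ ω), tcell (D.s ^ h) v (θ ω)))
      (NZ * (D.s ^ (-(3 * t)) * (D.s ^ h) ^ (-(π.d * (v - p) - τ1)))) := by
    intro ρ0
    obtain ⟨L, hL, hmem⟩ := hZ ρ0
    obtain ⟨K, hK⟩ : ∃ K : ℝ, K = 2 ^ (tlev (D.s ^ h) p) := ⟨_, rfl⟩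
    have hK0 : 0 < K := by rw [hK]; positivity
    obtain ⟨Wd, hWd⟩ : ∃ Wd : ℝ, Wd = D.s ^ (i - t) / D.s ^ a := ⟨_, rfl⟩
    have hWd0 : 0 ≤ Wd := by rw [hWd]; exact div_nonneg (Real.rpow_nonneg hs.1.le _) hsa.le
    have hKδ : K * (D.s ^ h) ^ p < 2 := by
      have h1 := rx_lt_gw hδ0 hδ1 hp
      unfold gw at h1
      rw [← hK] at h1
      have h2 := mul_lt_mul_of_pos_left h1 hK0
      have h3 : K * (2 * K⁻¹) = 2 := by field_simp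
      rwa [h3] at h2
    have hWd' : Wd ≤ D.s ^ (-(2 * t)) * (D.s ^ h) ^ p := by
      rw [hWd, hpw, ← Real.rpow_sub hs.1, ← Real.rpow_add hs.1]
      exact lay_rpow_anti hs.1 hs.2 (by linarith [hia'.1])
    have h2pos : 0 ≤ D.s ^ (-(2 * t)) := Real.rpow_nonneg hs.1.le _
    have hWK : Wd * K ≤ 2 * D.s ^ (-(2 * t)) := by
      calc Wd * K ≤ D.s ^ (-(2 * t)) * (D.s ^ h) ^ p * K := mul_le_mul_of_nonneg_right hWd' hK0.le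
        _ = D.s ^ (-(2 * t)) * (K * (D.s ^ h) ^ p) := by ring
        _ ≤ D.s ^ (-(2 * t)) * 2 := mul_le_mul_of_nonneg_left hKδ.le h2pos
        _ = 2 * D.s ^ (-(2 * t)) := by ring
    have hCz : ∀ x : ℝ, ((Finset.Icc ⌊(x + Wd / 2) * K - Wd / 2 * K⌋ ⌊(x + Wd / 2) * K + Wd / 2 * K⌋).card : ℝ) ≤ D.s ^ (-(3 * t)) := by
      intro x
      refine (ae1_aux_icc _ _ (by positivity)).trans ?_
      have e2 : (1 : ℝ) ≤ D.s ^ (-(2 * t)) := by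
        rw [← Real.rpow_zero D.s]
        exact lay_rpow_anti hs.1 hs.2 (by linarith)
      have e3 := lay_rpow_abs hs.1 h10 (-(2 * t))
      have e4 : -(2 * t) - t = -(3 * t) := by ring
      rw [e4] at e3
      linarith
    refine ⟨L.biUnion fun z => (Finset.Icc ⌊((D.T i ρ0 - ae1Ta D.s a z) / D.s ^ a + Wd / 2) * K - Wd / 2 * K⌋
        ⌊((D.T i ρ0 - ae1Ta D.s a z) / D.s ^ a + Wd / 2) * K + Wd / 2 * K⌋).biUnion fun m => (c (z, m)).image fun m' => (z, m, m'), ?_, ?_⟩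
    · refine ae1_aux_union L _ NZ _ (mul_nonneg h3pos hcpos) hL fun z => ?_
      refine ae1_aux_union _ _ _ _ hcpos (hCz _) fun m => ?_
      exact le_trans (by exact_mod_cast Finset.card_image_le) (hc (z, m))
    · intro ω hcn hE
      obtain ⟨b1, b2, -, -⟩ := hC.base i hi 1 hC.gate.1 hi1 ρ0 ω hcn
      rw [hC.hlen.1] at b2
      have hlen := (hC.hlen.2 i hi).2
      have hlo : (D.T i ρ0 - ae1Ta D.s a (D.ae1Z π xs a ω)) / D.s ^ a ≤ θ ω := by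
        rw [hθ]
        exact div_le_div_of_nonneg_right (by linarith) hsa.le
      have hhi : θ ω ≤ (D.T i ρ0 - ae1Ta D.s a (D.ae1Z π xs a ω)) / D.s ^ a + Wd := by
        rw [hθ, hWd, ← add_div]
        exact div_le_div_of_nonneg_right (by linarith [hs.1]) hsa.le
      refine Finset.mem_biUnion.2 ⟨D.ae1Z π xs a ω, hmem ω hcn hE.1, Finset.mem_biUnion.2 ⟨tcell (D.s ^ h) p (θ ω), ?_,
        Finset.mem_image.2 ⟨tcell (D.s ^ h) v (θ ω), hE.2, rfl⟩⟩⟩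
      rw [Finset.mem_Icc]
      unfold tcell
      rw [← hK]
      constructor
      · refine Int.floor_le_floor ?_
        have := mul_le_mul_of_nonneg_right hlo hK0.le
        linarith
      · refine Int.floor_le_floor ?_
        have := mul_le_mul_of_nonneg_right hhi hK0.le
        linarith
  have hcond : ∀ (ρ0 : D.Row i) (ρ : D.Row 1), D.Conn i 1 ρ0 ρ →
      (G ρ ∧ tcell (D.s ^ h) v (θ ρ) ∈ c (D.ae1Z π xs a ρ, tcell (D.s ^ h) p (θ ρ))) →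
      (G ρ ∧ tcell (D.s ^ h) v (θ ρ) ∈ c (D.ae1Z π xs a ρ, tcell (D.s ^ h) p (θ ρ))) ∧
      (fun (_ : D.Row i) (z : NmZv D.Idx × ℤ × ℤ) => ae1Ta D.s a z.1 + D.s ^ a * ((z.2.2 : ℝ) * gw (D.s ^ h) v)) ρ0
          (D.ae1Z π xs a ρ, tcell (D.s ^ h) p (θ ρ), tcell (D.s ^ h) v (θ ρ)) ≤ D.T 1 ρ ∧
      D.T 1 ρ ≤ (fun (_ : D.Row i) (z : NmZv D.Idx × ℤ × ℤ) => ae1Ta D.s a z.1 + D.s ^ a * ((z.2.2 : ℝ) * gw (D.s ^ h) v)) ρ0
          (D.ae1Z π xs a ρ, tcell (D.s ^ h) p (θ ρ), tcell (D.s ^ h) v (θ ρ)) + D.s ^ (j - t) := by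
    intro ρ0 ρ _ hE
    refine ⟨hE, ?_, ?_⟩
    · show ae1Ta D.s a (D.ae1Z π xs a ρ) + D.s ^ a * ((tcell (D.s ^ h) v (θ ρ) : ℝ) * gw (D.s ^ h) v) ≤ D.T 1 ρ
      rw [← rx_trep_eq, hT1 ρ]
      have := mul_le_mul_of_nonneg_left (rx_trep_le (D.s ^ h) v (θ ρ)) hsa.le
      linarith
    · show D.T 1 ρ ≤ ae1Ta D.s a (D.ae1Z π xs a ρ) + D.s ^ a * ((tcell (D.s ^ h) v (θ ρ) : ℝ) * gw (D.s ^ h) v) + D.s ^ (j - t)
      rw [← rx_trep_eq, hT1 ρ]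
      have h1 := mul_le_mul_of_nonneg_left (rx_lt_trep (D.s ^ h) v (θ ρ)).le hsa.le
      have h2 := mul_le_mul_of_nonneg_left (rx_gw_le hδ0 hδ1 v) hsa.le
      have h3 : D.s ^ a * (D.s ^ h) ^ v ≤ D.s ^ (j - t) := by
        rw [hpw, ← Real.rpow_add hs.1]
        exact lay_rpow_anti hs.1 hs.2 (by linarith [hja'.2])
      linarith
  have key := ae1_conf D π C0 t i j _ hC ht h10 hi hj hij hj1 hN0
    (fun ω => G ω ∧ tcell (D.s ^ h) v (θ ω) ∈ c (D.ae1Z π xs a ω, tcell (D.s ^ h) p (θ ω))) _ _ _ hrow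
    (fun (_ : D.Row i) (z : NmZv D.Idx × ℤ × ℤ) => ae1Ta D.s a z.1 + D.s ^ a * ((z.2.2 : ℝ) * gw (D.s ^ h) v)) hcond
  refine key.trans ?_
  have hx : (D.s ^ h) ^ (τ1 / 2) = D.s ^ ((τ1 * h) / 2) := by
    rw [hpw]
    congr 1
    ring
  rw [hx]
  refine ae1_aux_close hs.1 hs.2 ht h10 ht1 ht3 (mul_nonneg hN0 (Real.rpow_nonneg hs.1.le _)) ?_
  have hg : -(2 * t) ≤ (j - i) - (v - p) * h := by linarith [hia'.2, hja'.1]
  have hg1 := mul_le_mul_of_nonneg_left hg hd0.le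
  have hg2 := mul_le_mul_of_nonneg_right hd1 (by linarith : (0 : ℝ) ≤ 2 * t)
  calc NZ * (D.s ^ (-(3 * t)) * (D.s ^ h) ^ (-(π.d * (v - p) - τ1))) * D.s ^ (π.d * (j - i) - 4 * t)
      = NZ * D.s ^ (-(3 * t) + h * (-(π.d * (v - p) - τ1)) + (π.d * (j - i) - 4 * t)) := by
        rw [hpw, Real.rpow_add hs.1, Real.rpow_add hs.1]
        ring
    _ ≤ D.s ^ (-(τ1 * h / 20)) * D.s ^ (τ1 * h - 9 * t) :=
        mul_le_mul hNZ.2 (lay_rpow_anti hs.1 hs.2 (by linarith)) (Real.rpow_nonneg hs.1.le _) (Real.rpow_nonneg hs.1.le _)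
    _ = D.s ^ (τ1 * h - τ1 * h / 20 - 9 * t) := by
        rw [← Real.rpow_add hs.1]
        congr 1
        ring

/-! ## D. the cost step -/

/-- the bin of the side value `x` at the starting time `T` -/
def ae1Cell (s i ϖ : ℝ) {ζ : Type} (v sl : ζ → ℝ) (T : ℝ) (x : ζ) : ℝ × ℤ × ℤ :=
  (T, ⌊(v x + sl x * T) / s ^ (i - 1 + ϖ)⌋, ⌊sl x / s ^ (-1 + ϖ)⌋)

/-- the shear of a bin -/
def ae1Sg (s i ϖ : ℝ) (b : ℝ × ℤ × ℤ) : SfTest := layShear b.1 ((b.2.1 : ℝ) * s ^ (i - 1 + ϖ)) ((b.2.2 : ℝ) * s ^ (-1 + ϖ)) 0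

theorem ae1_doc_eqns_cite : True := by
  have := @ae1Cell.eq_1; have := @ae1Sg.eq_1
  trivial

/-- the situation of the cost step -/
structure Ae1Sit (π : SfPar) (C0 τc κ0 t : ℝ) (D : SfDoc) (i j X ϖ N : ℝ) {ζ β : Type} (Z : D.Row 1 → ζ) (W : D.Row 1 → β)
    (v sl : ζ → ℝ) (J : β → ℝ) (Ev : D.Row 1 → Prop) : Prop where
  par : π.E1
  wk : D.Wk π C0 τc κ0 t
  hi : i ∈ D.G
  hj : j ∈ D.G
  hij : i < j
  hj1 : j < 1
  X0 : 0 ≤ X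
  hϖ1 : ϖ ≤ (j - i) - X
  hϖ2 : τc * (j - i) + 5 * t ≤ ϖ
  hτc : 0 < τc
  hsl : ∀ x, |sl x| ≤ D.s ^ (-1 - X)
  line : ∀ ρ, Ev ρ → |(D.lab 1 ρ).be - (v (Z ρ) + sl (Z ρ) * D.T 1 ρ)| ≤ D.s ^ (j - 1)
  pred : ∀ ρ, Ev ρ → |sl (Z ρ) - J (W ρ)| ≤ D.s ^ (-1 + ϖ)
  row : D.RowPr i Ev Z N
  labp : D.LabPr j Ev W (fun _ => ()) N
  N1 : 1 ≤ N
  hN : N * D.s ^ (-(5 * t)) ≤ D.s ^ (-(κ0 * (j - i)))
  hκ : t ≤ κ0 * (j - i)

section cost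

variable {π : SfPar} {C0 τc κ0 t : ℝ} {D : SfDoc} {i j X ϖ N : ℝ} {ζ β : Type} {Z : D.Row 1 → ζ} {W : D.Row 1 → β}
  {v sl : ζ → ℝ} {J : β → ℝ} {Ev : D.Row 1 → Prop}

/-- LEAF L-256-E1-C1.   (row) -/
theorem ae1_c_row (H : Ae1Sit π C0 τc κ0 t D i j X ϖ N Z W v sl J Ev) (ρ' : D.Row j) (ρ : D.Row 1) (hc : D.Conn j 1 ρ' ρ) (hE : Ev ρ) :
    |(D.lab j ρ').be - (v (Z ρ) + sl (Z ρ) * D.T j ρ')| ≤ 4 * D.s ^ (j - 1 - X - t) := by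
  have hs := H.wk.ok.core.hs
  have ht := H.wk.tpos
  have hX0 := H.X0
  have h1G := H.wk.ok.core.gate.1
  have hjG := H.hj
  have hj1 := H.hj1
  have h1 : π.c2 = 1 := H.par.c2
  have hq1 : π.q = 1 := H.par.q
  have hq : π.q = π.c2 := hq1.trans h1.symm
  have hb : ∀ x, π.b2 x = x - 1 := by
    intro x
    unfold SfPar.b2
    rw [hq1]
    ring
  obtain ⟨n1, n2, n3⟩ := lay_near D π C0 t j 1 H.wk.ok.core hjG h1G hj1 ρ' ρ hc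
  have cA := (H.wk.ok.aff.cmpA j hjG 1 h1G hj1 ρ' ρ hc).1
  have hmin : min (π.b2 j) (π.b2 1) = π.b2 j := by
    rw [hb, hb]
    exact min_eq_left (by linarith)
  rw [hmin] at cA
  have cK := H.wk.ok.aff.eqK (by rw [h1]; norm_num) (by rw [h1]) hq j hjG ρ'
  have cE := H.line ρ hE
  have cS := H.hsl (Z ρ)
  obtain ⟨Y, hY⟩ : ∃ Y : ℝ, Y = D.s ^ (j - 1 - X - t) := ⟨_, rfl⟩
  rw [← hY]
  have b1 : D.s ^ (π.b2 j - t) ≤ Y := by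
    rw [hY]
    exact lay_rpow_anti hs.1 hs.2 (by rw [hb]; linarith)
  have b2 : D.s ^ (j - 1) ≤ Y := by
    rw [hY]
    exact lay_rpow_anti hs.1 hs.2 (by linarith)
  obtain ⟨dT, hdT⟩ : ∃ dT : ℝ, dT = D.T 1 ρ - D.T j ρ' := ⟨_, rfl⟩
  rw [← hdT] at n1 n2
  have t1 : |dT * (D.lab j ρ').K| ≤ Y := by
    rw [abs_mul, abs_of_nonneg n1]
    refine le_trans ?_ (cK.trans b1)
    exact mul_le_mul_of_nonneg_right n2.le (abs_nonneg _)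
  have t2 : |sl (Z ρ) * dT| ≤ Y := by
    rw [abs_mul, abs_of_nonneg n1]
    calc |sl (Z ρ)| * dT ≤ D.s ^ (-1 - X) * D.s ^ (j - t) :=
          mul_le_mul cS (n2.le.trans n3) n1 (Real.rpow_nonneg hs.1.le _)
      _ = D.s ^ (-1 - X + (j - t)) := by rw [← Real.rpow_add hs.1]
      _ ≤ Y := by
          rw [hY]
          exact lay_rpow_anti hs.1 hs.2 (by linarith)
  have e : (D.lab j ρ').be - (v (Z ρ) + sl (Z ρ) * D.T j ρ')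
      = ((D.lab j ρ').beAt (D.T 1 ρ) - (D.lab 1 ρ).be) - dT * (D.lab j ρ').K
        + ((D.lab 1 ρ).be - (v (Z ρ) + sl (Z ρ) * D.T 1 ρ)) + sl (Z ρ) * dT := by
    unfold SfTest.beAt
    rw [hdT]
    unfold SfDoc.T
    ring
  rw [e]
  have := abs_add_le (((D.lab j ρ').beAt (D.T 1 ρ) - (D.lab 1 ρ).be) - dT * (D.lab j ρ').K
        + ((D.lab 1 ρ).be - (v (Z ρ) + sl (Z ρ) * D.T 1 ρ))) (sl (Z ρ) * dT)
  have h3 := abs_add_le (((D.lab j ρ').beAt (D.T 1 ρ) - (D.lab 1 ρ).be) - dT * (D.lab j ρ').K)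
        ((D.lab 1 ρ).be - (v (Z ρ) + sl (Z ρ) * D.T 1 ρ))
  have h4 := abs_sub ((D.lab j ρ').beAt (D.T 1 ρ) - (D.lab 1 ρ).be) (dT * (D.lab j ρ').K)
  linarith [cA.trans b1, cE.trans b2]

/-- LEAF L-256-E1-C1.   (a) -/
theorem ae1_c_a (H : Ae1Sit π C0 τc κ0 t D i j X ϖ N Z W v sl J Ev) (ρ0 : D.Row i) :
    (({b | ∃ ρ' ρ, D.Conn i j ρ0 ρ' ∧ D.Conn j 1 ρ' ρ ∧ Ev ρ ∧ ae1Cell D.s i ϖ v sl (D.layEqTa i j ρ') (Z ρ) = b} : Set (ℝ × ℤ × ℤ)).ncard : ℝ) ≤ N := by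
  obtain ⟨S, hS, hmem⟩ := H.row ρ0
  have hsub : ({b | ∃ ρ' ρ, D.Conn i j ρ0 ρ' ∧ D.Conn j 1 ρ' ρ ∧ Ev ρ ∧
        ae1Cell D.s i ϖ v sl (D.layEqTa i j ρ') (Z ρ) = b} : Set (ℝ × ℤ × ℤ))
      ⊆ ((S.image (ae1Cell D.s i ϖ v sl (D.T i ρ0)) : Finset (ℝ × ℤ × ℤ)) : Set (ℝ × ℤ × ℤ)) := by
    rintro b ⟨ρ', ρ, c1, c2, hE, rfl⟩
    rw [lay_ta_eq H.wk.ok.core H.hi H.hj H.hij ρ0 ρ' c1]
    have hc := H.wk.ok.core.trans i H.hi j H.hj 1 H.wk.ok.core.gate.1 H.hij H.hj1 ρ0 ρ' ρ c1 c2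
    exact Finset.mem_coe.2 (Finset.mem_image_of_mem _ (hmem ρ hc hE))
  have h1 := Set.ncard_le_ncard hsub (Finset.finite_toSet _)
  rw [Set.ncard_coe_finset] at h1
  have h2 : (S.image (ae1Cell D.s i ϖ v sl (D.T i ρ0))).card ≤ S.card := Finset.card_image_le
  calc _ ≤ ((S.image (ae1Cell D.s i ϖ v sl (D.T i ρ0))).card : ℝ) := Nat.cast_le.2 h1
    _ ≤ (S.card : ℝ) := Nat.cast_le.2 h2
    _ ≤ _ := hS

/-- counting the bins `(T, ⌊y/g⌋, ⌊σ/g'⌋)` of pairs `(y, σ)`: `σ` within `r'` of `c0`, `y` within `r` of a centre depending on the slope bin only -/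
theorem ae1_cb_count (g g' T c0 r' r : ℝ) (hg : 0 < g) (hg' : 0 < g') (hr' : 0 ≤ r') (hr : 0 ≤ r) (cc : ℤ → ℝ) (A : Set (ℝ × ℝ))
    (h1 : ∀ p ∈ A, |p.2 - c0| ≤ r') (h2 : ∀ p ∈ A, |p.1 - cc ⌊p.2 / g'⌋| ≤ r) :
    ((fun p : ℝ × ℝ => ((T, ⌊p.1 / g⌋, ⌊p.2 / g'⌋) : ℝ × ℤ × ℤ)) '' A).Finite ∧
      ((((fun p : ℝ × ℝ => ((T, ⌊p.1 / g⌋, ⌊p.2 / g'⌋) : ℝ × ℤ × ℤ)) '' A).ncard : ℕ) : ℝ) ≤ (2 * r' / g' + 2) * (2 * r / g + 2) := by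
  obtain ⟨f1, c1⟩ := lay_floor_count {σ : ℝ | |σ - c0| ≤ r'} c0 r' g' hg' hr' (fun x hx => hx)
  have hm : (0 : ℝ) ≤ 2 * r / g + 2 := by positivity
  have hL : ((f1.toFinset.card : ℕ) : ℝ) ≤ 2 * r' / g' + 2 := by
    rw [← Set.ncard_eq_toFinset_card _ f1]
    exact c1
  have hF : ∀ m' ∈ f1.toFinset,
      ((fun m : ℤ => ((T, m, m') : ℝ × ℤ × ℤ)) '' ((fun y : ℝ => ⌊y / g⌋) '' {y : ℝ | |y - cc m'| ≤ r})).Finite ∧
      ((((fun m : ℤ => ((T, m, m') : ℝ × ℤ × ℤ)) '' ((fun y : ℝ => ⌊y / g⌋) '' {y : ℝ | |y - cc m'| ≤ r})).ncard : ℕ) : ℝ)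
        ≤ 2 * r / g + 2 := by
    intro m' _
    obtain ⟨f2, c2⟩ := lay_floor_count {y : ℝ | |y - cc m'| ≤ r} (cc m') r g hg hr (fun x hx => hx)
    refine ⟨f2.image _, le_trans ?_ c2⟩
    exact Nat.cast_le.2 (Set.ncard_image_le f2)
  obtain ⟨f3, c3⟩ := lay_ncard_image_le f1.toFinset
    (fun m' : ℤ => (fun m : ℤ => ((T, m, m') : ℝ × ℤ × ℤ)) '' ((fun y : ℝ => ⌊y / g⌋) '' {y : ℝ | |y - cc m'| ≤ r}))
    (2 * r / g + 2) (2 * r' / g' + 2) hm hL hF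
  have hsub : ((fun p : ℝ × ℝ => ((T, ⌊p.1 / g⌋, ⌊p.2 / g'⌋) : ℝ × ℤ × ℤ)) '' A)
      ⊆ ⋃ m' ∈ f1.toFinset, (fun m : ℤ => ((T, m, m') : ℝ × ℤ × ℤ)) '' ((fun y : ℝ => ⌊y / g⌋) '' {y : ℝ | |y - cc m'| ≤ r}) := by
    rintro _ ⟨p, hp, rfl⟩
    refine Set.mem_biUnion (x := ⌊p.2 / g'⌋) ?_ ?_
    · rw [Finset.mem_coe, Set.Finite.mem_toFinset]
      exact ⟨p.2, h1 p hp, rfl⟩
    · exact ⟨⌊p.1 / g⌋, ⟨p.1, h2 p hp, rfl⟩, rfl⟩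
  exact ⟨f3.subset hsub, le_trans (Nat.cast_le.2 (Set.ncard_le_ncard hsub f3)) c3⟩

/-- the numerics of (b) -/
theorem ae1_cb_num (s t N : ℝ) (h0 : 0 < s) (h10 : (10 : ℝ) ≤ s ^ (-t)) (hN : 0 ≤ N) :
    2 * N * (4 * (10 * s ^ (-t) + 2)) ≤ N * s ^ (-(3 * t)) := by
  have e : s ^ (-(3 * t)) = s ^ (-t) * s ^ (-t) * s ^ (-t) := by
    rw [← Real.rpow_add h0, ← Real.rpow_add h0]
    congr 1
    ring
  rw [e]
  obtain ⟨u, hu⟩ : ∃ u : ℝ, u = s ^ (-t) := ⟨_, rfl⟩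
  rw [← hu] at h10 ⊢
  have h1 : 100 ≤ u * u := by nlinarith
  have h2 : 100 * u ≤ u * u * u := by nlinarith
  have h3 : 2 * (4 * (10 * u + 2)) ≤ u * u * u := by linarith
  have := mul_le_mul_of_nonneg_left h3 hN
  linarith

/-- LEAF L-256-E1-C2.   (b) -/
theorem ae1_c_b (H : Ae1Sit π C0 τc κ0 t D i j X ϖ N Z W v sl J Ev) (lam : SfTest) :
    (({b | ∃ ρ' ρ, D.lab j ρ' = lam ∧ D.Conn j 1 ρ' ρ ∧ Ev ρ ∧ ae1Cell D.s i ϖ v sl (D.layEqTa i j ρ') (Z ρ) = b} : Set (ℝ × ℤ × ℤ)).ncard : ℝ)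
      ≤ N * D.s ^ (-(3 * t)) := by
  have hs := H.wk.ok.core.hs
  have htp := H.wk.tpos
  have hX0 := H.X0
  have hiG := H.hi
  have hjG := H.hj
  have hij := H.hij
  have hj1 := H.hj1
  have hw1 := H.hϖ1
  have hN0 : 0 ≤ N := le_trans zero_le_one H.N1
  obtain ⟨S, hS, hmem⟩ := H.labp lam ()
  obtain ⟨c, hc⟩ := lay_ta_two H.wk.ok.core hiG hjG hij lam.T
  have hg : 0 < D.s ^ (i - 1 + ϖ) := Real.rpow_pos_of_pos hs.1 _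
  have hh : 0 < D.s ^ (-1 + ϖ) := Real.rpow_pos_of_pos hs.1 _
  have hY0 : 0 ≤ D.s ^ (i - 1 + ϖ - t) := Real.rpow_nonneg hs.1.le _
  have hYg : D.s ^ (i - 1 + ϖ - t) = D.s ^ (-t) * D.s ^ (i - 1 + ϖ) := by
    rw [← Real.rpow_add hs.1]
    congr 1
    ring
  -- the pairs (value, slope) over a value of `W` and a starting time
  obtain ⟨A, hA⟩ : ∃ A : β × ℝ → Set (ℝ × ℝ), A = fun q => {p | ∃ ρ' ρ, D.lab j ρ' = lam ∧ D.Conn j 1 ρ' ρ ∧ Ev ρ ∧ W ρ = q.1 ∧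
      D.layEqTa i j ρ' = q.2 ∧ p = (v (Z ρ) + sl (Z ρ) * q.2, sl (Z ρ))} := ⟨_, rfl⟩
  have hF : ∀ q ∈ S ×ˢ ({c, lam.T} : Finset ℝ),
      ((fun p : ℝ × ℝ => ((q.2, ⌊p.1 / D.s ^ (i - 1 + ϖ)⌋, ⌊p.2 / D.s ^ (-1 + ϖ)⌋) : ℝ × ℤ × ℤ)) '' A q).Finite ∧
      ((((fun p : ℝ × ℝ => ((q.2, ⌊p.1 / D.s ^ (i - 1 + ϖ)⌋, ⌊p.2 / D.s ^ (-1 + ϖ)⌋) : ℝ × ℤ × ℤ)) '' A q).ncard : ℕ) : ℝ)
        ≤ 4 * (10 * D.s ^ (-t) + 2) := by
    intro q _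
    have key := ae1_cb_count (D.s ^ (i - 1 + ϖ)) (D.s ^ (-1 + ϖ)) q.2 (J q.1) (D.s ^ (-1 + ϖ)) (5 * D.s ^ (i - 1 + ϖ - t)) hg hh hh.le
      (by positivity) (fun m' => lam.be - (m' : ℝ) * D.s ^ (-1 + ϖ) * (lam.T - q.2)) (A q) ?_ ?_
    · have e1 : 2 * D.s ^ (-1 + ϖ) / D.s ^ (-1 + ϖ) + 2 = 4 := by
        field_simp
        norm_num
      have e2 : 2 * (5 * D.s ^ (i - 1 + ϖ - t)) / D.s ^ (i - 1 + ϖ) + 2 = 10 * D.s ^ (-t) + 2 := by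
        rw [hYg]
        field_simp
        ring
      rw [e1, e2] at key
      exact key
    · intro p hp
      rw [hA] at hp
      obtain ⟨ρ', ρ, c1, c2, hE, hw, hT, rfl⟩ := hp
      have := H.pred ρ hE
      rw [hw] at this
      exact this
    · intro p hp
      rw [hA] at hp
      obtain ⟨ρ', ρ, c1, c2, hE, hw, hT, rfl⟩ := hp
      have row := ae1_c_row H ρ' ρ c2 hE
      obtain ⟨n1, n2⟩ := lay_ta_near H.wk.ok.core hiG hjG hij ρ'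
      have hTj : D.T j ρ' = lam.T := by
        unfold SfDoc.T
        rw [c1]
      rw [c1, hTj] at row
      rw [hTj, hT] at n1 n2
      have r2 : |(⌊sl (Z ρ) / D.s ^ (-1 + ϖ)⌋ : ℝ) * D.s ^ (-1 + ϖ) - sl (Z ρ)| ≤ D.s ^ (-1 + ϖ) := lay_round _ _ hh
      have y1 : D.s ^ (j - 1 - X - t) ≤ D.s ^ (i - 1 + ϖ - t) := lay_rpow_anti hs.1 hs.2 (by linarith)
      have y3 : D.s ^ (-1 + ϖ) * D.s ^ (i - t) ≤ D.s ^ (i - 1 + ϖ - t) := by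
        rw [← Real.rpow_add hs.1]
        exact lay_rpow_anti hs.1 hs.2 (by linarith)
      have a3 : |((⌊sl (Z ρ) / D.s ^ (-1 + ϖ)⌋ : ℝ) * D.s ^ (-1 + ϖ) - sl (Z ρ)) * (lam.T - q.2)| ≤ D.s ^ (-1 + ϖ) * D.s ^ (i - t) := by
        rw [abs_mul, abs_of_nonneg n1]
        exact mul_le_mul r2 n2 n1 (Real.rpow_nonneg hs.1.le _)
      have e : (v (Z ρ) + sl (Z ρ) * q.2) - (lam.be - (⌊sl (Z ρ) / D.s ^ (-1 + ϖ)⌋ : ℝ) * D.s ^ (-1 + ϖ) * (lam.T - q.2))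
          = ((⌊sl (Z ρ) / D.s ^ (-1 + ϖ)⌋ : ℝ) * D.s ^ (-1 + ϖ) - sl (Z ρ)) * (lam.T - q.2) - (lam.be - (v (Z ρ) + sl (Z ρ) * lam.T)) := by
        ring
      show |(v (Z ρ) + sl (Z ρ) * q.2) - (lam.be - (⌊sl (Z ρ) / D.s ^ (-1 + ϖ)⌋ : ℝ) * D.s ^ (-1 + ϖ) * (lam.T - q.2))| ≤ _
      rw [e]
      have b1 := abs_sub (((⌊sl (Z ρ) / D.s ^ (-1 + ϖ)⌋ : ℝ) * D.s ^ (-1 + ϖ) - sl (Z ρ)) * (lam.T - q.2))
        (lam.be - (v (Z ρ) + sl (Z ρ) * lam.T))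
      linarith
  have hL : (((S ×ˢ ({c, lam.T} : Finset ℝ)).card : ℕ) : ℝ) ≤ 2 * N := by
    rw [Finset.card_product]
    have h2 : (({c, lam.T} : Finset ℝ).card : ℝ) ≤ 2 := by exact_mod_cast Finset.card_le_two
    push_cast
    have h3 : (0 : ℝ) ≤ (S.card : ℝ) := Nat.cast_nonneg _
    nlinarith
  obtain ⟨f3, c3⟩ := lay_ncard_image_le (S ×ˢ ({c, lam.T} : Finset ℝ))
    (fun q : β × ℝ => (fun p : ℝ × ℝ => ((q.2, ⌊p.1 / D.s ^ (i - 1 + ϖ)⌋, ⌊p.2 / D.s ^ (-1 + ϖ)⌋) : ℝ × ℤ × ℤ)) '' A q)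
    (4 * (10 * D.s ^ (-t) + 2)) (2 * N) (by have := Real.rpow_nonneg hs.1.le (-t); positivity) hL hF
  have hsub : ({b | ∃ ρ' ρ, D.lab j ρ' = lam ∧ D.Conn j 1 ρ' ρ ∧ Ev ρ ∧ ae1Cell D.s i ϖ v sl (D.layEqTa i j ρ') (Z ρ) = b} : Set (ℝ × ℤ × ℤ))
      ⊆ ⋃ q ∈ S ×ˢ ({c, lam.T} : Finset ℝ),
        (fun p : ℝ × ℝ => ((q.2, ⌊p.1 / D.s ^ (i - 1 + ϖ)⌋, ⌊p.2 / D.s ^ (-1 + ϖ)⌋) : ℝ × ℤ × ℤ)) '' A q := by
    rintro b ⟨ρ', ρ, c1, c2, hE, rfl⟩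
    have hT : D.T j ρ' = lam.T := by
      unfold SfDoc.T
      rw [c1]
    have hmet : D.Met j lam ρ := by
      unfold SfDoc.Met
      rw [if_neg (ne_of_lt hj1)]
      exact ⟨ρ', c1, c2⟩
    have hm := hmem ρ hmet hE rfl
    refine Set.mem_biUnion (x := (W ρ, D.layEqTa i j ρ')) ?_ ?_
    · rw [Finset.mem_coe, Finset.mem_product]
      refine ⟨hm, ?_⟩
      rcases hc ρ' hT with h | h
      · show D.layEqTa i j ρ' ∈ ({c, lam.T} : Finset ℝ)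
        rw [h]
        simp
      · show D.layEqTa i j ρ' ∈ ({c, lam.T} : Finset ℝ)
        rw [h]
        simp
    · refine ⟨(v (Z ρ) + sl (Z ρ) * D.layEqTa i j ρ', sl (Z ρ)), ?_, rfl⟩
      rw [hA]
      exact ⟨ρ', ρ, c1, c2, hE, rfl, rfl, rfl⟩
  calc _ ≤ (((⋃ q ∈ S ×ˢ ({c, lam.T} : Finset ℝ),
        (fun p : ℝ × ℝ => ((q.2, ⌊p.1 / D.s ^ (i - 1 + ϖ)⌋, ⌊p.2 / D.s ^ (-1 + ϖ)⌋) : ℝ × ℤ × ℤ)) '' A q).ncard : ℕ) : ℝ) :=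
        Nat.cast_le.2 (Set.ncard_le_ncard hsub f3)
    _ ≤ 2 * N * (4 * (10 * D.s ^ (-t) + 2)) := c3
    _ ≤ _ := ae1_cb_num D.s t N hs.1 H.wk.h10 hN0

/-- LEAF L-256-E1-C3.   (c) -/
theorem ae1_c_c (H : Ae1Sit π C0 τc κ0 t D i j X ϖ N Z W v sl J Ev) (ρ' : D.Row j) (ρ : D.Row 1) (hc : D.Conn j 1 ρ' ρ) (hE : Ev ρ) :
    sfR2 (D.lab j ρ') (ae1Sg D.s i ϖ (ae1Cell D.s i ϖ v sl (D.layEqTa i j ρ') (Z ρ))) (D.len j) ≤ D.s ^ (-((π.c2 - τc) * (j - i))) := by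
  have hs := H.wk.ok.core.hs
  have htp := H.wk.tpos
  have hX0 := H.X0
  have hiG := H.hi
  have hjG := H.hj
  have hij := H.hij
  have hj1 := H.hj1
  have hw1 := H.hϖ1
  have hw2 := H.hϖ2
  have h1 : π.c2 = 1 := H.par.c2
  have hq1 : π.q = 1 := H.par.q
  have hq : π.q = π.c2 := hq1.trans h1.symm
  have hb : ∀ x, π.b2 x = x - 1 := by
    intro x
    unfold SfPar.b2
    rw [hq1]
    ring
  obtain ⟨p0, p1⟩ := lay_pref2 D π C0 τc κ0 t j H.wk.ok hjG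
  obtain ⟨o1, o2, -⟩ := H.wk.ok.core.own j hjG ρ'
  obtain ⟨n1, n2⟩ := lay_ta_near H.wk.ok.core hiG hjG hij ρ'
  have row := ae1_c_row H ρ' ρ hc hE
  have cK := H.wk.ok.aff.eqK (by rw [h1]; norm_num) (by rw [h1]) hq j hjG ρ'
  have cS := H.hsl (Z ρ)
  have hl := (H.wk.ok.core.hlen.2 j hjG).2
  have hl0 : 0 ≤ D.len j := le_trans (Real.rpow_nonneg hs.1.le _) (H.wk.ok.core.hlen.2 j hjG).1
  have hg : 0 < D.s ^ (i - 1 + ϖ) := Real.rpow_pos_of_pos hs.1 _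
  have hh : 0 < D.s ^ (-1 + ϖ) := Real.rpow_pos_of_pos hs.1 _
  set Ta : ℝ := D.layEqTa i j ρ' with hTa
  set x : ζ := Z ρ with hx
  set mg : ℝ := (⌊(v x + sl x * Ta) / D.s ^ (i - 1 + ϖ)⌋ : ℝ) * D.s ^ (i - 1 + ϖ) with hmg
  set mh : ℝ := (⌊sl x / D.s ^ (-1 + ϖ)⌋ : ℝ) * D.s ^ (-1 + ϖ) with hmh
  have r1 : |mg - (v x + sl x * Ta)| ≤ D.s ^ (i - 1 + ϖ) := lay_round _ _ hg
  have r2 : |mh - sl x| ≤ D.s ^ (-1 + ϖ) := lay_round _ _ hh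
  set Y : ℝ := D.s ^ (i - 1 + ϖ - t) with hY
  have hY0 : 0 ≤ Y := Real.rpow_nonneg hs.1.le _
  have y1 : D.s ^ (j - 1 - X - t) ≤ Y := lay_rpow_anti hs.1 hs.2 (by linarith)
  have y2 : D.s ^ (i - 1 + ϖ) ≤ Y := lay_rpow_anti hs.1 hs.2 (by linarith)
  have y3 : D.s ^ (i - t) * D.s ^ (-1 + ϖ) ≤ Y := by
    rw [← Real.rpow_add hs.1]
    exact lay_rpow_anti hs.1 hs.2 (by linarith)
  have y4 : D.s ^ (π.b2 j - t) ≤ Y := lay_rpow_anti hs.1 hs.2 (by rw [hb]; linarith)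
  have y5 : D.s ^ (j - t) * D.s ^ (-1 - X) ≤ Y := by
    rw [← Real.rpow_add hs.1]
    exact lay_rpow_anti hs.1 hs.2 (by linarith)
  have y6 : D.s ^ (j - t) * D.s ^ (-1 + ϖ) ≤ Y := by
    rw [← Real.rpow_add hs.1]
    exact lay_rpow_anti hs.1 hs.2 (by linarith)
  have e0 : sfR2 (D.lab j ρ') (ae1Sg D.s i ϖ (ae1Cell D.s i ϖ v sl Ta x)) (D.len j)
      = D.r j ^ 2 / D.f j * (|(D.lab j ρ').be - (mg + (D.T j ρ' - Ta) * mh)| + D.len j * |(D.lab j ρ').K - mh|) := by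
    unfold ae1Sg ae1Cell
    rw [lay_shear_R2, o1, o2]
    rfl
  rw [e0]
  have T1 : |(D.lab j ρ').be - (mg + (D.T j ρ' - Ta) * mh)| ≤ 6 * Y := by
    have e : (D.lab j ρ').be - (mg + (D.T j ρ' - Ta) * mh)
        = ((D.lab j ρ').be - (v x + sl x * D.T j ρ')) - (mg - (v x + sl x * Ta)) - (D.T j ρ' - Ta) * (mh - sl x) := by
      ring
    rw [e]
    have a1 := abs_sub (((D.lab j ρ').be - (v x + sl x * D.T j ρ')) - (mg - (v x + sl x * Ta)))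
      ((D.T j ρ' - Ta) * (mh - sl x))
    have a2 := abs_sub ((D.lab j ρ').be - (v x + sl x * D.T j ρ')) (mg - (v x + sl x * Ta))
    have a3 : |(D.T j ρ' - Ta) * (mh - sl x)| ≤ D.s ^ (i - t) * D.s ^ (-1 + ϖ) := by
      rw [abs_mul, abs_of_nonneg n1]
      exact mul_le_mul n2 r2 (abs_nonneg _) (Real.rpow_nonneg hs.1.le _)
    linarith
  have T2 : D.len j * |(D.lab j ρ').K - mh| ≤ 3 * Y := by
    have a1 : |(D.lab j ρ').K - mh| ≤ |(D.lab j ρ').K| + |sl x| + |mh - sl x| := by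
      have e : (D.lab j ρ').K - mh = (D.lab j ρ').K - sl x - (mh - sl x) := by ring
      rw [e]
      have b1 := abs_sub ((D.lab j ρ').K - sl x) (mh - sl x)
      have b2 := abs_sub (D.lab j ρ').K (sl x)
      linarith
    have a2 : D.len j * |sl x| ≤ D.s ^ (j - t) * D.s ^ (-1 - X) :=
      mul_le_mul hl cS (abs_nonneg _) (Real.rpow_nonneg hs.1.le _)
    have a3 : D.len j * |mh - sl x| ≤ D.s ^ (j - t) * D.s ^ (-1 + ϖ) :=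
      mul_le_mul hl r2 (abs_nonneg _) (Real.rpow_nonneg hs.1.le _)
    have a4 := mul_le_mul_of_nonneg_left a1 hl0
    have a5 : D.len j * (|(D.lab j ρ').K| + |sl x| + |mh - sl x|)
        = D.len j * |(D.lab j ρ').K| + D.len j * |sl x| + D.len j * |mh - sl x| := by ring
    linarith
  have hfin : D.r j ^ 2 / D.f j * (|(D.lab j ρ').be - (mg + (D.T j ρ' - Ta) * mh)| + D.len j * |(D.lab j ρ').K - mh|)
      ≤ D.s ^ (-π.b2 j - 3 * t) * (10 * Y) := by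
    refine mul_le_mul p1 (by linarith) ?_ (Real.rpow_nonneg hs.1.le _)
    exact add_nonneg (abs_nonneg _) (mul_nonneg hl0 (abs_nonneg _))
  refine hfin.trans ?_
  have h10 := lay_rpow_abs hs.1 H.wk.h10 (i - 1 + ϖ - t)
  calc D.s ^ (-π.b2 j - 3 * t) * (10 * Y) ≤ D.s ^ (-π.b2 j - 3 * t) * D.s ^ (i - 1 + ϖ - t - t) :=
        mul_le_mul_of_nonneg_left h10 (Real.rpow_nonneg hs.1.le _)
    _ = D.s ^ (-π.b2 j - 3 * t + (i - 1 + ϖ - t - t)) := by rw [← Real.rpow_add hs.1]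
    _ ≤ _ := lay_rpow_anti hs.1 hs.2 (by rw [hb, h1]; linarith)

/-- LEAF L-256-E1-C3.   (sz) -/
theorem ae1_c_sz (H : Ae1Sit π C0 τc κ0 t D i j X ϖ N Z W v sl J Ev) (ρ' : D.Row j) (ρ : D.Row 1) (hc : D.Conn j 1 ρ' ρ) (hE : Ev ρ) :
    (ae1Sg D.s i ϖ (ae1Cell D.s i ϖ v sl (D.layEqTa i j ρ') (Z ρ))).size ≤ D.s ^ (-(1 / t)) := by
  have hs := H.wk.ok.core.hs
  have htp := H.wk.tpos
  have hX0 := H.X0
  have hiG := H.hi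
  have hjG := H.hj
  have hij := H.hij
  have hj1 := H.hj1
  have hw1 := H.hϖ1
  have hw2 := H.hϖ2
  have hi0 : 0 ≤ i := (H.wk.ok.core.gate.2 i H.hi).1
  have hw0 : 0 ≤ ϖ := by
    have := mul_nonneg H.hτc.le (sub_nonneg.2 hij.le)
    linarith
  have hC0 : 0 ≤ |C0| := abs_nonneg _
  have hC : 0 < |C0| + 4 := by positivity
  have ht4 : t ≤ 1 / 4 := H.wk.t1.trans (by
    rw [div_le_div_iff₀ hC (by norm_num)]
    linarith)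
  have ht1 : |C0| + 4 ≤ 1 / t := by
    rw [le_div_iff₀ htp]
    have := H.wk.t1
    rw [le_div_iff₀ hC] at this
    linarith
  obtain ⟨n1, n2⟩ := lay_ta_near H.wk.ok.core hiG hjG hij ρ'
  have row := ae1_c_row H ρ' ρ hc hE
  have cS := H.hsl (Z ρ)
  have hg : 0 < D.s ^ (i - 1 + ϖ) := Real.rpow_pos_of_pos hs.1 _
  have hh : 0 < D.s ^ (-1 + ϖ) := Real.rpow_pos_of_pos hs.1 _
  have hbe : |(D.lab j ρ').be| ≤ D.s ^ (-C0) := by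
    refine le_trans ?_ (H.wk.ok.core.bdd j hjG ρ').2
    unfold SfTest.size
    simp
  set Ta : ℝ := D.layEqTa i j ρ' with hTa
  set x : ζ := Z ρ with hx
  set mg : ℝ := (⌊(v x + sl x * Ta) / D.s ^ (i - 1 + ϖ)⌋ : ℝ) * D.s ^ (i - 1 + ϖ) with hmg
  set mh : ℝ := (⌊sl x / D.s ^ (-1 + ϖ)⌋ : ℝ) * D.s ^ (-1 + ϖ) with hmh
  have r1 : |mg - (v x + sl x * Ta)| ≤ D.s ^ (i - 1 + ϖ) := lay_round _ _ hg
  have r2 : |mh - sl x| ≤ D.s ^ (-1 + ϖ) := lay_round _ _ hh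
  set V : ℝ := D.s ^ (-(|C0| + 3)) with hV
  have hV0 : 0 ≤ V := Real.rpow_nonneg hs.1.le _
  have w10 : 10 * V ≤ D.s ^ (-(1 / t)) :=
    (lay_rpow_abs hs.1 H.wk.h10 _).trans (lay_rpow_anti hs.1 hs.2 (by linarith))
  have w1 : D.s ^ (-C0) ≤ V := lay_rpow_anti hs.1 hs.2 (by linarith [le_abs_self C0])
  have w2 : D.s ^ (j - 1 - X - t) ≤ V := lay_rpow_anti hs.1 hs.2 (by linarith)
  have w3 : D.s ^ (-1 - X) * D.s ^ (i - t) ≤ V := by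
    rw [← Real.rpow_add hs.1]
    exact lay_rpow_anti hs.1 hs.2 (by linarith)
  have w4 : D.s ^ (i - 1 + ϖ) ≤ V := lay_rpow_anti hs.1 hs.2 (by linarith)
  have w5 : D.s ^ (-1 + ϖ) ≤ V := lay_rpow_anti hs.1 hs.2 (by linarith)
  have w6 : D.s ^ (-1 - X) ≤ V := lay_rpow_anti hs.1 hs.2 (by linarith)
  have e0 : ae1Sg D.s i ϖ (ae1Cell D.s i ϖ v sl Ta x) = layShear Ta mg mh 0 := rfl
  rw [e0]
  refine lay_shear_size _ _ _ _ _ ?_ ?_ ?_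
  · have e : mg = (mg - (v x + sl x * Ta)) - ((D.lab j ρ').be - (v x + sl x * D.T j ρ')) + (D.lab j ρ').be
        - sl x * (D.T j ρ' - Ta) := by ring
    have a3 : |sl x * (D.T j ρ' - Ta)| ≤ D.s ^ (-1 - X) * D.s ^ (i - t) := by
      rw [abs_mul, abs_of_nonneg n1]
      exact mul_le_mul cS n2 n1 (Real.rpow_nonneg hs.1.le _)
    rw [e]
    have b1 := abs_sub ((mg - (v x + sl x * Ta)) - ((D.lab j ρ').be - (v x + sl x * D.T j ρ')) + (D.lab j ρ').be)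
      (sl x * (D.T j ρ' - Ta))
    have b2 := abs_add_le ((mg - (v x + sl x * Ta)) - ((D.lab j ρ').be - (v x + sl x * D.T j ρ'))) (D.lab j ρ').be
    have b3 := abs_sub (mg - (v x + sl x * Ta)) ((D.lab j ρ').be - (v x + sl x * D.T j ρ'))
    linarith
  · have e : mh = (mh - sl x) + sl x := by ring
    rw [e]
    have b1 := abs_add_le (mh - sl x) (sl x)
    linarith
  · rw [abs_zero]
    exact Real.rpow_nonneg hs.1.le _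

/-- **THE COST STEP**: a line whose slope is predicted at the end gate contradicts the minimality of the curvature cost -/
theorem ae1_cost (H : Ae1Sit π C0 τc κ0 t D i j X ϖ N Z W v sl J Ev) :
    (D.P 1).pr Ev ≤ D.s ^ (-t) * (D.s ^ (κ0 * (j - i))) ^ ((2 : ℝ) / 3) + D.s ^ (1 / t) := by
  have hs := H.wk.ok.core.hs
  have hc2 : 0 < π.c2 := by rw [H.par.c2]; exact one_pos
  have hpos : 0 < D.s ^ (-(5 * t)) := Real.rpow_pos_of_pos hs.1 _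
  have h1 : (1 : ℝ) ≤ D.s ^ (-(5 * t)) :=
    Real.one_le_rpow_of_pos_of_le_one_of_nonpos hs.1 hs.2.le (by have := H.wk.tpos; linarith)
  have hN0 : 0 ≤ N := le_trans zero_le_one H.N1
  have hNa : N ≤ D.s ^ (-(κ0 * (j - i))) := le_trans (by nlinarith) H.hN
  have h35 : D.s ^ (-(3 * t)) ≤ D.s ^ (-(5 * t)) := lay_rpow_anti hs.1 hs.2 (by have := H.wk.tpos; linarith)
  refine lay_extract D π C0 τc κ0 t i j H.wk.ok hc2 H.hi H.hj H.hij H.hj1 H.hκ Ev (ℝ × ℤ × ℤ)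
    (fun ρ' ρ => ae1Cell D.s i ϖ v sl (D.layEqTa i j ρ') (Z ρ)) (ae1Sg D.s i ϖ) ?_ ?_ ?_ ?_
  · intro ρ0
    exact (ae1_c_a H ρ0).trans hNa
  · intro lam
    exact (ae1_c_b H lam).trans (le_trans (mul_le_mul_of_nonneg_left h35 hN0) H.hN)
  · intro ρ' ρ hc hE
    exact ae1_c_sz H ρ' ρ hc hE
  · intro ρ' ρ hc hE
    exact ae1_c_c H ρ' ρ hc hE

end cost

end

end Claimed.Agent.R256
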