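import Claimed.Agent.R256.Act.LtTan

/-!
# Row 256, section Act, E1 = Lemma act:stationary-boundary (06 l.314-430), file 1: THE FINITE LAW CORE      (architect helper279; prefix `ae1_`)

PAPER FREE.   `T : Tan` one-record tangent datum, `A` an event of mass `≥ δ^E0` (the line event).   `T.LtRob` = ROBUST form of the probabilistic clauses of the line test on the UNRESTRICTED law: every failure is `≤ δ^E1` with `E0 < E1`
(lists for the times and for the root name; two-sided angular scores; lower angular score given the child at `l = 40`).   They pass to `T.P.cnd A`: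
 * `ae1_k_list`   list form ⟹ lower score under the restricted law, failure `ε / P(A)`      (06 l.357-360 "likelihood comparison preserves the time-score hypotheses")
 * `ae1_k_two`, `ae1_k_low`   persistence of deterministic scores (`lay_law_cnd_sur` = Lemma fw-restriction, Markov form)      (06 l.369-370)
 * `ae1_k_ent_le`  entropy from an upper score (uniform integrability),  `ltk_ent_ge` (LT/Kit) from a lower score
 * `ae1_f_time`, `ae1_f_prof`, `ae1_f_stat` ((ng) through scores + chain rule, 06 l.370-375), `ae1_f_up` (boundary equality of (canon), 06 l.381-384)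
 * `ae1_fin` (PROVED glue) : `LtRob` + geometry + line ⟹ a predictor of the slope from `(C, S)` with `P(. | A) > τ`.
NUMERICS.   `ε ≥ δ^(E1-E0) + 2 ((E0 L + 1)/(τ1 L) + exp(-τ1 L))`,  `1 ≤ τ1 L`,  `40 τ1 + 40 ε ≤ τ`.
-/

set_option autoImplicit false

namespace Claimed.Agent.R256

open Claimed.Agent.R255
open Claimed.Agent.R255.FLaw
open scoped BigOperators
open Classical

/-! ## kit (leaf L-256-E1-KIT) -/

section kit

variable {Ω : Type} [Fintype Ω] {α β γ : Type}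

/-- probabilities under a restriction -/
theorem ae1_k_cnd_pr (P : FLaw Ω) (A : Ω → Prop) (hA : 0 < P.pr A) (E : Ω → Prop) :
    (P.cnd A).pr E = P.pr (fun ω => A ω ∧ E ω) / P.pr A := by
  exact ent_cnd_pr P A hA E

/-- the heavy values of `X` over the value `y` of `Y` -/
noncomputable def ae1KHeavy (Q : FLaw Ω) (X : Ω → α) (Y : Ω → β) (N : ℝ) (y : β) : Finset α :=
  (Finset.univ.image X).filter (fun x => Q.pr (fun ω => Y ω = y) ≤ N * Q.pr (fun ω => X ω = x ∧ Y ω = y)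
    ∧ 0 < Q.pr (fun ω => X ω = x ∧ Y ω = y))

theorem ae1_k_aux_heavy_card (Q : FLaw Ω) (X : Ω → α) (Y : Ω → β) (N : ℝ) (hN : 0 < N) (y : β) :
    ((ae1KHeavy Q X Y N y).card : ℝ) ≤ N := by
  rcases (ae1KHeavy Q X Y N y).eq_empty_or_nonempty with h0 | ⟨x0, hx0⟩
  · rw [h0, Finset.card_empty, Nat.cast_zero]; exact hN.le
  · have hq : 0 < Q.pr (fun ω => Y ω = y) :=
      lt_of_lt_of_le (Finset.mem_filter.1 hx0).2.2 (ent_pr_mono Q fun ω _ h => h.2)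
    have h1 : ∑ x ∈ ae1KHeavy Q X Y N y, Q.pr (fun ω => X ω = x ∧ Y ω = y) ≤ Q.pr (fun ω => Y ω = y) := by
      have h := ent_pr_sum_values Q (fun ω => X ω ∈ ae1KHeavy Q X Y N y ∧ Y ω = y) X (ae1KHeavy Q X Y N y)
        (fun _ _ h => h.1)
      have h2 : ∑ x ∈ ae1KHeavy Q X Y N y, Q.pr (fun ω => (X ω ∈ ae1KHeavy Q X Y N y ∧ Y ω = y) ∧ X ω = x)
          = ∑ x ∈ ae1KHeavy Q X Y N y, Q.pr (fun ω => X ω = x ∧ Y ω = y) := by
        refine Finset.sum_congr rfl fun x hx => ?_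
        refine ent_pr_congr Q fun ω _ => ⟨fun h => ⟨h.2, h.1.2⟩, fun h => ⟨⟨h.1 ▸ hx, h.2⟩, h.1⟩⟩
      rw [← h2, ← h]
      exact ent_pr_mono Q fun ω _ h => h.2
    have h2 : ((ae1KHeavy Q X Y N y).card : ℝ) * (Q.pr (fun ω => Y ω = y) / N)
        ≤ ∑ x ∈ ae1KHeavy Q X Y N y, Q.pr (fun ω => X ω = x ∧ Y ω = y) := by
      rw [← nsmul_eq_mul, ← Finset.sum_const]
      refine Finset.sum_le_sum fun x hx => ?_
      rw [div_le_iff₀ hN, mul_comm]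
      exact (Finset.mem_filter.1 hx).2.1
    have h3 := h2.trans h1
    rw [mul_div_assoc', div_le_iff₀ hN, mul_comm (Q.pr _)] at h3
    exact le_of_mul_le_mul_right (by linarith) hq

theorem ae1_k_aux_heavy_mem (Q : FLaw Ω) (X : Ω → α) (Y : Ω → β) (N : ℝ) (hN : 0 < N) (ω : Ω) (hω : Q.p ω ≠ 0)
    (h : Q.surC X Y ω ≤ Real.log N) : X ω ∈ ae1KHeavy Q X Y N (Y ω) := by
  have h1 := ent_exp_neg_surC Q X Y hω
  have h2 : 1 / N ≤ Real.exp (- Q.surC X Y ω) := by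
    rw [one_div, ← Real.exp_log hN, ← Real.exp_neg]
    exact Real.exp_le_exp.2 (by linarith)
  rw [h1, div_le_div_iff₀ hN (ent_fib_pos Q Y hω), one_mul, ent_fib_pair, mul_comm] at h2
  refine Finset.mem_filter.2 ⟨Finset.mem_image.2 ⟨ω, Finset.mem_univ _, rfl⟩, h2, ?_⟩
  rw [← ent_fib_pair]
  exact ent_fib_pos Q _ hω

theorem ae1_k_aux_eqns_cite : True := by
  have := @ae1KHeavy.eq_1
  trivial

/-- **list form ⟹ lower score under a restriction.**   `c y := {x : P_A(X = x | Y = y) > 1/N}` has at most `N` elements;  `surC < log N` means `X ω ∈ c (Y ω)`. -/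
theorem ae1_k_list (P : FLaw Ω) (A : Ω → Prop) (hA : 0 < P.pr A) (X : Ω → α) (Y : Ω → β) (N ε : ℝ) (hN : 0 < N)
    (h : ∀ c : β → Finset α, (∀ y, ((c y).card : ℝ) ≤ N) → P.pr (fun ω => A ω ∧ X ω ∈ c (Y ω)) ≤ ε) :
    (P.cnd A).pr (fun ω => (P.cnd A).surC X Y ω < Real.log N) ≤ ε / P.pr A := by
  have h1 : (P.cnd A).pr (fun ω => (P.cnd A).surC X Y ω < Real.log N)
      ≤ (P.cnd A).pr (fun ω => X ω ∈ ae1KHeavy (P.cnd A) X Y N (Y ω)) :=
    ent_pr_mono _ fun ω hω hs => ae1_k_aux_heavy_mem (P.cnd A) X Y N hN ω hω hs.le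
  refine h1.trans ?_
  rw [ent_cnd_pr P A hA]
  exact div_le_div_of_nonneg_right
    (h (ae1KHeavy (P.cnd A) X Y N) (ae1_k_aux_heavy_card (P.cnd A) X Y N hN)) hA.le

/-- **persistence of a two-sided score** (`lay_law_cnd_sur`, `ae1_k_cnd_pr`) -/
theorem ae1_k_two (P : FLaw Ω) (A : Ω → Prop) (hA : 0 < P.pr A) (X : Ω → α) (Y : Ω → β) (c e u ε : ℝ) (hu : 0 < u)
    (h : P.pr (fun ω => e < |P.surC X Y ω - c|) ≤ ε) :
    (P.cnd A).pr (fun ω => e + 2 * u < |(P.cnd A).surC X Y ω - c|)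
      ≤ ε / P.pr A + 2 * ((Real.log (1 / P.pr A) + Real.exp (-1)) / u + Real.exp (-u)) := by
  have h1 := lay_law_cnd_sur P A hA X Y hu
  have h2 : (P.cnd A).pr (fun ω => e < |P.surC X Y ω - c|) ≤ ε / P.pr A := by
    rw [ent_cnd_pr P A hA]
    exact div_le_div_of_nonneg_right ((ent_pr_mono P fun ω _ hh => hh.2).trans h) hA.le
  have h3 : (P.cnd A).pr (fun ω => e + 2 * u < |(P.cnd A).surC X Y ω - c|)
      ≤ (P.cnd A).pr (fun ω => e < |P.surC X Y ω - c| ∨ 2 * u < |(P.cnd A).surC X Y ω - P.surC X Y ω|) := by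
    refine ent_pr_mono _ fun ω _ hh => ?_
    by_contra hcon
    push Not at hcon
    have := abs_sub_le ((P.cnd A).surC X Y ω) (P.surC X Y ω) c
    linarith [hcon.1, hcon.2]
  exact h3.trans ((ent_pr_or_le _ _ _).trans (add_le_add h2 h1))

/-- **persistence of a lower score** -/
theorem ae1_k_low (P : FLaw Ω) (A : Ω → Prop) (hA : 0 < P.pr A) (X : Ω → α) (Y : Ω → β) (c u ε : ℝ) (hu : 0 < u)
    (h : P.pr (fun ω => P.surC X Y ω < c) ≤ ε) :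
    (P.cnd A).pr (fun ω => (P.cnd A).surC X Y ω < c - 2 * u)
      ≤ ε / P.pr A + 2 * ((Real.log (1 / P.pr A) + Real.exp (-1)) / u + Real.exp (-u)) := by
  have h1 := lay_law_cnd_sur P A hA X Y hu
  have h2 : (P.cnd A).pr (fun ω => P.surC X Y ω < c) ≤ ε / P.pr A := by
    rw [ent_cnd_pr P A hA]
    exact div_le_div_of_nonneg_right ((ent_pr_mono P fun ω _ hh => hh.2).trans h) hA.le
  have h3 : (P.cnd A).pr (fun ω => (P.cnd A).surC X Y ω < c - 2 * u)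
      ≤ (P.cnd A).pr (fun ω => P.surC X Y ω < c ∨ 2 * u < |(P.cnd A).surC X Y ω - P.surC X Y ω|) := by
    refine ent_pr_mono _ fun ω _ hh => ?_
    by_contra hcon
    push Not at hcon
    have := (abs_le.1 hcon.2).1
    linarith [hcon.1]
  exact h3.trans ((ent_pr_or_le _ _ _).trans (add_le_add h2 h1))

/-- **entropy from an upper score.**   `B = {c < surC}`;  for each `y`:  `∑_{x ∈ B_y} p(x|y) log (1/p(x|y)) ≤ p(B_y|y) log |S| + p(B_y|y) log (1/p(B_y|y)) ≤ p(B_y|y) log |S| + e^-1` (concavity of `log`). -/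
theorem ae1_k_ent_le (P : FLaw Ω) (X : Ω → α) (Y : Ω → β) (S : Finset α) (hS : ∀ ω, P.p ω ≠ 0 → X ω ∈ S) (c ε : ℝ) (hc : 0 ≤ c)
    (h : P.pr (fun ω => c < P.surC X Y ω) ≤ ε) : P.entC X Y ≤ c + ε * Real.log S.card + 1 := by
  obtain ⟨b, hb⟩ : ∃ b : ℝ, b = P.pr (fun ω => c < P.surC X Y ω) := ⟨_, rfl⟩
  rw [← hb] at h
  have hb0 : 0 ≤ b := hb ▸ ent_pr_nonneg _ _
  have hlog : 0 ≤ Real.log S.card := Real.log_natCast_nonneg _
  have hnv : P.NVal (fun _ => True) X Y S.card := fun ω₀ => ⟨S, le_rfl, fun ω hω _ _ => hS ω hω⟩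
  have hK := ent_aux_nval_ev P X Y hnv
  have hn : 0 < (S.card : ℝ) := by
    obtain ⟨ω, hω⟩ := ent_exists_supp P
    exact_mod_cast Finset.card_pos.2 ⟨X ω, hS ω hω⟩
  rw [ent_entC_eq_ev]
  rcases hb0.eq_or_lt with hb' | hbpos
  · have h1 : P.ev (P.surC X Y) ≤ P.ev (fun _ => c) := by
      refine ent_ev_mono P fun ω hω => ?_
      by_contra hlt
      have : 0 < P.pr (fun ω => c < P.surC X Y ω) := (ent_pr_pos_iff P _).2 ⟨ω, not_le.1 hlt, hω⟩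
      linarith
    rw [ent_ev_const] at h1
    have : 0 ≤ ε * Real.log S.card := mul_nonneg (hb0.trans h) hlog
    linarith
  · obtain ⟨n, hndef⟩ : ∃ n : ℝ, n = S.card := ⟨_, rfl⟩
    rw [← hndef] at hn hK hlog ⊢
    have h1 : P.ev (P.surC X Y) ≤ P.ev (fun ω => c + ((b / n) * (P.fib Y ω / P.fib (pair X Y) ω)
        + (Real.log (n / b) - 1) * (if c < P.surC X Y ω then 1 else 0))) := by
      refine ent_ev_mono P fun ω hω => ?_
      have hr : 0 < P.fib Y ω / P.fib (pair X Y) ω := div_pos (ent_fib_pos P _ hω) (ent_fib_pos P _ hω)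
      by_cases hB : c < P.surC X Y ω
      · rw [if_pos hB]
        have e : P.surC X Y ω = Real.log (P.fib Y ω / P.fib (pair X Y) ω) := by
          rw [ent_surC_eq_sub P X Y hω, Real.log_div (ent_fib_pos P _ hω).ne' (ent_fib_pos P _ hω).ne']
        have h2 := Real.log_le_sub_one_of_pos (mul_pos (div_pos hbpos hn) hr)
        rw [Real.log_mul (div_pos hbpos hn).ne' hr.ne', Real.log_div hbpos.ne' hn.ne'] at h2
        rw [e, Real.log_div hn.ne' hbpos.ne']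
        linarith
      · rw [if_neg hB]
        have := mul_pos (div_pos hbpos hn) hr
        linarith [not_lt.1 hB]
    refine h1.trans ?_
    rw [ent_ev_add, ent_ev_const, ent_ev_add, ent_ev_mul_left, ent_ev_mul_left, ← ent_pr_eq_ev, ← hb]
    have h3 : b / n * P.ev (fun ω => P.fib Y ω / P.fib (pair X Y) ω) ≤ b := by
      calc b / n * P.ev (fun ω => P.fib Y ω / P.fib (pair X Y) ω) ≤ b / n * n :=
            mul_le_mul_of_nonneg_left hK (div_pos hbpos hn).le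
        _ = b := by field_simp
    have h4 : b * Real.log (1 / b) ≤ 1 - b := by
      have := Real.log_le_sub_one_of_pos (one_div_pos.2 hbpos)
      calc b * Real.log (1 / b) ≤ b * (1 / b - 1) := mul_le_mul_of_nonneg_left this hb0
        _ = 1 - b := by field_simp
    rw [one_div, Real.log_inv] at h4
    rw [Real.log_div hn.ne' hbpos.ne']
    have h5 : b * Real.log n ≤ ε * Real.log n := mul_le_mul_of_nonneg_right h hlog
    nlinarith

/-- a list costs its logarithm:  `H(X | S, C) ≥ H(X | O, C) - log N` if `(O, C)` lists `S`      (`H(X|S,C) ≥ H(X|O,S,C) = H(X,S|O,C) - H(S|O,C)`) -/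
theorem ae1_k_chain (P : FLaw Ω) {δ' : Type} (X : Ω → α) (S : Ω → β) (O : Ω → γ) (C : Ω → δ') (N : ℝ) (hN : 1 ≤ N)
    (h : P.NVal (fun _ => True) S (pair O C) N) : P.entC X (pair O C) - Real.log N ≤ P.entC X (pair S C) := by
  have h1 : P.entC X (pair S (pair O C)) ≤ P.entC X (pair S C) :=
    ent_entC_anti P X _ _ fun ω ω' _ _ he => by
      have e1 : S ω = S ω' := congrArg Prod.fst he
      have e2 : C ω = C ω' := congrArg (fun t => t.2.2) he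
      exact Prod.ext e1 e2
  have h2 := ent_entC_chain P S X (pair O C)
  have h3 : P.entC X (pair O C) ≤ P.entC (pair S X) (pair O C) :=
    ent_entC_mono P (pair S X) X (pair O C) fun ω ω' _ _ he _ => congrArg Prod.snd he
  have h4 := ent_entC_le_log_nval P S (pair O C) h
  linarith

/-- an upper score gives lists: on `{surC X Y ≤ log N}` the observation `X` has at most `N` values over each value of `Y` -/
theorem ae1_k_nval (P : FLaw Ω) (X : Ω → α) (Y : Ω → β) (N : ℝ) (hN : 0 < N) :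
    P.NVal (fun ω => P.surC X Y ω ≤ Real.log N) X Y N := by
  intro ω₀
  refine ⟨ae1KHeavy P X Y N (Y ω₀), ae1_k_aux_heavy_card P X Y N hN _, fun ω hω hs hY => ?_⟩
  rw [← hY]
  exact ae1_k_aux_heavy_mem P X Y N hN ω hω hs

end kit

/-! ## the robust clauses -/

/-- the robust form of the probabilistic clauses (on the unrestricted law; `G` = success event of the lists of the side) -/
structure Tan.LtRob (T : Tan) {ζ' : Type} (Z : T.Ω → ζ') (G : T.Ω → Prop) (d g τ1 E1 : ℝ) (Q : Finset ℝ) (M : ℝ → ℝ) (NO NC : ℝ) : Prop where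
  time : ∀ p ∈ Q, ∀ v ∈ Q, p < v → ∀ c : ζ' × ℤ → Finset ℤ, (∀ x, ((c x).card : ℝ) ≤ T.δ ^ (-(d * (v - p) - τ1))) →
    T.P.pr (fun ω => G ω ∧ T.thn 0 v ω ∈ c (Z ω, T.thn 0 p ω)) ≤ T.δ ^ E1
  ang : ∀ z ∈ insert (6 : ℝ) Q, T.P.pr (fun ω => τ1 * T.L < |T.P.surC (T.Xn z) T.Cs ω - M z * T.L|) ≤ T.δ ^ E1
  ang40 : T.P.pr (fun ω => T.P.surC (T.Xn 6) (pair (T.O 40) T.Cs) ω < (M 6 - τ1) * T.L) ≤ T.δ ^ E1
  mem : ∀ z ∈ Q, g * z ≤ M z
  M6 : 0 ≤ M 6 ∧ M 6 ≤ 6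
  cntC : ∀ LL : Finset T.γ, (LL.card : ℝ) ≤ NC → T.P.pr (fun ω => T.Cs ω ∈ LL) ≤ T.δ ^ E1
  cntO : ∃ S : Finset T.ο, (S.card : ℝ) ≤ NO ∧ ∀ ω, T.P.p ω ≠ 0 → T.O 1 ω ∈ S
  ofO : ∀ ω ω', T.O 1 ω = T.O 1 ω' → T.Cs ω = T.Cs ω'

/-- the numerical margins -/
structure Tan.LtNum (T : Tan) (A : T.Ω → Prop) (τ τ1 E0 E1 ε : ℝ) : Prop where
  δ0 : 0 < T.δ
  δ1 : T.δ < 1
  hA : T.δ ^ E0 ≤ T.P.pr A
  hE0 : 0 < E0
  hτ1 : 0 < τ1
  L1 : 1 ≤ τ1 * T.L
  hε : T.δ ^ (E1 - E0) + 2 * ((E0 * T.L + 1) / (τ1 * T.L) + Real.exp (-(τ1 * T.L))) ≤ ε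
  ε1 : ε ≤ 1
  hτ : 40 * τ1 + 40 * ε ≤ τ

/-- basic consequences of the numerical margins -/
theorem ae1_f_aux_num (T : Tan) (A : T.Ω → Prop) (τ τ1 E0 E1 ε : ℝ) (hN : T.LtNum A τ τ1 E0 E1 ε) :
    0 < T.L ∧ 0 < T.P.pr A ∧ T.δ ^ E1 / T.P.pr A ≤ T.δ ^ (E1 - E0) ∧ Real.log (1 / T.P.pr A) ≤ E0 * T.L ∧
      T.δ ^ (E1 - E0) ≤ ε ∧ 0 < ε ∧ τ1 ≤ τ ∧ ε ≤ τ ∧
      T.δ ^ E1 / T.P.pr A + 2 * ((Real.log (1 / T.P.pr A) + Real.exp (-1)) / (τ1 * T.L) + Real.exp (-(τ1 * T.L))) ≤ ε := by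
  have hL : 0 < T.L := ltlo_lg_pos hN.δ0 hN.δ1
  have hE0pos : 0 < T.δ ^ E0 := Real.rpow_pos_of_pos hN.δ0 _
  have hA : 0 < T.P.pr A := lt_of_lt_of_le hE0pos hN.hA
  have h1 : T.δ ^ E1 / T.P.pr A ≤ T.δ ^ (E1 - E0) := by
    rw [Real.rpow_sub hN.δ0]
    exact div_le_div_of_nonneg_left (Real.rpow_pos_of_pos hN.δ0 _).le hE0pos hN.hA
  have h2 : Real.log (1 / T.P.pr A) ≤ E0 * T.L := by
    have e : E0 * T.L = Real.log (T.δ ^ (-E0)) := (ltlo_log hN.δ0 E0).symm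
    rw [e]
    refine Real.log_le_log (by positivity) ?_
    rw [Real.rpow_neg hN.δ0.le, one_div]
    exact inv_anti₀ hE0pos hN.hA
  have hu : 0 < τ1 * T.L := mul_pos hN.hτ1 hL
  have h3 : 0 ≤ (E0 * T.L + 1) / (τ1 * T.L) + Real.exp (-(τ1 * T.L)) := by
    have := mul_pos hN.hE0 hL
    positivity
  have h4 : T.δ ^ (E1 - E0) ≤ ε := by linarith [hN.hε]
  have h5 : 0 < ε := lt_of_lt_of_le (Real.rpow_pos_of_pos hN.δ0 _) h4
  have h6 : (Real.log (1 / T.P.pr A) + Real.exp (-1)) / (τ1 * T.L) ≤ (E0 * T.L + 1) / (τ1 * T.L) := by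
    refine div_le_div_of_nonneg_right ?_ hu.le
    have : Real.exp (-1) ≤ 1 := Real.exp_le_one_iff.2 (by norm_num)
    linarith
  refine ⟨hL, hA, h1, h2, h4, h5, by linarith [hN.hτ, hN.hτ1], by linarith [hN.hτ, hN.hτ1], ?_⟩
  linarith [hN.hε]

section fin

variable (T : Tan) {ζ' : Type} (A : T.Ω → Prop) (Z : T.Ω → ζ') (G : T.Ω → Prop) (a : ItPar) (K acc d g τ τ1 E0 E1 ε R : ℝ) (Q : Finset ℝ) (M : ℝ → ℝ)
  (NO NC : ℝ)

/-- LEAF L-256-E1-FT.   `p = v`: the threshold is negative.   `p < v`: `ae1_k_list` with `N = δ^(-(d (v-p) - τ1))`, `log N = (d (v-p) - τ1) L`, failure `δ^E1 / P(A) ≤ δ^(E1-E0) ≤ ε ≤ τ`. -/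
theorem ae1_f_time (hN : T.LtNum A τ τ1 E0 E1 ε) (hR : T.LtRob Z G d g τ1 E1 Q M NO NC) (hAG : ∀ ω, A ω → G ω) :
    ∀ p ∈ Q, ∀ v ∈ Q, p ≤ v →
      (T.P.cnd A).pr (fun ω => (T.P.cnd A).surC (T.thn 0 v) (pair Z (T.thn 0 p)) ω < (d * (v - p) - τ) * T.L) ≤ τ := by
  obtain ⟨hL, hA, h1, -, h4, h5, h6, h7, -⟩ := ae1_f_aux_num T A τ τ1 E0 E1 ε hN
  intro p hp v hv hpv
  rcases hpv.eq_or_lt with rfl | hlt
  · rw [ent_pr_eq_zero]
    · linarith
    · intro ω hω hcon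
      have h0 := ent_surC_nonneg (T.P.cnd A) (T.thn 0 p) (pair Z (T.thn 0 p)) hω
      have : (d * (p - p) - τ) * T.L < 0 := by
        rw [sub_self, mul_zero, zero_sub]
        exact mul_neg_of_neg_of_pos (by linarith) hL
      linarith
  · have hk := ae1_k_list T.P A hA (T.thn 0 v) (pair Z (T.thn 0 p)) (T.δ ^ (-(d * (v - p) - τ1))) (T.δ ^ E1)
      (Real.rpow_pos_of_pos hN.δ0 _) (fun c hc =>
        (ent_pr_mono T.P fun ω _ h => ⟨hAG ω h.1, h.2⟩).trans (hR.time p hp v hv hlt c hc))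
    rw [ltlo_log hN.δ0] at hk
    refine (ent_pr_mono _ fun ω _ h => lt_of_lt_of_le h ?_).trans (hk.trans (by linarith))
    exact mul_le_mul_of_nonneg_right (by linarith) hL.le

/-- LEAF L-256-E1-FP.   `ae1_k_two` with `e = u = τ1 L`;  `log (1/P(A)) ≤ E0 L`. -/
theorem ae1_f_prof (hN : T.LtNum A τ τ1 E0 E1 ε) (hR : T.LtRob Z G d g τ1 E1 Q M NO NC) : ∀ z ∈ insert (6 : ℝ) Q,
    (T.P.cnd A).pr (fun ω => 3 * τ1 * T.L < |(T.P.cnd A).surC (T.Xn z) T.Cs ω - M z * T.L|) ≤ ε := by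
  obtain ⟨hL, hA, -, -, -, -, -, -, h8⟩ := ae1_f_aux_num T A τ τ1 E0 E1 ε hN
  intro z hz
  have hk := ae1_k_two T.P A hA (T.Xn z) T.Cs (M z * T.L) (τ1 * T.L) (τ1 * T.L) (T.δ ^ E1) (mul_pos hN.hτ1 hL)
    (hR.ang z hz)
  refine (le_of_eq ?_).trans (hk.trans h8)
  congr 1
  funext ω
  have e : 3 * τ1 * T.L = τ1 * T.L + 2 * (τ1 * T.L) := by ring
  rw [e]

/-- LEAF L-256-E1-FS.   (ng) through scores.   `I_A(X_6; S | C) = H_A(X_6|C) - H_A(X_6|S,C)`;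
`H_A(X_6|C) ≤ (M 6 + 3 τ1) L + ε log |values of X_6| + 1` (`ae1_f_prof`, `ae1_k_ent_le`; `|F.X| ≤ B0 ≤ δ^-acc`: at most `δ^-8` cells);
`H_A(X_6|S,C) ≥ H_A(X_6|O_40,C) - τ1 L` (`ae1_k_chain`, `ltt_cnd_nval`);   `H_A(X_6|O_40,C) ≥ (M 6 - 3 τ1) L (1 - ε)` (`ae1_k_low`, `ltk_ent_ge`).   Total `≤ (8 τ1 + 14 ε) L + 1`. -/
theorem ae1_f_stat (hN : T.LtNum A τ τ1 E0 E1 ε) (hR : T.LtRob Z G d g τ1 E1 Q M NO NC) (hG : T.LtGeo Z a K acc) (hacc : acc ≤ 1)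
    (hrd : T.P.NVal (fun _ => True) (T.ltS R) (pair (T.O 40) T.Cs) (T.δ ^ (-τ1))) :
    (T.P.cnd A).miC (T.Xn 6) (T.ltS R) T.Cs ≤ τ * T.L := by
  obtain ⟨hL, hA, -, -, -, h5, -, -, h8⟩ := ae1_f_aux_num T A τ τ1 E0 E1 ε hN
  have hδ0 := hN.δ0
  have hδ1 := hN.δ1
  -- the decomposition
  have hdec : (T.P.cnd A).miC (T.Xn 6) (T.ltS R) T.Cs
      = (T.P.cnd A).entC (T.Xn 6) T.Cs - (T.P.cnd A).entC (T.Xn 6) (pair (T.ltS R) T.Cs) := by
    unfold FLaw.miC FLaw.entC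
    rw [ent_pair_assoc]
    ring
  -- the values of the angular name
  have hinv : (10 : ℝ) ^ 6 ≤ T.δ ^ (-(1 : ℝ)) := hG.hC.trans (ltlo_mono hδ0 hδ1 hacc)
  obtain ⟨S, hScard, hS⟩ := ltlo_cap (δ := T.δ) (p := 6) (R := T.δ ^ (-(1 : ℝ))) hδ0 hδ1 (by norm_num)
    (Real.rpow_pos_of_pos hδ0 _).le
  have hS8 : (S.card : ℝ) ≤ T.δ ^ (-(8 : ℝ)) := by
    refine hScard.trans ?_
    have e7 : T.δ ^ (-(1 : ℝ)) * T.δ ^ (-(6 : ℝ)) = T.δ ^ (-(7 : ℝ)) := by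
      rw [← Real.rpow_add hδ0]; norm_num
    have e8 : T.δ ^ (-(1 : ℝ)) * T.δ ^ (-(7 : ℝ)) = T.δ ^ (-(8 : ℝ)) := by
      rw [← Real.rpow_add hδ0]; norm_num
    have h71 : 1 ≤ T.δ ^ (-(7 : ℝ)) := Real.one_le_rpow_of_pos_of_le_one_of_nonpos hδ0 hδ1.le (by norm_num)
    rw [mul_assoc, e7, ← e8]
    nlinarith
  have hSmem : ∀ ω, (T.P.cnd A).p ω ≠ 0 → T.Xn 6 ω ∈ S := by
    intro ω hω
    have hp := ((ent_cnd_supp T.P A hA).1 hω).2
    refine hS _ ?_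
    have hn := hG.bdF ω hp
    unfold ItPh.nrm at hn
    exact (((le_max_left _ _).trans (le_max_left _ _)).trans (le_max_left _ _)).trans
      (hn.trans (hG.hB.trans (ltlo_mono hδ0 hδ1 hacc)))
  have hScard0 : 0 < S.card := by
    obtain ⟨ω, hω⟩ := ent_exists_supp (T.P.cnd A)
    exact Finset.card_pos.2 ⟨_, hSmem ω hω⟩
  have hlogS : Real.log S.card ≤ 8 * T.L := by
    have e : 8 * T.L = Real.log (T.δ ^ (-(8 : ℝ))) := (ltlo_log hδ0 8).symm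
    rw [e]
    exact Real.log_le_log (by exact_mod_cast hScard0) hS8
  -- upper bound
  have hup : (T.P.cnd A).entC (T.Xn 6) T.Cs ≤ (M 6 + 3 * τ1) * T.L + ε * (8 * T.L) + 1 := by
    have hp6 := ae1_f_prof T A Z G d g τ τ1 E0 E1 ε Q M NO NC hN hR 6 (Finset.mem_insert_self _ _)
    have hk := ae1_k_ent_le (T.P.cnd A) (T.Xn 6) T.Cs S hSmem ((M 6 + 3 * τ1) * T.L) ε
      (mul_nonneg (by linarith [hR.M6.1, hN.hτ1]) hL.le)
      ((ent_pr_mono _ fun ω _ h => by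
        refine lt_of_lt_of_le ?_ (le_abs_self _)
        linarith).trans hp6)
    have := mul_le_mul_of_nonneg_left hlogS h5.le
    linarith
  -- the list of the labels
  have hch := ae1_k_chain (T.P.cnd A) (T.Xn 6) (T.ltS R) (T.O 40) T.Cs (T.δ ^ (-τ1))
    (Real.one_le_rpow_of_pos_of_le_one_of_nonpos hδ0 hδ1.le (by linarith [hN.hτ1]))
    (ltt_cnd_nval T.P A hA _ _ _ hrd)
  rw [ltlo_log hδ0] at hch
  -- lower bound
  have hlow : (M 6 - 3 * τ1) * T.L - 6 * ε * T.L ≤ (T.P.cnd A).entC (T.Xn 6) (pair (T.O 40) T.Cs) := by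
    have hk := ae1_k_low T.P A hA (T.Xn 6) (pair (T.O 40) T.Cs) ((M 6 - τ1) * T.L) (τ1 * T.L) (T.δ ^ E1)
      (mul_pos hN.hτ1 hL) hR.ang40
    have hk' := hk.trans h8
    have e : (M 6 - τ1) * T.L - 2 * (τ1 * T.L) = (M 6 - 3 * τ1) * T.L := by ring
    rw [e] at hk'
    by_cases hc : 0 ≤ (M 6 - 3 * τ1) * T.L
    · have h9 := ltk_ent_ge (T.P.cnd A) (T.Xn 6) (pair (T.O 40) T.Cs) hc hk'
      have h10 : (M 6 - 3 * τ1) * T.L ≤ 6 * T.L :=
        mul_le_mul_of_nonneg_right (by linarith [hR.M6.2, hN.hτ1]) hL.le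
      have h11 := mul_le_mul_of_nonneg_right h10 h5.le
      nlinarith
    · have h9 := ent_entC_nonneg (T.P.cnd A) (T.Xn 6) (pair (T.O 40) T.Cs)
      have h10 : 0 ≤ 6 * ε * T.L := by positivity
      linarith [not_le.1 hc]
  rw [hdec]
  have hfin : (8 * τ1 + 14 * ε) * T.L ≤ τ * T.L :=
    mul_le_mul_of_nonneg_right (by linarith [hN.hτ, hN.hτ1]) hL.le
  have hL1 := hN.L1
  have hLL : T.L = lg T.δ := rfl
  rw [← hLL] at hch
  nlinarith

/-- LEAF L-256-E1-FU.   `H_A(O|C) = H_A(O) - H_A(C)` (`ofO`);  `H_A(O) ≤ log NO` (support);  `H_A(C) ≥ (1 - δ^(E1-E0)) log NC` (`ae1_k_list` with a trivial conditioning, `ltk_ent_ge`;  if `NC < 1` the right side is `≤ 0 ≤ H_A(C)`, `δ^(E1-E0) ≤ ε ≤ 1`). -/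
theorem ae1_f_up (hN : T.LtNum A τ τ1 E0 E1 ε) (hR : T.LtRob Z G d g τ1 E1 Q M NO NC) (hNC : 0 < NC) :
    (T.P.cnd A).entC (T.O 1) T.Cs ≤ Real.log NO - (1 - T.δ ^ (E1 - E0)) * Real.log NC := by
  obtain ⟨hL, hA, h1, -, h4, -, -, -, -⟩ := ae1_f_aux_num T A τ τ1 E0 E1 ε hN
  have e1 : (T.P.cnd A).entC (T.O 1) T.Cs = (T.P.cnd A).ent (T.O 1) - (T.P.cnd A).ent T.Cs := by
    unfold FLaw.entC
    rw [ent_pair_of_ker _ _ _ fun ω ω' _ _ h => hR.ofO ω ω' h]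
  obtain ⟨S, hScard, hS⟩ := hR.cntO
  have hSmem : ∀ ω, (T.P.cnd A).p ω ≠ 0 → T.O 1 ω ∈ S := fun ω hω => hS ω ((ent_cnd_supp T.P A hA).1 hω).2
  have hScard0 : 0 < S.card := by
    obtain ⟨ω, hω⟩ := ent_exists_supp (T.P.cnd A)
    exact Finset.card_pos.2 ⟨_, hSmem ω hω⟩
  have h2 : (T.P.cnd A).ent (T.O 1) ≤ Real.log NO :=
    (ent_le_log_card _ _ S hSmem).trans (Real.log_le_log (by exact_mod_cast hScard0) hScard)
  have hk := ae1_k_list T.P A hA T.Cs (fun _ => ()) NC (T.δ ^ E1) hNC (fun c hc =>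
    (ent_pr_mono T.P fun ω _ h => h.2).trans (hR.cntC (c ()) (hc ())))
  have h3 : Real.log NC * (1 - T.δ ^ (E1 - E0)) ≤ (T.P.cnd A).ent T.Cs := by
    rcases le_total 0 (Real.log NC) with h0 | h0
    · have h3 := ltk_ent_ge (T.P.cnd A) T.Cs (fun _ => ()) h0 (hk.trans h1)
      rwa [ent_entC_const] at h3
    · have h5 : 0 ≤ 1 - T.δ ^ (E1 - E0) := by linarith [hN.ε1]
      exact le_trans (mul_nonpos_of_nonpos_of_nonneg h0 h5) (ent_nonneg _ _)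
  rw [e1]
  linarith

/-- the clauses of the line test on the restricted law -/
theorem ae1_f_prb (hN : T.LtNum A τ τ1 E0 E1 ε) (hR : T.LtRob Z G d g τ1 E1 Q M NO NC) (hAG : ∀ ω, A ω → G ω) (hG : T.LtGeo Z a K acc) (hacc : acc ≤ 1)
    (hrd : T.P.NVal (fun _ => True) (T.ltS R) (pair (T.O 40) T.Cs) (T.δ ^ (-τ1))) : T.LtPrb A Z d g τ R Q M where
  time := ae1_f_time T A Z G d g τ τ1 E0 E1 ε Q M NO NC hN hR hAG
  stat := ae1_f_stat T A Z G a K acc d g τ τ1 E0 E1 ε R Q M NO NC hN hR hG hacc hrd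
  prof := by
    intro z hz
    have h1 := ae1_f_prof T A Z G d g τ τ1 E0 E1 ε Q M NO NC hN hR z (Finset.mem_insert_of_mem hz)
    have hL : 0 < T.L := by
      have := hN.L1
      have h2 := hN.hτ1
      by_contra hcon
      have : τ1 * T.L ≤ 0 := mul_nonpos_of_nonneg_of_nonpos h2.le (not_lt.1 hcon)
      linarith
    have hε0 : 0 ≤ ε := by
      refine le_trans ?_ h1
      exact ent_pr_nonneg _ _
    have hle : 3 * τ1 * T.L ≤ τ * T.L := by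
      have := hN.hτ
      have h2 := hN.hτ1
      exact mul_le_mul_of_nonneg_right (by linarith) hL.le
    refine le_trans (ent_pr_mono _ (fun ω _ h => lt_of_le_of_lt hle h)) (h1.trans ?_)
    have := hN.hτ
    have h2 := hN.hτ1
    linarith
  mem := hR.mem

end fin

/-- the conclusion of the finite law core, for fixed constants of the line test -/
def Ae1Fin (d g η χ : ℝ) (Q : Finset ℝ) (τ δ₀ : ℝ) : Prop :=
  ∀ (T : Tan) (ζ' : Type) (A G : T.Ω → Prop) (Z : T.Ω → ζ') (be ka : ζ' → ℝ) (a : ItPar) (K acc R τ1 E0 E1 ε NO NC Hup : ℝ) (M : ℝ → ℝ),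
    T.δ < δ₀ → 1000 * acc ≤ τ1 → 10 ≤ R → R + 1 ≤ 40 →
    T.LtGeo Z a K acc → T.LtDsp a K acc 1 → T.LtDsp a K acc 40 → T.LtLine A Z be ka τ → (∀ ω, A ω → G ω) →
    T.LtNum A τ τ1 E0 E1 ε → T.LtRob Z G d g τ1 E1 Q M NO NC → 0 < NC →
    Real.log NO - Real.log NC ≤ (Hup + τ1) * T.L → T.δ ^ (E1 - E0) * Real.log NC ≤ τ1 * T.L →
    Hup + 3 * τ1 ≤ 2 * d + g + 2 * min 1 (2 * d) + min 1 (d + g) - η →
    ∃ I : T.γ × LttS → ℝ, τ < (T.P.cnd A).pr (fun ω => |I (T.Cs ω, T.ltS R ω) - ka (Z ω)| < T.δ ^ χ)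

theorem ae1_fin_eqns_cite : True := by
  have := @Ae1Fin.eq_1
  trivial

/-- **THE FINITE LAW CORE OF E1.**   Constants `χ, Q, τ, δ₀` of the line test for `(d, g, η)`.   If the robust clauses hold with `log NO - log NC ≤ (Hup + τ1) L`, `Hup + 3 τ1 ≤` the bound of the line test, the slope of every line carrying the mass `δ^E0`
is predicted by `(C, S)` on a fraction `> τ` of the line event. -/
theorem ae1_fin (d g η : ℝ) (hd : 0 < d) (hd1 : d ≤ 1) (hg : 0 < g) (hg1 : g ≤ 1) (hη : 0 < η) :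
    ∃ χ : ℝ, 0 < χ ∧ χ ≤ 1 ∧ ∃ Q : Finset ℝ, (∀ q ∈ Q, 0 ≤ q ∧ q ≤ 3) ∧ ∃ τ : ℝ, 0 < τ ∧ τ ≤ 1 ∧ ∃ δ₀ : ℝ, 0 < δ₀ ∧ Ae1Fin d g η χ Q τ δ₀ := by
  obtain ⟨χ, hχ, hχ1, Q, hQ, τ, hτ, hτ1, δ₀, hδ₀, H⟩ := ltt_main d g η hd hd1 hg hg1 hη
  refine ⟨χ, hχ, hχ1, Q, hQ, τ, hτ, hτ1, δ₀, hδ₀, ?_⟩
  intro T ζ' A G Z be ka a K acc R τ1 E0 E1 ε NO NC Hup M hδ hacc hR hR40 hG hD1 hD40 hL hAG hN hRob hNC hcnt hεN hup
  have hτ1pos := hN.hτ1
  have hL1 := hN.L1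
  have hLpos : 0 < T.L := by
    by_contra hcon
    have : τ1 * T.L ≤ 0 := mul_nonpos_of_nonneg_of_nonpos hτ1pos.le (not_lt.1 hcon)
    linarith
  have hε0 : 0 ≤ ε := by
    have h1 := ae1_f_prof T A Z G d g τ τ1 E0 E1 ε Q M NO NC hN hRob 6 (Finset.mem_insert_self _ _)
    exact le_trans (ent_pr_nonneg _ _) h1
  have hττ1 : τ1 ≤ τ := by
    have := hN.hτ
    linarith
  have hacc0 := hG.acc0
  have hacc1 : acc ≤ 1 := by linarith
  have hrd : T.P.NVal (fun _ => True) (T.ltS R) (pair (T.O 40) T.Cs) (T.δ ^ (-τ1)) :=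
    ltt_read T Z a K acc τ1 R 40 hG hD40 hacc (by linarith) (by linarith) hR40
  have hP := ae1_f_prb T A Z G a K acc d g τ τ1 E0 E1 ε R Q M NO NC hN hRob hAG hG hacc1 hrd
  refine H T ζ' A Z be ka a K acc R M hδ (by linarith) hR hG hD1 hL hP ?_
  have h1 := ae1_f_up T A Z G d g τ τ1 E0 E1 ε Q M NO NC hN hRob hNC
  have h2 : Real.log NO - (1 - T.δ ^ (E1 - E0)) * Real.log NC ≤ (Hup + 2 * τ1) * T.L := by nlinarith
  have h3 : (Hup + 2 * τ1) * T.L < (2 * d + g + 2 * min 1 (2 * d) + min 1 (d + g) - η) * T.L :=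
    mul_lt_mul_of_pos_right (by linarith) hLpos
  linarith

end Claimed.Agent.R256
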