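import Claimed.Agent.R256.Act.E1.Prof

/-!
# Row 256, section Act, E1 = Lemma act:stationary-boundary (06 l.314-430), file 6: EXIT      (architect helper279; prefix `ae1_`)

**`ae1_main`** : in the classical equality configuration `q = c_2 = 1`, `J = 0`, on a strong interval (`b_1 + σ ≤ p_*`), at almost every time `a`, for every static depth `b_1(a) < xs`:  for all small `z`, all time roots `a'` within `ηm z` of `a` with `xs < p_*(a')`,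
for `uf`-most `n`:  EVERY affine trajectory `t ↦ v(Z) + sl(Z) t` predicted by the exact side `Z = (y_0, [P]_xs, t_a', R_a')`, of slope `≤ s^(b_2 a' - a' - χ' z)`, is met by `β_1(T_1)` within `s^(b_2 a' + z)` with probability `≤ s^(e0 z)`.
`e0, χ'` depend only on the family, on `c0` and on the rigidity function `κ`.      = the port `hG` of `lay_avoid_core` (Lay/Contract.lean, helper189), graph form of `LaySep`.
ORDER OF CONSTANTS (`Ae1Cst`, `ae1_cst`):  `g = 1 - d + 2Γ`, `ηL = (4Γ+η)/4` → `χ, Q, τ, δ₀` (`ae1_fin`) → `τc = χ/480`, `κ0 = κ τc` → `τ1, ε = τ/100` → `eG` → `E1` → `E0` → `e0 = E0/800`, `χ' = τ/800`, `acc`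
 → `a` (a.e.: `ae1_ng`), `xs` → patch `[a - r, a + r]`, `K0, e` (`ae1_p_rep`), `B, h0` (`ae1_p_geo`), `ρ` (`ae1_mem`) → `z0, ηm` → `z = 400 h`, `a'` → `t` (`ae1_pick_t`) → `s0` (`ae1_num`) → `n`.
`ae1_at` (one root, one gap; PROVED from the leaves), `ae1_main` (PROVED from `ae1_at`).
-/

set_option autoImplicit false

namespace Claimed.Agent.R256

open Claimed.Agent.R255
open Claimed.Agent.R255.FLaw (pair)
open Filter Topology MeasureTheory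
open Classical

noncomputable section

/-- the constants of E1 -/
structure Ae1Cst (π : SfPar) (c0 κ0 χ τ δ₀ τ1 ε E0 E1 e0 χ' eG acc ηL : ℝ) (Q : Finset ℝ) : Prop where
  hχ : 0 < χ ∧ χ ≤ 1
  hQ : ∀ q ∈ Q, 0 ≤ q ∧ q ≤ 3
  hτ : 0 < τ ∧ τ ≤ 1
  hδ₀ : 0 < δ₀
  fin : Ae1Fin π.d (1 - π.d + 2 * π.Γ) ηL χ Q τ δ₀
  hκ0 : 0 < κ0
  hc0 : 0 < c0
  hτ1 : 0 < τ1 ∧ τ1 ≤ 1
  hε : 0 < ε ∧ ε ≤ 1
  hτε : 40 * τ1 + 40 * ε ≤ τ
  hup : (2 + 3 * π.d - 2 * π.Γ - π.η) + 3 * τ1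
    ≤ 2 * π.d + (1 - π.d + 2 * π.Γ) + 2 * min 1 (2 * π.d) + min 1 (π.d + (1 - π.d + 2 * π.Γ)) - ηL
  heG : 0 < eG ∧ eG ≤ τ1 / 40 ∧ eG ≤ κ0
  hE1 : 0 < E1 ∧ E1 ≤ min c0 1 * τ1 / 16 ∧ E1 ≤ c0 * eG
  hE0 : 0 < E0 ∧ 2 * E0 ≤ E1 ∧ 8 * E0 ≤ ε * τ1 ∧ E0 ≤ κ0
  he0 : e0 = E0 / 800
  hχ' : χ' = τ / 800
  hacc : 0 < acc ∧ 1000 * acc ≤ τ1 ∧ 1000 * acc ≤ κ0 ∧ 1000 * acc ≤ 1

/-- LEAF L-256-E1-NUM.   **existence of the constants** (`ae1_fin` with `ηL = (4Γ+η)/4`, `ae1_num_lt`;  `τ1 = min (τ/100) (min ((4Γ+η)/4) 1)`, `ε = τ/100`, `eG = min (τ1/40) κ0`, `E1 = min (min c0 1 τ1/16) (c0 eG)`,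
`E0 = min (E1/2) (min (ε τ1/8) κ0)`, `acc = min τ1 (min κ0 1)/1000`). -/
theorem ae1_cst {π : SfPar} (hπ : π.E1) (hg1 : 1 - π.d + 2 * π.Γ ≤ 1) (c0 : ℝ) (hc0 : 0 < c0) (κ : ℝ → ℝ) (hκ : ∀ τ, 0 < τ → 0 < κ τ) :
    ∃ (χ τ δ₀ τ1 ε E0 E1 e0 χ' eG acc ηL : ℝ) (Q : Finset ℝ), Ae1Cst π c0 (κ (χ / 480)) χ τ δ₀ τ1 ε E0 E1 e0 χ' eG acc ηL Q := by
  have hv := hπ.val
  have hη := hv.eta.1
  have hΓ := hv.gam
  have hd := hv.d1
  have hηL : 0 < (4 * π.Γ + π.η) / 4 := by linarith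
  obtain ⟨χ, hχ, hχ1, Q, hQ, τ, hτ, hτ1, δ₀, hδ₀, H⟩ := ae1_fin π.d (1 - π.d + 2 * π.Γ) ((4 * π.Γ + π.η) / 4) hd.1 hd.2 (by linarith) hg1 hηL
  have hκ0 : 0 < κ (χ / 480) := hκ _ (by linarith)
  obtain ⟨κ0, hκ0e⟩ : ∃ κ0 : ℝ, κ0 = κ (χ / 480) := ⟨_, rfl⟩
  rw [← hκ0e] at hκ0
  obtain ⟨τ1, hτ1e⟩ : ∃ τ1 : ℝ, τ1 = min (τ / 100) (min ((4 * π.Γ + π.η) / 4) 1) := ⟨_, rfl⟩
  have a1 : 0 < τ1 := hτ1e ▸ lt_min (by linarith) (lt_min hηL one_pos)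
  have a2 : τ1 ≤ τ / 100 := hτ1e ▸ min_le_left _ _
  have a3 : τ1 ≤ (4 * π.Γ + π.η) / 4 := hτ1e ▸ (min_le_right _ _).trans (min_le_left _ _)
  have a4 : τ1 ≤ 1 := hτ1e ▸ (min_le_right _ _).trans (min_le_right _ _)
  obtain ⟨eG, heGe⟩ : ∃ eG : ℝ, eG = min (τ1 / 40) κ0 := ⟨_, rfl⟩
  have b1 : 0 < eG := heGe ▸ lt_min (by linarith) hκ0
  have b2 : eG ≤ τ1 / 40 := heGe ▸ min_le_left _ _
  have b3 : eG ≤ κ0 := heGe ▸ min_le_right _ _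
  have hm : 0 < min c0 1 := lt_min hc0 one_pos
  obtain ⟨E1, hE1e⟩ : ∃ E1 : ℝ, E1 = min (min c0 1 * τ1 / 16) (c0 * eG) := ⟨_, rfl⟩
  have c1 : 0 < E1 := hE1e ▸ lt_min (by positivity) (by positivity)
  have c2 : E1 ≤ min c0 1 * τ1 / 16 := hE1e ▸ min_le_left _ _
  have c3 : E1 ≤ c0 * eG := hE1e ▸ min_le_right _ _
  obtain ⟨E0, hE0e⟩ : ∃ E0 : ℝ, E0 = min (E1 / 2) (min (τ / 100 * τ1 / 8) κ0) := ⟨_, rfl⟩
  have d1 : 0 < E0 := hE0e ▸ lt_min (by linarith) (lt_min (by positivity) hκ0)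
  have d2 : E0 ≤ E1 / 2 := hE0e ▸ min_le_left _ _
  have d3 : E0 ≤ τ / 100 * τ1 / 8 := hE0e ▸ (min_le_right _ _).trans (min_le_left _ _)
  have d4 : E0 ≤ κ0 := hE0e ▸ (min_le_right _ _).trans (min_le_right _ _)
  obtain ⟨ac, hace⟩ : ∃ ac : ℝ, ac = min τ1 (min κ0 1) := ⟨_, rfl⟩
  have e1 : 0 < ac := hace ▸ lt_min a1 (lt_min hκ0 one_pos)
  have e2 : ac ≤ τ1 := hace ▸ min_le_left _ _
  have e3 : ac ≤ κ0 := hace ▸ (min_le_right _ _).trans (min_le_left _ _)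
  have e4 : ac ≤ 1 := hace ▸ (min_le_right _ _).trans (min_le_right _ _)
  have hnl := ae1_num_lt hv
  refine ⟨χ, τ, δ₀, τ1, τ / 100, E0, E1, E0 / 800, τ / 800, eG, ac / 1000, (4 * π.Γ + π.η) / 4, Q, ?_⟩
  rw [← hκ0e]
  exact
    { hχ := ⟨hχ, hχ1⟩
      hQ := hQ
      hτ := ⟨hτ, hτ1⟩
      hδ₀ := hδ₀
      fin := H
      hκ0 := hκ0
      hc0 := hc0
      hτ1 := ⟨a1, a4⟩
      hε := ⟨by linarith, by linarith⟩
      hτε := by linarith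
      hup := by linarith
      heG := ⟨b1, b2, b3⟩
      hE1 := ⟨c1, c2, c3⟩
      hE0 := ⟨d1, by linarith, by linarith, d4⟩
      he0 := rfl
      hχ' := rfl
      hacc := ⟨by linarith, by linarith, by linarith, by linarith⟩ }

/-- LEAF L-256-E1-NUM.   **the working tolerance** (a minimum of finitely many positive numbers; `gap` from `sf_gap_exists`) -/
theorem ae1_pick_t (C0 κ0 χ τ1 h m : ℝ) (Q : Finset ℝ) (hκ0 : 0 < κ0) (hχ : 0 < χ) (hτ1 : 0 < τ1) (hh : 0 < h) (hm : 0 < m) :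
    ∃ t gap : ℝ, 0 < t ∧ t ≤ 1 / (|C0| + 4) ∧ t < m ∧ 2 * t ≤ h ∧ 16 * t ≤ χ * h ∧ 36 * t ≤ 59 * κ0 * h ∧ 61 * κ0 * h ≤ 1 / t ∧
      400 * t ≤ τ1 * h ∧ τ1 * h ≤ 1 / t ∧ 2 * t < gap * h ∧ ∀ p ∈ Q, ∀ v ∈ Q, p < v → gap ≤ v - p := by
  obtain ⟨gap, hg0, hgap⟩ := sf_gap_exists Q
  have hC : 0 < |C0| + 4 := by positivity
  obtain ⟨t, ht⟩ : ∃ t : ℝ, t = min (1 / (|C0| + 4)) (min (m / 2) (min (h / 2) (min (χ * h / 16) (min (59 * κ0 * h / 36)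
      (min (1 / (61 * κ0 * h)) (min (τ1 * h / 400) (min (1 / (τ1 * h)) (gap * h / 4)))))))) := ⟨_, rfl⟩
  have t0 : 0 < t := by
    rw [ht]
    refine lt_min (by positivity) (lt_min (by positivity) (lt_min (by positivity) (lt_min (by positivity) (lt_min (by positivity)
      (lt_min (by positivity) (lt_min (by positivity) (lt_min (by positivity) (by positivity))))))))
  have r := fun (x y : ℝ) => min_le_right x y
  have l := fun (x y : ℝ) => min_le_left x y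
  have k1 : t ≤ 1 / (|C0| + 4) := ht ▸ l _ _
  have k2 : t ≤ m / 2 := ht ▸ (r _ _).trans (l _ _)
  have k3 : t ≤ h / 2 := ht ▸ (r _ _).trans ((r _ _).trans (l _ _))
  have k4 : t ≤ χ * h / 16 := ht ▸ (r _ _).trans ((r _ _).trans ((r _ _).trans (l _ _)))
  have k5 : t ≤ 59 * κ0 * h / 36 := ht ▸ (r _ _).trans ((r _ _).trans ((r _ _).trans ((r _ _).trans (l _ _))))
  have k6 : t ≤ 1 / (61 * κ0 * h) := ht ▸ (r _ _).trans ((r _ _).trans ((r _ _).trans ((r _ _).trans ((r _ _).trans (l _ _)))))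
  have k7 : t ≤ τ1 * h / 400 := ht ▸ (r _ _).trans ((r _ _).trans ((r _ _).trans ((r _ _).trans ((r _ _).trans ((r _ _).trans (l _ _))))))
  have k8 : t ≤ 1 / (τ1 * h) := ht ▸ (r _ _).trans ((r _ _).trans ((r _ _).trans ((r _ _).trans ((r _ _).trans ((r _ _).trans ((r _ _).trans (l _ _)))))))
  have k9 : t ≤ gap * h / 4 := ht ▸ (r _ _).trans ((r _ _).trans ((r _ _).trans ((r _ _).trans ((r _ _).trans ((r _ _).trans ((r _ _).trans (r _ _)))))))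
  have hgh : 0 < gap * h := by positivity
  refine ⟨t, gap, t0, k1, by linarith, by linarith, by linarith, by linarith, ?_, by linarith, ?_, by linarith, hgap⟩
  · rw [le_div_iff₀ t0]
    rw [le_div_iff₀ (by positivity)] at k6
    linarith
  · rw [le_div_iff₀ t0]
    rw [le_div_iff₀ (by positivity)] at k8
    linarith

/-- small powers -/
theorem ae1_nm_pow (p c : ℝ) (hp : 0 < p) (hc : 0 < c) : ∃ d0 : ℝ, 0 < d0 ∧ ∀ δ : ℝ, 0 < δ → δ < d0 → δ ^ p ≤ c := by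
  refine ⟨c ^ (1 / p), Real.rpow_pos_of_pos hc _, fun δ h0 h1 => ?_⟩
  have := Real.rpow_le_rpow h0.le h1.le hp.le
  rwa [← Real.rpow_mul hc.le, one_div_mul_cancel hp.ne', Real.rpow_one] at this

/-- large negative powers -/
theorem ae1_nm_npow (p C : ℝ) (hp : 0 < p) : ∃ d0 : ℝ, 0 < d0 ∧ ∀ δ : ℝ, 0 < δ → δ < d0 → C ≤ δ ^ (-p) := by
  obtain ⟨d0, h0, H⟩ := ae1_nm_pow p (1 / (|C| + 1)) hp (by positivity)
  refine ⟨d0, h0, fun δ hδ0 hδ => ?_⟩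
  have h1 := H δ hδ0 hδ
  have hpos := Real.rpow_pos_of_pos hδ0 p
  rw [Real.rpow_neg hδ0.le]
  have h2 : |C| + 1 ≤ (δ ^ p)⁻¹ := by
    rw [le_inv_comm₀ (by positivity) hpos]
    rwa [one_div] at h1
  linarith [le_abs_self C]

/-- large logarithm -/
theorem ae1_nm_lg (M : ℝ) : ∃ d0 : ℝ, 0 < d0 ∧ ∀ δ : ℝ, 0 < δ → δ < d0 → M ≤ lg δ := by
  refine ⟨Real.exp (-M), Real.exp_pos _, fun δ h0 h1 => ?_⟩
  unfold lg
  rw [one_div, Real.log_inv]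
  have := Real.log_le_log h0 h1.le
  rw [Real.log_exp] at this
  linarith

/-- LEAF L-256-E1-NUM.   **the scale threshold** (paper free real analysis, `δ = s^h → 0`, `L = h log(1/s) → ∞`):
`hε`: the left side tends to `2 E0/τ1 ≤ ε/4`;  `n1`: `s^(e0 400 h) = δ^(E0/2)`, `2 δ^E0 ≤ δ^(E0/2)`;  `n2`: `δ^(29 κ0 - E0) ≤ τ`. -/
theorem ae1_num {π : SfPar} {c0 κ0 χ τ δ₀ τ1 ε E0 E1 e0 χ' eG acc ηL : ℝ} {Q : Finset ℝ}
    (hC : Ae1Cst π c0 κ0 χ τ δ₀ τ1 ε E0 E1 e0 χ' eG acc ηL Q) (h t B K0 : ℝ) (hh : 0 < h) (ht : 0 < t) (t2 : 2 * t ≤ h) (tχ : 16 * t ≤ χ * h)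
    (tκ : 36 * t ≤ 59 * κ0 * h) (tκ' : 61 * κ0 * h ≤ 1 / t) :
    ∃ s0 : ℝ, 0 < s0 ∧ ∀ s : ℝ, 0 < s → s < s0 → Ae1Num s h t χ τ τ1 ε E0 E1 e0 κ0 δ₀ (s ^ (-(50 * κ0 * h))) ∧
      B + 1 ≤ (s ^ h) ^ (-acc) ∧ (10 : ℝ) ^ 6 ≤ (s ^ h) ^ (-acc) ∧ nmK0 * K0 ≤ s ^ (-(κ0 * h)) := by
  obtain ⟨hτ0, hτ1'⟩ := hC.hτ
  obtain ⟨hτ10, hτ11⟩ := hC.hτ1
  obtain ⟨hε0, hε1⟩ := hC.hε
  obtain ⟨hE00, hE01, hE02, hE03⟩ := hC.hE0
  have hκ0 := hC.hκ0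
  have hacc0 := hC.hacc.1
  obtain ⟨d2, p2, H2⟩ := ae1_nm_npow (τ / 2) 3 (by linarith)
  obtain ⟨d3, p3, H3⟩ := ae1_nm_lg (1 / τ1 + 8 / (τ1 * ε))
  obtain ⟨d4, p4, H4⟩ := ae1_nm_pow (E1 - E0) (ε / 4) (by linarith) (by linarith)
  obtain ⟨d5, p5, H5⟩ := ae1_nm_pow (E0 / 2) (1 / 2) (by linarith) (by norm_num)
  obtain ⟨d6, p6, H6⟩ := ae1_nm_pow (28 * κ0) τ (by linarith) hτ0
  obtain ⟨d7, p7, H7⟩ := ae1_nm_npow acc (B + 1) hacc0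
  obtain ⟨d8, p8, H8⟩ := ae1_nm_npow acc ((10 : ℝ) ^ 6) hacc0
  obtain ⟨d9, p9, H9⟩ := ae1_nm_npow κ0 (nmK0 * K0) hκ0
  obtain ⟨d0, hd0⟩ : ∃ d0 : ℝ, d0 = min δ₀ (min d2 (min d3 (min d4 (min d5 (min d6 (min d7 (min d8 d9))))))) := ⟨_, rfl⟩
  have d00 : 0 < d0 := by
    rw [hd0]
    exact lt_min hC.hδ₀ (lt_min p2 (lt_min p3 (lt_min p4 (lt_min p5 (lt_min p6 (lt_min p7 (lt_min p8 p9)))))))
  refine ⟨min 1 (d0 ^ (1 / h)), lt_min one_pos (Real.rpow_pos_of_pos d00 _), fun s hs0 hs => ?_⟩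
  have hs1 : s < 1 := hs.trans_le (min_le_left _ _)
  have hsd : s < d0 ^ (1 / h) := hs.trans_le (min_le_right _ _)
  obtain ⟨δ, hδ⟩ : ∃ δ : ℝ, δ = s ^ h := ⟨_, rfl⟩
  have δ0 : 0 < δ := hδ ▸ Real.rpow_pos_of_pos hs0 _
  have δ1 : δ < 1 := hδ ▸ Real.rpow_lt_one hs0.le hs1 hh
  have δd : δ < d0 := by
    have := Real.rpow_lt_rpow hs0.le hsd hh
    rwa [← Real.rpow_mul d00.le, one_div_mul_cancel hh.ne', Real.rpow_one, ← hδ] at this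
  rw [hd0] at δd
  simp only [lt_min_iff] at δd
  obtain ⟨q1, q2, q3, q4, q5, q6, q7, q8, q9⟩ := δd
  have sp : ∀ x : ℝ, s ^ (x * h) = δ ^ x := fun x => by rw [hδ, ← Real.rpow_mul hs0.le, mul_comm]
  have anti : ∀ {x y : ℝ}, x ≤ y → δ ^ y ≤ δ ^ x := fun hxy => Real.rpow_le_rpow_of_exponent_ge δ0 δ1.le hxy
  have ppos : ∀ x : ℝ, 0 < δ ^ x := fun x => Real.rpow_pos_of_pos δ0 x
  have hL := H3 δ δ0 q3
  obtain ⟨L, hLe⟩ : ∃ L : ℝ, L = lg δ := ⟨_, rfl⟩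
  rw [← hLe] at hL
  have i1 : 0 < 1 / τ1 := by positivity
  have i2 : 0 < 8 / (τ1 * ε) := by positivity
  have L0 : 0 < L := by linarith
  have L1 : 1 ≤ τ1 * L := by
    have : 1 / τ1 ≤ L := by linarith
    rw [div_le_iff₀ hτ10] at this
    linarith
  have L2 : 2 / (τ1 * L) ≤ ε / 4 := by
    have : 8 / (τ1 * ε) ≤ L := by linarith
    rw [div_le_iff₀ (by positivity)] at this
    rw [div_le_iff₀ (by positivity)]
    nlinarith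
  have L3 : Real.exp (-(τ1 * L)) ≤ 1 / (τ1 * L) := by
    rw [Real.exp_neg, one_div]
    exact inv_anti₀ (by positivity) (by linarith [Real.add_one_le_exp (τ1 * L)])
  rw [← hδ]
  refine ⟨?_, H7 δ δ0 q7, H8 δ δ0 q8, ?_⟩
  · exact
      { s0 := hs0
        s1 := hs1
        h0 := hh
        dl := hδ ▸ q1
        h3 := hδ ▸ H2 δ δ0 q2
        hE0 := hE00
        hτ1 := hτ10
        L1 := by rw [← hδ, ← hLe]; exact L1
        hε := by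
          rw [← hδ, ← hLe]
          have j1 := H4 δ δ0 q4
          have j2 : (E0 * L + 1) / (τ1 * L) = E0 / τ1 + 1 / (τ1 * L) := by
            field_simp
          have j3 : E0 / τ1 ≤ ε / 8 := by
            rw [div_le_iff₀ hτ10]
            linarith
          have j4 : 2 / (τ1 * L) = 2 * (1 / (τ1 * L)) := by ring
          rw [j2]
          linarith
        ε1 := hε1
        hτ := hC.hτε
        n1 := by
          rw [← hδ]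
          have e : e0 * (400 * h) = E0 / 2 * h := by rw [hC.he0]; ring
          rw [e, sp]
          have j1 := H5 δ δ0 q5
          have j2 : δ ^ E1 ≤ δ ^ E0 := anti (by linarith)
          have j3 : δ ^ E0 = δ ^ (E0 / 2) * δ ^ (E0 / 2) := by
            rw [← Real.rpow_add δ0]
            ring_nf
          have j4 := ppos (E0 / 2)
          nlinarith
        n2 := by
          rw [← hδ]
          have e : 29 * κ0 * h = (29 * κ0) * h := by ring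
          rw [e, sp]
          have j1 := H6 δ δ0 q6
          have j2 : δ ^ (29 * κ0) = δ ^ (29 * κ0 - E0) * δ ^ E0 := by
            rw [← Real.rpow_add δ0]
            ring_nf
          rw [j2]
          exact mul_le_mul_of_nonneg_right ((anti (by linarith)).trans j1) (ppos _).le
        hκ0 := hκ0
        t2 := t2
        tχ := tχ
        tκ := tκ
        tκ' := tκ'
        N1 := Real.one_le_rpow_of_pos_of_le_one_of_nonpos hs0 hs1.le (by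
          have : 0 < 50 * κ0 * h := by positivity
          linarith)
        hN := le_rfl }
  · have e : -(κ0 * h) = (-κ0) * h := by ring
    rw [e, sp]
    exact H9 δ δ0 q9

/-- the causal time lists at all depths of the package (glue of `ae1_time`, `ae1_side_row`) -/
theorem ae1_rob_time {π : SfPar} (hπ : π.E1) (C0 τ κ0 t : ℝ) (D : SfDoc) (hD : D.Wk π C0 τ κ0 t) (xs a h B τ1 e gap : ℝ) (Q : Finset ℝ)
    (hQ : ∀ q ∈ Q, 0 ≤ q ∧ q ≤ 3) (hh : 0 < h) (hB : 1 ≤ B) (hgap : ∀ p ∈ Q, ∀ v ∈ Q, p < v → gap ≤ v - p) (ht1 : 400 * t ≤ τ1 * h)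
    (ht2 : 2 * t < gap * h) (ht3 : τ1 * h ≤ 1 / t) (hτ1 : 0 < τ1 ∧ τ1 ≤ 1) (he : 0 < e ∧ e ≤ τ1 * h / 40) (ha : 0 ≤ a ∧ a + 3 * h + t < 1)
    (hP : (D.P 1).NVal (D.ae1G π xs a e) (D.Pc π (nmDsEq π) xs) (pair D.y0 (D.tc a)) (D.s ^ (-e))) (dsp : ℝ → NmNm → NmNm → ItDsp) :
    ∀ p ∈ Q, ∀ v ∈ Q, p < v → ∀ c : NmZv D.Idx × ℤ → Finset ℤ, (∀ x, ((c x).card : ℝ) ≤ (D.s ^ h) ^ (-(π.d * (v - p) - τ1))) →
      (D.P 1).pr (fun ω => D.ae1G π xs a e ω ∧ (nmTan D π (ae1Rt π xs a h B) dsp).thn 0 v ω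
        ∈ c (D.ae1Z π xs a ω, (nmTan D π (ae1Rt π xs a h B) dsp).thn 0 p ω)) ≤ (D.s ^ h) ^ (τ1 / 2) := by
  intro p hp v hv hpv c hc
  have hs := hD.ok.core.hs
  have ht := hD.tpos
  obtain ⟨hp0, hp3⟩ := hQ p hp
  obtain ⟨hv0, hv3⟩ := hQ v hv
  have hph : 0 ≤ p * h := mul_nonneg hp0 hh.le
  have hvh : v * h ≤ 3 * h := mul_le_mul_of_nonneg_right hv3 hh.le
  have hpvh : p * h ≤ v * h := mul_le_mul_of_nonneg_right hpv.le hh.le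
  obtain ⟨hiG, hia⟩ := hD.near (a + p * h) (by linarith [ha.1]) (by linarith [ha.2])
  obtain ⟨hjG, hja⟩ := hD.near (a + v * h) (by linarith [ha.1]) (by linarith [ha.2])
  obtain ⟨hia1, hia2⟩ := abs_le.1 hia
  obtain ⟨hja1, hja2⟩ := abs_le.1 hja
  have hNP : (1 : ℝ) ≤ D.s ^ (-e) := Real.one_le_rpow_of_pos_of_le_one_of_nonpos hs.1 hs.2.le (by linarith [he.1])
  have hrow := ae1_side_row hπ C0 τ κ0 t D hD xs a (D.gt (a + p * h)) (D.s ^ (-e)) hiG (by linarith) (by linarith [ha.2])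
    (D.ae1G π xs a e) hNP hP
  have hrow' : D.RowPr (D.gt (a + p * h)) (D.ae1G π xs a e) (D.ae1Z π xs a) (D.s ^ (-e) * D.s ^ (-(10 * t))) :=
    (ae1_pr_mono D _ _ (D.ae1G π xs a e) (D.ae1Z π xs a) _ _ (fun ω hω => ⟨hω.1, hω⟩) le_rfl).1 hrow
  have h10t : (1 : ℝ) ≤ D.s ^ (-(10 * t)) := Real.one_le_rpow_of_pos_of_le_one_of_nonpos hs.1 hs.2.le (by linarith)
  have hNZ : 1 ≤ D.s ^ (-e) * D.s ^ (-(10 * t)) ∧ D.s ^ (-e) * D.s ^ (-(10 * t)) ≤ D.s ^ (-(τ1 * h / 20)) := by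
    refine ⟨one_le_mul_of_one_le_of_one_le hNP h10t, ?_⟩
    rw [← Real.rpow_add hs.1]
    exact lay_rpow_anti hs.1 hs.2 (by linarith [he.2])
  have hg : gap * h ≤ (v - p) * h := mul_le_mul_of_nonneg_right (hgap p hp v hv hpv) hh.le
  exact ae1_time hπ C0 τ κ0 t D hD xs a h B p v τ1 _ (D.gt (a + p * h)) (D.gt (a + v * h)) hh hB hp0 hpv hv3 hiG hjG hia hja
    (by linarith [ha.2]) hτ1 (by linarith) (by linarith) ht3 (D.ae1G π xs a e) hrow' hNZ dsp c hc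

/-- **ONE ROOT, ONE GAP.** -/
theorem ae1_at {π : SfPar} {C0 : ℝ} {κ : ℝ → ℝ} (S : NmSeq π C0 κ) (hπ : π.E1) (hX : S.HasX) (Ds : Set ℝ) (h1 : (1 : ℝ) ∈ Ds)
    {c0 χ τ δ₀ τ1 ε E0 E1 e0 χ' eG acc ηL : ℝ} {Q : Finset ℝ} (hFP : S.FlatP c0 Ds)
    (hC : Ae1Cst π c0 (κ (χ / 480)) χ τ δ₀ τ1 ε E0 E1 e0 χ' eG acc ηL Q)
    (xs a h B K0 e : ℝ) (hB : 1 ≤ B) (hK0 : 1 ≤ K0) (ha : 0 < a) (hh : 0 < h) (ha1 : a + 61 * h < 1) (h6 : 6 * h < e)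
    (hxs : xs < S.pst (nmDsEq π) a)
    (hgeo : ∀ acc' : ℝ, 0 < acc' → ∀ᶠ n in uf, ∃ dsp : ℝ → NmNm → NmNm → ItDsp,
      NmGeo (nmTan (S.D n) π (ae1Rt π xs a h B) dsp) (ae1Par π B) (ae1Pk Q) acc')
    (hrep : ∀ᶠ n in uf, NmRep (S.D n) π (ae1Rt π xs a h B) K0 e)
    (hmem : ∀ z ∈ Q, (1 - π.d + 2 * π.Γ) * z ≤ S.U (ae1Q π) (z * h) a 0 / h)
    (hng : S.U (ae1Q π) (6 * h) a 0 - S.U (ae1Q π) (6 * h) (a + 40 * h) 0 ≤ τ1 * h / 4) :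
    ∀ᶠ n in uf, ∀ v sl : NmZv (S.D n).Idx → ℝ, (∀ x, |sl x| ≤ (S.D n).s ^ (π.b2 a - a - χ' * (400 * h))) →
      ((S.D n).P 1).pr ((S.D n).ae1Ev π xs a (400 * h) v sl) ≤ (S.D n).s ^ (e0 * (400 * h)) := by
  have hκ0 := hC.hκ0
  have hχ := hC.hχ
  have hτc : 0 < χ / 480 := by linarith [hχ.1]
  obtain ⟨t, gap, ht, ht1, htm, t2, tχ, tκ, tκ', tτ, tτ', tgap, hgap⟩ :=
    ae1_pick_t C0 (κ (χ / 480)) χ τ1 h h Q hκ0 hχ.1 hC.hτ1.1 hh hh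
  obtain ⟨s0, hs0, Hnum⟩ := ae1_num hC h t B K0 hh ht t2 tχ tκ tκ'
  have hfam := ae1_par_fam hπ
  have hexp := ae1_par_exp hπ
  have heGh : 0 < eG * h := mul_pos hC.heG.1 hh
  have hKh : 0 < κ (χ / 480) * h := mul_pos hκ0 hh
  have hE1' : E1 ≤ τ1 / 8 := by
    have h2 : min c0 1 * τ1 ≤ 1 * τ1 := mul_le_mul_of_nonneg_right (min_le_right _ _) hC.hτ1.1.le
    linarith [hC.hE1.2.1, hC.hτ1.1]
  -- the eventual facts
  have F1 := ae1_s_wk S (χ / 480) t hτc ht ht1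
  have F2 := ae1_s_small S s0 hs0
  have F3 := hgeo acc hC.hacc.1
  have F5 := ae1_s_G S hπ hX c0 Ds h1 hFP xs a (eG * h) heGh ⟨ha, by linarith⟩ hxs
  have F6 : ∀ᶠ n in uf, ∀ z ∈ insert (6 : ℝ) Q, NmRep (S.D n) π (ae1Rt π xs a h B) K0 e → ∀ dsp : ℝ → NmNm → NmNm → ItDsp,
      ((S.D n).P 1).pr (fun ω => τ1 * (nmTan (S.D n) π (ae1Rt π xs a h B) dsp).L
        < |((S.D n).P 1).surC ((nmTan (S.D n) π (ae1Rt π xs a h B) dsp).Xn z) (nmTan (S.D n) π (ae1Rt π xs a h B) dsp).Cs ω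
            - S.U (ae1Q π) (z * h) a 0 / h * (nmTan (S.D n) π (ae1Rt π xs a h B) dsp).L|) ≤ ((S.D n).s ^ h) ^ E1 := by
    refine (Filter.eventually_all_finset _).2 fun z hz => ?_
    have hz6 : 0 ≤ z ∧ z ≤ 6 := by
      rcases Finset.mem_insert.1 hz with rfl | hz
      · norm_num
      · have := hC.hQ z hz
        exact ⟨this.1, by linarith [this.2]⟩
    exact ae1_s_ang S hπ c0 hC.hc0 Ds h1 hFP K0 e xs a h B z τ1 E1 hK0 ⟨ha, by linarith⟩ hh hz6 h6 hC.hτ1.1 hC.hE1.2.1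
  have F7 := ae1_s_ang40 S hπ c0 hC.hc0 Ds h1 hFP K0 e xs a h B τ1 E1 hK0 ⟨ha, by linarith⟩ hh h6 hC.hτ1.1 hC.hE1.2.1 hng
  have F8 := ae1_s_cnt S hπ hX K0 e xs a h B τ1 E1 (E1 - E0) hK0 ⟨ha, by linarith⟩ hh hC.hτ1.1 hE1' (by linarith [hC.hE0.1, hC.hE0.2.1])
  have F9 : ∀ᶠ n in uf, (S.D n).LabPr ((S.D n).gt (a + 60 * h)) (fun _ => True) ((S.D n).nm π (ae1Q π) (a + 40 * h) 0) ((S.D n).Xc 0)
      ((S.D n).s ^ (-(κ (χ / 480) * h))) := by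
    obtain ⟨lam0, hlam0, H⟩ := nm_pred_right π hπ.val hπ.hyb (by rw [(hexp 0).2.2.2.2.2.1]; exact one_pos) C0 (χ / 480) (κ (χ / 480)) (ae1Q π)
      hfam.1 rfl
    have hA := H (a + 40 * h) (a + 60 * h) 0 (by linarith) (by linarith) (by rw [hfam.2.2.1]; linarith)
      (fun hg => by rw [hfam.2.2.2.1] at hg; cases hg) (by rw [(hexp _).2.2.1]) (by
        rw [(hexp _).2.2.1]
        have : 0 ≤ lam0 * (a + 60 * h - (a + 40 * h)) := mul_nonneg hlam0.le (by linarith)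
        linarith) (by
        show (nmDsEq π).b (a + 40 * h) + 0 ≤ π.b1 (a + 60 * h)
        rw [(hexp _).2.2.2.2.1, (hexp _).2.1]
        linarith)
    exact nm_pro_A_uf S hX (χ / 480) hτc _ hA (κ (χ / 480) * h) hKh
  filter_upwards [F1, F2, F3, hrep, F5, F6, F7, F8, F9] with n G1 G2 G3 G4 G5 G6 G7 G8 G9
  obtain ⟨dsp, hNG⟩ := G3
  obtain ⟨hNum, hBs, hCs, hKs⟩ := Hnum (S.D n).s G2.1 G2.2
  have hs0' := hNum.s0
  have hs1' := hNum.s1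
  obtain ⟨hGeo, hD1, hD40⟩ := ae1_geo (S.D n) xs a h B acc Q dsp hC.hacc.1 hNG hBs hCs
  obtain ⟨NO, NC, hNC, hcC, hcO, hcnt, hcn2⟩ := G8 G4 dsp
  have hδ0 : 0 < (S.D n).s ^ h := Real.rpow_pos_of_pos hs0' _
  have hδ1 : (S.D n).s ^ h < 1 := Real.rpow_lt_one hs0'.le hs1' hh
  have hUb := nm_U_basic S hπ.val (ae1Q π) hfam.1 a 0
  have hM6 : 0 ≤ S.U (ae1Q π) (6 * h) a 0 / h ∧ S.U (ae1Q π) (6 * h) a 0 / h ≤ 6 := by
    have h2 := hUb.2 0 (6 * h) le_rfl (by linarith)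
    rw [hUb.1] at h2
    refine ⟨div_nonneg (by linarith [h2.1]) hh.le, ?_⟩
    rw [div_le_iff₀ hh]
    linarith [h2.2]
  have htime := ae1_rob_time hπ C0 (χ / 480) (κ (χ / 480)) t (S.D n) G1 xs a h B τ1 (eG * h) gap Q hC.hQ hh hB hgap tτ tgap tτ' hC.hτ1
    ⟨heGh, by
      have := mul_le_mul_of_nonneg_right hC.heG.2.1 hh.le
      linarith⟩ ⟨ha.le, by linarith⟩ G5.2 dsp
  have hRob : (nmTan (S.D n) π (ae1Rt π xs a h B) dsp).LtRob ((S.D n).ae1Z π xs a) ((S.D n).ae1G π xs a (eG * h)) π.d (1 - π.d + 2 * π.Γ) τ1 E1 Q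
      (fun z => S.U (ae1Q π) (z * h) a 0 / h) NO NC := by
    refine ⟨?_, fun z hz => G6 z hz G4 dsp, G7 G4 dsp, hmem, hM6, hcC, hcO, fun ω ω' hω => congrArg Prod.snd hω⟩
    intro p hp v hv hpv c hc
    refine (htime p hp v hv hpv c hc).trans ?_
    exact lay_rpow_anti hδ0 hδ1 (by linarith [hC.hτ1.1])
  have hGp : ((S.D n).P 1).pr (fun ω => ¬ (S.D n).ae1G π xs a (eG * h) ω) ≤ ((S.D n).s ^ h) ^ E1 := by
    refine G5.1.trans ?_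
    rw [← Real.rpow_mul hs0'.le]
    refine lay_rpow_anti hs0' hs1' ?_
    have := mul_le_mul_of_nonneg_left hC.hE1.2.2 hh.le
    linarith
  obtain ⟨hiG, hia⟩ := G1.near a ha.le (by linarith)
  obtain ⟨hjG, hja⟩ := G1.near (a + 60 * h) (by linarith) (by linarith)
  have hNP : (1 : ℝ) ≤ (S.D n).s ^ (-(eG * h)) := Real.one_le_rpow_of_pos_of_le_one_of_nonpos hs0' hs1'.le (by linarith)
  have heK : eG * h ≤ κ (χ / 480) * h := mul_le_mul_of_nonneg_right hC.heG.2.2 hh.le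
  have hrow : (S.D n).RowPr ((S.D n).gt a) ((S.D n).ae1G π xs a (eG * h)) ((S.D n).ae1Z π xs a) ((S.D n).s ^ (-(50 * κ (χ / 480) * h))) := by
    have h2 := ae1_side_row hπ C0 (χ / 480) (κ (χ / 480)) t (S.D n) G1 xs a ((S.D n).gt a) ((S.D n).s ^ (-(eG * h))) hiG
      (by linarith [(abs_le.1 hia).1]) (by linarith [(abs_le.1 hia).2]) ((S.D n).ae1G π xs a (eG * h)) hNP G5.2
    refine (ae1_pr_mono (S.D n) _ _ ((S.D n).ae1G π xs a (eG * h)) ((S.D n).ae1Z π xs a) _ _ (fun ω hω => ⟨hω.1, hω⟩) ?_).1 h2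
    rw [← Real.rpow_add hs0']
    exact lay_rpow_anti hs0' hs1' (by linarith)
  have hlab : (S.D n).LabPr ((S.D n).gt (a + 60 * h)) ((S.D n).ae1G π xs a (eG * h))
      (fun ω => ((nmTan (S.D n) π (ae1Rt π xs a h B) dsp).Cs ω, (nmTan (S.D n) π (ae1Rt π xs a h B) dsp).ltS 12 ω)) (fun _ => ())
      ((S.D n).s ^ (-(50 * κ (χ / 480) * h))) := by
    have h2 := ae1_lab_x hπ C0 (χ / 480) (κ (χ / 480)) t (S.D n) G1 ((S.D n).gt (a + 60 * h)) hjG (by linarith [(abs_le.1 hja).2])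
      (fun _ => True) ((S.D n).nm π (ae1Q π) (a + 40 * h) 0) _ (Real.rpow_nonneg hs0'.le _) G9
    have h3 := ae1_W_list hπ (S.D n) ⟨hs0', hs1'⟩ xs a h B acc K0 e (κ (χ / 480)) hh dsp hK0 G4 hGeo hD40 hC.hacc.2.2.1 hC.hacc.2.2.2
    have hN2 : 0 ≤ nmK0 * K0 * ((S.D n).s ^ h) ^ (-(κ (χ / 480))) := by
      have hk : (0:ℝ) ≤ nmK0 := by unfold nmK0; positivity
      exact mul_nonneg (mul_nonneg hk (by linarith)) (Real.rpow_nonneg hδ0.le _)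
    have h4 := ae1_lab_comp (S.D n) ((S.D n).gt (a + 60 * h)) (fun _ => True) ((S.D n).nm π (ae1Q π) (a + 40 * h) 0) _ _ _ hN2 h2 h3
    refine (ae1_pr_mono (S.D n) _ _ ((S.D n).ae1G π xs a (eG * h)) _ _ _ (fun ω hω => ⟨hω.1, trivial⟩) ?_).2 h4
    have e1 : ((S.D n).s ^ h) ^ (-(κ (χ / 480))) = (S.D n).s ^ (-(κ (χ / 480) * h)) := by
      rw [← Real.rpow_mul hs0'.le]
      congr 1
      ring
    rw [e1]
    have hp1 : 0 ≤ (S.D n).s ^ (-(κ (χ / 480) * h)) := Real.rpow_nonneg hs0'.le _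
    have hp2 : 0 ≤ (S.D n).s ^ (-(2 * t)) := Real.rpow_nonneg hs0'.le _
    calc (S.D n).s ^ (-(κ (χ / 480) * h)) * (S.D n).s ^ (-(2 * t)) * (nmK0 * K0 * (S.D n).s ^ (-(κ (χ / 480) * h)))
        ≤ (S.D n).s ^ (-(κ (χ / 480) * h)) * (S.D n).s ^ (-(2 * t)) * ((S.D n).s ^ (-(κ (χ / 480) * h)) * (S.D n).s ^ (-(κ (χ / 480) * h))) :=
          mul_le_mul_of_nonneg_left (mul_le_mul_of_nonneg_right hKs hp1) (mul_nonneg hp1 hp2)
      _ = (S.D n).s ^ (-(κ (χ / 480) * h) + -(2 * t) + (-(κ (χ / 480) * h) + -(κ (χ / 480) * h))) := by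
          rw [Real.rpow_add hs0', Real.rpow_add hs0', Real.rpow_add hs0']
      _ ≤ (S.D n).s ^ (-(50 * κ (χ / 480) * h)) := lay_rpow_anti hs0' hs1' (by linarith)
  have hχ'2 : 0 ≤ χ' ∧ 800 * χ' ≤ τ := by
    rw [hC.hχ']
    constructor <;> linarith [hC.hτ.1]
  exact ae1_one hπ C0 (κ (χ / 480)) t χ τ τ1 ε E0 E1 e0 δ₀ _ χ' ηL Q hχ hC.hτ hχ'2 hC.fin (S.D n) G1 xs a h B acc hB ⟨ha.le, by linarith⟩ hNum
    hC.hacc.2.1 dsp ((S.D n).ae1G π xs a (eG * h)) (fun z => S.U (ae1Q π) (z * h) a 0 / h) NO NC (2 + 3 * π.d - 2 * π.Γ - π.η) hGeo hD1 hD40 hRob hNC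
    hcnt hcn2 hC.hup hGp hrow hlab

/-- **EXIT of E1 = Lemma act:stationary-boundary** (06 l.314-430), graph form. -/
theorem ae1_main {π : SfPar} {C0 : ℝ} {κ : ℝ → ℝ} (S : NmSeq π C0 κ) (hπ : π.E1) (hκ : ∀ τ, 0 < τ → 0 < κ τ) (hX : S.HasX) (c0 : ℝ) (hc0 : 0 < c0)
    (Ds : Set ℝ) (h1 : (1 : ℝ) ∈ Ds) (hF : S.Flat Ds) (hFP : S.FlatP c0 Ds) :
    ∃ e0 χ' : ℝ, 0 < e0 ∧ 0 < χ' ∧ χ' < 1 ∧ ∀ a0 a1 σ : ℝ, 0 < σ → 0 ≤ a0 → a1 ≤ 1 →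
      (∀ a ∈ Set.Ioo a0 a1, π.b1 a + σ ≤ S.pst (nmDsEq π) a) → ∀ᵐ a : ℝ, a ∈ Set.Ioo a0 a1 → ∀ xs : ℝ, π.b1 a < xs →
        ∃ z0 ηm : ℝ, 0 < z0 ∧ 0 < ηm ∧ ∀ z : ℝ, 0 < z → z < z0 → ∀ a' : ℝ, |a' - a| ≤ ηm * z → xs < S.pst (nmDsEq π) a' →
          ∀ᶠ n in uf, ∀ v sl : NmZv (S.D n).Idx → ℝ, (∀ x, |sl x| ≤ (S.D n).s ^ (π.b2 a' - a' - χ' * z)) →
            ((S.D n).P 1).pr ((S.D n).ae1Ev π xs a' z v sl) ≤ (S.D n).s ^ (e0 * z) := by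
  by_cases hg1 : 1 - π.d + 2 * π.Γ ≤ 1
  swap
  · refine ⟨1, 1 / 2, one_pos, by norm_num, by norm_num, fun a0 a1 σ hσ h0 h11 hs => Filter.Eventually.of_forall fun a ha => ?_⟩
    exact absurd (ae1_g_le S hπ hX Ds h1 hF a0 a1 σ h0 h11 hσ hs a ha) hg1
  obtain ⟨χ, τ, δ₀, τ1, ε, E0, E1, e0, χ', eG, acc, ηL, Q, hC⟩ := ae1_cst hπ hg1 c0 hc0 κ hκ
  obtain ⟨K0, hK0, Hrep⟩ := ae1_p_rep S hπ hX
  obtain ⟨B, hB, Hgeo⟩ := ae1_p_geo S hπ hX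
  refine ⟨e0, χ', by rw [hC.he0]; linarith [hC.hE0.1], by rw [hC.hχ']; linarith [hC.hτ.1], by rw [hC.hχ']; linarith [hC.hτ.2], ?_⟩
  intro a0 a1 σ hσ h0 h11 hs
  filter_upwards [ae1_ng S hπ] with a hng ha xs hxs
  have hexp := ae1_par_exp hπ
  rw [(hexp a).2.1] at hxs
  have ha01 : a ∈ Set.Ioo (0 : ℝ) 1 := ⟨lt_of_le_of_lt h0 ha.1, lt_of_lt_of_le ha.2 h11⟩
  -- the patch
  obtain ⟨r, hr, hr0, hr1, hrx⟩ : ∃ r : ℝ, 0 < r ∧ 2 * r ≤ a - a0 ∧ 2 * r ≤ a1 - a ∧ 2 * r ≤ xs - (a - 1) := by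
    refine ⟨min (min (a - a0) (a1 - a)) (xs - (a - 1)) / 2, ?_, ?_, ?_, ?_⟩
    · have : 0 < min (min (a - a0) (a1 - a)) (xs - (a - 1)) :=
        lt_min (lt_min (by linarith [ha.1]) (by linarith [ha.2])) (by linarith)
      linarith
    · linarith [(min_le_left (min (a - a0) (a1 - a)) (xs - (a - 1))).trans (min_le_left _ _)]
    · linarith [(min_le_left (min (a - a0) (a1 - a)) (xs - (a - 1))).trans (min_le_right _ _)]
    · linarith [min_le_right (min (a - a0) (a1 - a)) (xs - (a - 1))]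
  have hp0 : 0 < a - r := by linarith [ha.1]
  have hp1 : a + r < 1 := by linarith [ha.2]
  obtain ⟨e, he, Hrep'⟩ := Hrep xs (a - r) (a + r) hp0 (by linarith) hp1 (by linarith)
  obtain ⟨h0g, hh0g, Hgeo'⟩ := Hgeo xs (a - r) (a + r) hp0 (by linarith) hp1 (by linarith) Q hC.hQ
  obtain ⟨ρ, hρ, Hmem⟩ := ae1_mem S hπ hX Ds h1 hF a0 a1 σ h0 h11 hσ hs a ha
  obtain ⟨ηm, h0n, hηm, hh0n, Hng⟩ := hng ha01 (τ1 / 4) (by linarith [hC.hτ1.1])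
  obtain ⟨H, hH, H1, H2, H3, H4, H5, H6, H7⟩ : ∃ H : ℝ, 0 < H ∧ H ≤ h0g ∧ H ≤ h0n ∧ 7 * H ≤ e ∧ 4 * H ≤ ρ ∧ 62 * H ≤ 1 - a - r ∧
      ηm * H ≤ r ∧ ηm * H ≤ ρ := by
    refine ⟨min (min (min h0g h0n) (min (e / 7) (ρ / 4))) (min ((1 - a - r) / 62) (min (r / ηm) (ρ / ηm))), ?_, ?_, ?_, ?_, ?_, ?_, ?_, ?_⟩
    · exact lt_min (lt_min (lt_min hh0g hh0n) (lt_min (by linarith) (by linarith)))
        (lt_min (by linarith) (lt_min (div_pos hr hηm) (div_pos hρ hηm)))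
    · exact (min_le_left _ _).trans ((min_le_left _ _).trans (min_le_left _ _))
    · exact (min_le_left _ _).trans ((min_le_left _ _).trans (min_le_right _ _))
    · have := (min_le_left (min (min h0g h0n) (min (e / 7) (ρ / 4))) (min ((1 - a - r) / 62) (min (r / ηm) (ρ / ηm)))).trans
        ((min_le_right _ _).trans (min_le_left _ _))
      linarith
    · have := (min_le_left (min (min h0g h0n) (min (e / 7) (ρ / 4))) (min ((1 - a - r) / 62) (min (r / ηm) (ρ / ηm)))).trans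
        ((min_le_right _ _).trans (min_le_right _ _))
      linarith
    · have := (min_le_right (min (min h0g h0n) (min (e / 7) (ρ / 4))) (min ((1 - a - r) / 62) (min (r / ηm) (ρ / ηm)))).trans
        (min_le_left _ _)
      linarith
    · have := (min_le_right (min (min h0g h0n) (min (e / 7) (ρ / 4))) (min ((1 - a - r) / 62) (min (r / ηm) (ρ / ηm)))).trans
        ((min_le_right _ _).trans (min_le_left _ _))
      rw [le_div_iff₀ hηm] at this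
      linarith
    · have := (min_le_right (min (min h0g h0n) (min (e / 7) (ρ / 4))) (min ((1 - a - r) / 62) (min (r / ηm) (ρ / ηm)))).trans
        ((min_le_right _ _).trans (min_le_right _ _))
      rw [le_div_iff₀ hηm] at this
      linarith
  refine ⟨400 * H, ηm / 400, by linarith, by linarith, ?_⟩
  intro z hz hzH a' ha' hxs'
  obtain ⟨h, hzh⟩ : ∃ h : ℝ, z = 400 * h := ⟨z / 400, by ring⟩
  subst hzh
  have hh : 0 < h := by linarith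
  have hhH : h < H := by linarith
  have ha'2 : |a' - a| ≤ ηm * h := by
    have : ηm / 400 * (400 * h) = ηm * h := by ring
    rwa [this] at ha'
  have hηh : ηm * h ≤ ηm * H := mul_le_mul_of_nonneg_left hhH.le hηm.le
  obtain ⟨hl, hu⟩ := abs_le.1 ha'2
  refine ae1_at S hπ hX Ds h1 hFP hC xs a' h B K0 e hB hK0 (by linarith) hh (by linarith) (by linarith) hxs'
    (fun acc' hacc' => Hgeo' a' h (by linarith) (by linarith) hh (by linarith) acc' hacc') (Hrep' a' h B (by linarith) (by linarith)) ?_ ?_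
  · intro q hq
    obtain ⟨hq0, hq3⟩ := hC.hQ q hq
    rw [le_div_iff₀ hh]
    have hqh : q * h ≤ 3 * h := mul_le_mul_of_nonneg_right hq3 hh.le
    have := Hmem a' (by linarith) (q * h) (mul_nonneg hq0 hh.le) (by linarith)
    linarith
  · have := Hng h hh (by linarith) a' ha'2
    linarith

end

end Claimed.Agent.R256
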