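import Claimed.Agent.R256.Act.E1.Doc

/-!
# Row 256, section Act, E1 = Lemma act:stationary-boundary (06 l.314-430), file 4: THE ARGUMENT ON ONE CONFIGURATION      (architect helper279; prefix `ae1_`)

`ae1_one` (PROVED): on ONE working configuration `D` carrying the geometry (`LtGeo`, `LtDsp`), the robust clauses (`Tan.LtRob`), the success event `G` of the derivative lists (failure `≤ δ^E1`), the row list of the side at `D.gt a`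
and the label list of `W = (C_*, S)` at `D.gt (a + 60 h)`:  EVERY line `t ↦ v(Z) + sl(Z) t` of slope `≤ s^(-1 - χ' z)` is met within `s^(a - 1 + z)`, `z = 400 h`, with probability `≤ s^(e0 z)`.
PROOF (06 l.339-428).  If not, `A = G ∧ line` has mass `≥ δ^E0` (`n1`);  `ae1_line`, `Ae1Fin` give a predictor `I(W)` of the normalised slope with `P(. | A) > τ`;  `Ev = A ∧ |I(W) - ka(Z)| < δ^χ` has mass `> τ δ^E0`;
`ae1_cost` on the gates `i = D.gt a`, `j = D.gt (a + 60 h)` with `X = χ' z`, `ϖ = χ h / 2`, `τc = χ / 480`, `J = I / s`:  `P(Ev) ≤ s^(κ0 (j-i)/2) ≤ s^(29 κ0 h)`;  contradiction with `n2`.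
Also: `ae1_geo` (`NmGeo ⟹ LtGeo, LtDsp`), `ae1_W_list` (the child name at `a + 40 h` lists `W`).
-/

set_option autoImplicit false

namespace Claimed.Agent.R256

open Claimed.Agent.R255
open Claimed.Agent.R255.FLaw (pair)
open Classical

noncomputable section

/-- the numerical margins of `ae1_one` -/
structure Ae1Num (s h t χ τ τ1 ε E0 E1 e0 κ0 δ₀ N : ℝ) : Prop where
  s0 : 0 < s
  s1 : s < 1
  h0 : 0 < h
  dl : s ^ h < δ₀
  h3 : (3 : ℝ) ≤ (s ^ h) ^ (-(τ / 2))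
  hE0 : 0 < E0
  hτ1 : 0 < τ1
  L1 : 1 ≤ τ1 * lg (s ^ h)
  hε : (s ^ h) ^ (E1 - E0) + 2 * ((E0 * lg (s ^ h) + 1) / (τ1 * lg (s ^ h)) + Real.exp (-(τ1 * lg (s ^ h)))) ≤ ε
  ε1 : ε ≤ 1
  hτ : 40 * τ1 + 40 * ε ≤ τ
  n1 : (s ^ h) ^ E0 + (s ^ h) ^ E1 ≤ s ^ (e0 * (400 * h))
  n2 : s ^ (29 * κ0 * h) ≤ τ * (s ^ h) ^ E0
  hκ0 : 0 < κ0
  t2 : 2 * t ≤ h
  tχ : 16 * t ≤ χ * h
  tκ : 36 * t ≤ 59 * κ0 * h
  tκ' : 61 * κ0 * h ≤ 1 / t
  N1 : 1 ≤ N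
  hN : N ≤ s ^ (-(50 * κ0 * h))

/-- LEAF L-256-E1-GEO.   `NmGeo` of the boundary root gives the geometric input of the adapter (fields by fields; `side_C`, `side_F` by definition of `nmTan`: `Cs = cst (side)`, `F = fst (side)`; `1, 40 ∈ Lam`, `K = 7`). -/
theorem ae1_geo {π : SfPar} (D : SfDoc) (xs a h B acc : ℝ) (Q : Finset ℝ) (dsp : ℝ → NmNm → NmNm → ItDsp) (hacc : 0 < acc)
    (hG : NmGeo (nmTan D π (ae1Rt π xs a h B) dsp) (ae1Par π B) (ae1Pk Q) acc)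
    (hB : B + 1 ≤ (D.s ^ h) ^ (-acc)) (hC : (10 : ℝ) ^ 6 ≤ (D.s ^ h) ^ (-acc)) :
    (nmTan D π (ae1Rt π xs a h B) dsp).LtGeo (D.ae1Z π xs a) (ae1Par π B) 7 acc ∧
      (nmTan D π (ae1Rt π xs a h B) dsp).LtDsp (ae1Par π B) 7 acc 1 ∧ (nmTan D π (ae1Rt π xs a h B) dsp).LtDsp (ae1Par π B) 7 acc 40 := by
  have hdf : ∀ l : ℝ, ∀ ω ω' : D.Row 1, (nmTan D π (ae1Rt π xs a h B) dsp).O l ω = (nmTan D π (ae1Rt π xs a h B) dsp).O l ω' →
      (nmTan D π (ae1Rt π xs a h B) dsp).dsp l ω = (nmTan D π (ae1Rt π xs a h B) dsp).dsp l ω' := by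
    intro l ω ω' hO
    have h1 := congrArg Prod.fst hO
    have h2 := congrArg Prod.snd hO
    show dsp l _ _ = dsp l _ _
    exact congrArg₂ (dsp l) h1 h2
  refine ⟨⟨hG.small.1, hG.small.2.2, rfl, rfl, hacc, hB, hC, ?_, ?_, hG.bdF, hG.bdM⟩, ⟨fun ω ω' hO _ => hdf 1 ω ω' hO, ?_⟩,
    ⟨fun ω ω' hO _ => hdf 40 ω ω' hO, ?_⟩⟩
  · intro ω ω' hZ
    exact congrArg (D.cst π (ae1Rt π xs a h B)) hZ
  · intro ω ω' hZ
    exact congrArg (D.fst π (ae1Rt π xs a h B)) hZ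
  · exact hG.tg.dsp 1 (by simp [ae1Pk])
  · exact hG.tg.dsp 40 (by simp [ae1Pk])

/-- LEAF L-256-E1-GEO.   **the child name at `a + 40 h` lists `W = (C_*, S)`** (06 l.362-366, l.396-398):  `nm_nval_up` (the root name, `nmK0` values), `NmRep.rep2` (`C_*`, `K0` values), `ltt_read` with `l = 40`, `R = 12` (`O 40 = (name, C_*)`);  `ltk_nval_comp`. -/
theorem ae1_W_list {π : SfPar} (hπ : π.E1) (D : SfDoc) (hs : 0 < D.s ∧ D.s < 1) (xs a h B acc K0 e τr : ℝ) (hh : 0 < h) (dsp : ℝ → NmNm → NmNm → ItDsp)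
    (hK0 : 1 ≤ K0) (hR : NmRep D π (ae1Rt π xs a h B) K0 e)
    (hG : (nmTan D π (ae1Rt π xs a h B) dsp).LtGeo (D.ae1Z π xs a) (ae1Par π B) 7 acc)
    (hD : (nmTan D π (ae1Rt π xs a h B) dsp).LtDsp (ae1Par π B) 7 acc 40) (hτ : 1000 * acc ≤ τr) (hacc : 1000 * acc ≤ 1) :
    (D.P 1).NVal (fun _ => True) (fun ω => ((nmTan D π (ae1Rt π xs a h B) dsp).Cs ω, (nmTan D π (ae1Rt π xs a h B) dsp).ltS 12 ω))
      (D.nm π (ae1Q π) (a + 40 * h) 0) (nmK0 * K0 * (D.s ^ h) ^ (-τr)) := by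
  have hq : (ae1Q π).Ok π := nm_fam_ok π hπ.val _ (ae1_par_fam hπ).1
  have h1 : (D.P 1).NVal (fun _ => True) (D.nm π (ae1Q π) a 0) (D.nm π (ae1Q π) (a + 40 * h) 0) nmK0 :=
    nm_nval_up D π hq hs.1 hs.2 (by linarith) le_rfl
  have h2 : (D.P 1).NVal (fun _ => True) (D.cs π (ae1Rt π xs a h B)) (D.nm π (ae1Q π) a 0) K0 := hR.rep2
  have h2' : (D.P 1).NVal (fun _ => True) (D.cs π (ae1Rt π xs a h B)) (pair (D.nm π (ae1Q π) a 0) (D.nm π (ae1Q π) (a + 40 * h) 0)) K0 :=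
    ltk_nval_mono _ h2 (fun _ h => h) (fun _ _ h => congrArg Prod.fst h) ⟨id, fun _ => rfl⟩ le_rfl
  have h3 := ltk_nval_comp (D.P 1) _ _ _ _ (by linarith : (0 : ℝ) ≤ K0) h1 h2'
  have h4 : (D.P 1).NVal (fun _ => True) (D.cs π (ae1Rt π xs a h B)) (D.nm π (ae1Q π) (a + 40 * h) 0) (nmK0 * K0) :=
    ltk_nval_mono _ h3 (fun _ h => h) (fun _ _ h => h) ⟨Prod.fst, fun _ => rfl⟩ le_rfl
  have h5 := ltt_read (nmTan D π (ae1Rt π xs a h B) dsp) (D.ae1Z π xs a) (ae1Par π B) 7 acc τr 12 40 hG hD hτ hacc (by norm_num) (by norm_num)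
  have h6 : (D.P 1).NVal (fun _ => True) ((nmTan D π (ae1Rt π xs a h B) dsp).ltS 12)
      (pair (D.cs π (ae1Rt π xs a h B)) (D.nm π (ae1Q π) (a + 40 * h) 0)) ((D.s ^ h) ^ (-τr)) := by
    refine ltk_nval_mono _ h5 (fun _ h => h) (fun ω ω' h => ?_) ⟨id, fun _ => rfl⟩ le_rfl
    have e1 := congrArg Prod.fst h
    have e2 := congrArg Prod.snd h
    exact Prod.ext (Prod.ext e2 e1) e1
  have hδ : (0 : ℝ) ≤ (D.s ^ h) ^ (-τr) := Real.rpow_nonneg (Real.rpow_nonneg hs.1.le _) _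
  have h7 := ltk_nval_comp (D.P 1) _ _ _ _ hδ h4 h6
  exact ltk_nval_mono _ h7 (fun _ h => h) (fun _ _ h => h) ⟨Prod.swap, fun _ => rfl⟩ le_rfl

/-- **THE ARGUMENT ON ONE CONFIGURATION** -/
theorem ae1_one {π : SfPar} (hπ : π.E1) (C0 κ0 t χ τ τ1 ε E0 E1 e0 δ₀ N χ' ηL : ℝ) (Q : Finset ℝ) (hχ : 0 < χ ∧ χ ≤ 1) (hτ : 0 < τ ∧ τ ≤ 1)
    (hχ' : 0 ≤ χ' ∧ 800 * χ' ≤ τ) (hF : Ae1Fin π.d (1 - π.d + 2 * π.Γ) ηL χ Q τ δ₀)
    (D : SfDoc) (hD : D.Wk π C0 (χ / 480) κ0 t) (xs a h B acc : ℝ) (hB : 1 ≤ B) (ha : 0 ≤ a ∧ a + 60 * h + t < 1)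
    (hNum : Ae1Num D.s h t χ τ τ1 ε E0 E1 e0 κ0 δ₀ N) (hacc : 1000 * acc ≤ τ1)
    (dsp : ℝ → NmNm → NmNm → ItDsp) (G : D.Row 1 → Prop) (M : ℝ → ℝ) (NO NC Hup : ℝ)
    (hGeo : (nmTan D π (ae1Rt π xs a h B) dsp).LtGeo (D.ae1Z π xs a) (ae1Par π B) 7 acc)
    (hD1 : (nmTan D π (ae1Rt π xs a h B) dsp).LtDsp (ae1Par π B) 7 acc 1)
    (hD40 : (nmTan D π (ae1Rt π xs a h B) dsp).LtDsp (ae1Par π B) 7 acc 40)
    (hRob : (nmTan D π (ae1Rt π xs a h B) dsp).LtRob (D.ae1Z π xs a) G π.d (1 - π.d + 2 * π.Γ) τ1 E1 Q M NO NC) (hNC : 0 < NC)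
    (hcnt : Real.log NO - Real.log NC ≤ (Hup + τ1) * (nmTan D π (ae1Rt π xs a h B) dsp).L)
    (hcn2 : (D.s ^ h) ^ (E1 - E0) * Real.log NC ≤ τ1 * (nmTan D π (ae1Rt π xs a h B) dsp).L)
    (hup : Hup + 3 * τ1 ≤ 2 * π.d + (1 - π.d + 2 * π.Γ) + 2 * min 1 (2 * π.d) + min 1 (π.d + (1 - π.d + 2 * π.Γ)) - ηL)
    (hGp : (D.P 1).pr (fun ω => ¬ G ω) ≤ (D.s ^ h) ^ E1)
    (hrow : D.RowPr (D.gt a) G (D.ae1Z π xs a) N)
    (hlab : D.LabPr (D.gt (a + 60 * h)) G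
      (fun ω => ((nmTan D π (ae1Rt π xs a h B) dsp).Cs ω, (nmTan D π (ae1Rt π xs a h B) dsp).ltS 12 ω)) (fun _ => ()) N) :
    ∀ v sl : NmZv D.Idx → ℝ, (∀ x, |sl x| ≤ D.s ^ (π.b2 a - a - χ' * (400 * h))) →
      (D.P 1).pr (D.ae1Ev π xs a (400 * h) v sl) ≤ D.s ^ (e0 * (400 * h)) := by
  intro v sl hsl
  by_contra hcon
  have hcon := not_le.1 hcon
  have hs0 := hNum.s0
  have hs1 := hNum.s1
  have hh := hNum.h0
  have ht := hD.tpos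
  obtain ⟨T, hT⟩ : ∃ T : Tan, T = nmTan D π (ae1Rt π xs a h B) dsp := ⟨_, rfl⟩
  have hδ0 : 0 < D.s ^ h := Real.rpow_pos_of_pos hs0 _
  have hδ1 : D.s ^ h < 1 := Real.rpow_lt_one hs0.le hs1 hh
  -- the event
  set A : D.Row 1 → Prop := fun ω => G ω ∧ D.ae1Ev π xs a (400 * h) v sl ω with hAdef
  have hsplit : (D.P 1).pr (D.ae1Ev π xs a (400 * h) v sl) ≤ (D.P 1).pr A + (D.P 1).pr (fun ω => ¬ G ω) := by
    rw [ent_pr_split (D.P 1) (D.ae1Ev π xs a (400 * h) v sl) G]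
    refine add_le_add (ent_pr_mono _ fun ω _ hω => ⟨hω.2, hω.1⟩) (ent_pr_mono _ fun ω _ hω => hω.2)
  have hAm : (D.s ^ h) ^ E0 ≤ (D.P 1).pr A := by
    have := hNum.n1
    linarith
  have hApos : 0 < (D.P 1).pr A := lt_of_lt_of_le (Real.rpow_pos_of_pos hδ0 _) hAm
  -- the line
  have hLine := ae1_line hπ D ⟨hs0, hs1⟩ xs a h B τ χ' hh hB hτ hχ' hNum.h3 dsp v sl hsl A hApos (fun ω hω => hω.2)
  have hLtNum : (nmTan D π (ae1Rt π xs a h B) dsp).LtNum A τ τ1 E0 E1 ε :=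
    ⟨hδ0, hδ1, hAm, hNum.hE0, hNum.hτ1, hNum.L1, hNum.hε, hNum.ε1, hNum.hτ⟩
  obtain ⟨I, hI⟩ := hF (nmTan D π (ae1Rt π xs a h B) dsp) (NmZv D.Idx) A G (D.ae1Z π xs a) (ae1Be D.s a v sl) (ae1Ka D.s sl)
    (ae1Par π B) 7 acc 12 τ1 E0 E1 ε NO NC Hup M hNum.dl hacc (by norm_num) (by norm_num) hGeo hD1 hD40 hLine (fun ω hω => hω.1)
    hLtNum hRob hNC hcnt hcn2 hup
  -- the marked event
  set W : D.Row 1 → NmNm × LttS :=
    fun ω => ((nmTan D π (ae1Rt π xs a h B) dsp).Cs ω, (nmTan D π (ae1Rt π xs a h B) dsp).ltS 12 ω) with hW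
  set Ev : D.Row 1 → Prop := fun ω => A ω ∧ |I (W ω) - ae1Ka D.s sl (D.ae1Z π xs a ω)| < (D.s ^ h) ^ χ with hEv
  have hEvm : τ * (D.s ^ h) ^ E0 < (D.P 1).pr Ev := by
    have h1 : ((D.P 1).cnd A).pr (fun ω => |I (W ω) - ae1Ka D.s sl (D.ae1Z π xs a ω)| < (D.s ^ h) ^ χ)
        = (D.P 1).pr Ev / (D.P 1).pr A := ae1_k_cnd_pr (D.P 1) A hApos _
    have h2 : τ < (D.P 1).pr Ev / (D.P 1).pr A := by
      rw [← h1]
      exact hI
    rw [lt_div_iff₀ hApos] at h2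
    calc τ * (D.s ^ h) ^ E0 ≤ τ * (D.P 1).pr A := mul_le_mul_of_nonneg_left hAm hτ.1.le
      _ < (D.P 1).pr Ev := h2
  -- the gates
  obtain ⟨hiG, hia⟩ := hD.near a ha.1 (by linarith)
  obtain ⟨hjG, hja⟩ := hD.near (a + 60 * h) (by linarith) (by linarith)
  obtain ⟨hia1, hia2⟩ := abs_le.1 hia
  obtain ⟨hja1, hja2⟩ := abs_le.1 hja
  have ht2 := hNum.t2
  have htχ := hNum.tχ
  have htκ := hNum.tκ
  have hκ0 := hNum.hκ0
  have hy1 : 59 * h ≤ D.gt (a + 60 * h) - D.gt a := by linarith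
  have hy2 : D.gt (a + 60 * h) - D.gt a ≤ 61 * h := by linarith
  have hexp := ae1_par_exp hπ a
  have hK1 : 59 * (κ0 * h) ≤ κ0 * (D.gt (a + 60 * h) - D.gt a) := by
    have := mul_le_mul_of_nonneg_left hy1 hκ0.le
    linarith
  have hK2 : κ0 * (D.gt (a + 60 * h) - D.gt a) ≤ 61 * (κ0 * h) := by
    have := mul_le_mul_of_nonneg_left hy2 hκ0.le
    linarith
  have hKpos : 0 < κ0 * h := mul_pos hκ0 hh
  have hPpos : 0 < χ * h := mul_pos hχ.1 hh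
  have hX1 : χ' * (400 * h) ≤ h / 2 := by
    have h1 : 400 * χ' ≤ 1 / 2 := by linarith [hχ'.2, hτ.2]
    have := mul_le_mul_of_nonneg_right h1 hh.le
    linarith
  have hX0 : 0 ≤ χ' * (400 * h) := mul_nonneg hχ'.1 (by linarith)
  have hP1 : χ * h ≤ h := by
    have := mul_le_mul_of_nonneg_right hχ.2 hh.le
    linarith
  have hSit : Ae1Sit π C0 (χ / 480) κ0 t D (D.gt a) (D.gt (a + 60 * h)) (χ' * (400 * h)) (χ / 2 * h) N (D.ae1Z π xs a) W v sl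
      (fun w => I w / D.s) Ev := by
    refine ⟨hπ, hD, hiG, hjG, by linarith, by linarith, hX0, ?_, ?_, by linarith [hχ.1], ?_, ?_, ?_, ?_, ?_,
      hNum.N1, ?_, ?_⟩
    · linarith
    · have h1 : χ / 480 * (D.gt (a + 60 * h) - D.gt a) ≤ χ / 480 * (61 * h) :=
        mul_le_mul_of_nonneg_left hy2 (by linarith [hχ.1])
      linarith
    · intro x
      have := hsl x
      rw [hexp.1] at this
      have e : a - 1 - a - χ' * (400 * h) = -1 - χ' * (400 * h) := by ring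
      rwa [e] at this
    · intro ρ hρ
      have h1 : |(D.lab 1 ρ).be - (v (D.ae1Z π xs a ρ) + sl (D.ae1Z π xs a ρ) * D.T 1 ρ)| ≤ D.s ^ (π.b2 a + 400 * h) := hρ.1.2
      refine h1.trans (lay_rpow_anti hs0 hs1 ?_)
      rw [hexp.1]
      linarith
    · intro ρ hρ
      have h1 : |I (W ρ) - sl (D.ae1Z π xs a ρ) * D.s| < (D.s ^ h) ^ χ := hρ.2
      have e1 : sl (D.ae1Z π xs a ρ) - I (W ρ) / D.s = -(I (W ρ) - sl (D.ae1Z π xs a ρ) * D.s) / D.s := by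
        field_simp
        ring
      rw [e1, abs_div, abs_neg, abs_of_pos hs0, div_le_iff₀ hs0]
      refine h1.le.trans ?_
      have e2 : D.s ^ (-1 + χ / 2 * h) * D.s = D.s ^ (χ / 2 * h) := by
        have : D.s ^ (-1 + χ / 2 * h) * D.s = D.s ^ (-1 + χ / 2 * h) * D.s ^ (1 : ℝ) := by rw [Real.rpow_one]
        rw [this, ← Real.rpow_add hs0]
        congr 1
        ring
      rw [e2, ← Real.rpow_mul hs0.le]
      refine lay_rpow_anti hs0 hs1 ?_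
      linarith
    · exact (ae1_pr_mono D (D.gt a) G Ev (D.ae1Z π xs a) N N (fun ω hω => hω.1.1) le_rfl).1 hrow
    · exact (ae1_pr_mono D (D.gt (a + 60 * h)) G Ev W N N (fun ω hω => hω.1.1) le_rfl).2 hlab
    · have h1 : N * D.s ^ (-(5 * t)) ≤ D.s ^ (-(50 * κ0 * h)) * D.s ^ (-(5 * t)) :=
        mul_le_mul_of_nonneg_right hNum.hN (Real.rpow_nonneg hs0.le _)
      refine h1.trans ?_
      rw [← Real.rpow_add hs0]
      refine lay_rpow_anti hs0 hs1 ?_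
      linarith
    · linarith
  have hcost := ae1_cost hSit
  have hx1 : 36 * t ≤ κ0 * (D.gt (a + 60 * h) - D.gt a) := by linarith
  have hx2 : κ0 * (D.gt (a + 60 * h) - D.gt a) ≤ 1 / t := by
    refine le_trans ?_ hNum.tκ'
    linarith
  have hfin := lay_sep_close hs0 hs1 ht hD.h10 hx1 hx2 hcost
  have hle : D.s ^ (κ0 * (D.gt (a + 60 * h) - D.gt a) / 2) ≤ D.s ^ (29 * κ0 * h) := by
    refine lay_rpow_anti hs0 hs1 ?_
    linarith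
  have := hNum.n2
  linarith

end

end Claimed.Agent.R256
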