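import Claimed.Agent.R256.Act.E1.One
import Claimed.Agent.R256.Nm.Pha.Tan
import Claimed.Agent.R256.Nm.Mem.Y5a

/-!
# Row 256, section Act, E1 = Lemma act:stationary-boundary (06 l.314-430), file 5: THE SEQUENCE      (architect helper279; prefix `ae1_`)

`S : NmSeq π C0 κ`, `π.E1`, `S.HasX`, `S.FlatP c0 Ds` (`1 ∈ Ds`; power-small flatness, Nm/FlatP.lean).   `q = ae1Q π`, root `(a, 0)`, gap `h`, `δ = s^h`, `L = h log(1/s)`, `T = nmTan (S.D n) π (ae1Rt π xs a h B) dsp`.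
## A. ports on Nm (uniform on a patch of time roots)      `ae1_p_rep`, `ae1_p_geo`      OWNER helper143 (PHA): `nm_rep`, `nm_tan_geo` with `e`, `h0` uniform on a closed interval of roots
## B. flatness      `ae1_flat_ang`, `ae1_flat_P` (lists of queries ⟶ plain observations), `ae1_s_G` (success event of the derivative lists, 06 l.354-355)
## C. scores of the tangent datum      `ae1_s_ang`, `ae1_s_ang40` (`ltk_transfer` between `(X^(zh), 𝒞(a,0))` and `(X_z, C_*)`; 06 l.366-375), `ae1_s_cnt` (boundary equality of (canon), 06 l.381-384)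
## D. profiles      `ae1_ng` ((ng) on the boundary `v = 0`, moved roots), `ae1_mem` (lower slope `k_0 + 2Γ`, 06 l.329-337), `ae1_g_le` (capacity)
-/

set_option autoImplicit false

namespace Claimed.Agent.R256

open Claimed.Agent.R255
open Claimed.Agent.R255.FLaw (pair)
open Filter Topology MeasureTheory
open Classical

noncomputable section

variable {π : SfPar} {C0 : ℝ} {κ : ℝ → ℝ} (S : NmSeq π C0 κ)

/-! ## A. ports -/

/-- the slack of the boundary root -/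
theorem ae1_p_sl (hπ : π.E1) (xs a h B : ℝ) : (ae1Rt π xs a h B).sl π = xs - (a - 1) := by
  obtain ⟨-, -, -, -, e5, -, -, -⟩ := ae1_par_exp hπ a
  show (if (true : Bool) = true then (if (false : Bool) = true then (1 : ℝ) else xs - ((nmDsEq π).b a + 0)) else a - 0) = xs - (a - 1)
  rw [if_pos rfl, if_neg (by simp), e5, add_zero]

/-- PORT (OWNER helper143, PHA) = `nm_rep` + `nm_A_uf`, with the slack `e` UNIFORM on the closed interval `[a0, a1]` of time roots (`a1 - 1 < xs`: the patch slack `xs - l(a, 0) ≥ xs - (a1 - 1) > 0`). -/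
theorem ae1_p_rep (hπ : π.E1) (hX : S.HasX) : ∃ K0 : ℝ, 1 ≤ K0 ∧ ∀ xs a0 a1 : ℝ, 0 < a0 → a0 ≤ a1 → a1 < 1 → a1 - 1 < xs → ∃ e : ℝ, 0 < e ∧
    ∀ a h B : ℝ, a0 ≤ a → a ≤ a1 → ∀ᶠ n in uf, NmRep (S.D n) π (ae1Rt π xs a h B) K0 e := by
  refine ⟨nmKr, by unfold nmKr; norm_num, fun xs a0 a1 h0 h01 h1 hx => ?_⟩
  refine ⟨(xs - (a1 - 1)) / 2, by linarith, fun a h B ha0 ha1 => ?_⟩
  obtain ⟨t0, ht0, H⟩ := nm_pha_rep_unif π hπ.val C0 1 (κ 1) ((xs - (a1 - 1)) / 2) (by linarith)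
  have hr := (ae1_rt_ok hπ 2 xs a h B ⟨by linarith, by linarith⟩ (by linarith) ∅ (by simp)).1
  filter_upwards [nm_me_fine_ev S 1 one_pos t0 ht0] with n hn
  refine H _ hr ?_ (S.D n) hn
  rw [ae1_p_sl hπ]
  linarith

/-- PORT (OWNER helper143, PHA) = `nm_tan_geo` + `nm_A_uf`, with `h0` UNIFORM on the closed interval `[a0, a1]` of time roots. -/
theorem ae1_p_geo (hπ : π.E1) (hX : S.HasX) : ∃ B : ℝ, 1 ≤ B ∧ ∀ xs a0 a1 : ℝ, 0 < a0 → a0 ≤ a1 → a1 < 1 → a1 - 1 < xs →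
    ∀ Q : Finset ℝ, (∀ q ∈ Q, 0 ≤ q ∧ q ≤ 3) → ∃ h0 : ℝ, 0 < h0 ∧ ∀ a h : ℝ, a0 ≤ a → a ≤ a1 → 0 < h → h ≤ h0 → ∀ acc : ℝ, 0 < acc →
      ∀ᶠ n in uf, ∃ dsp : ℝ → NmNm → NmNm → ItDsp, NmGeo (nmTan (S.D n) π (ae1Rt π xs a h B) dsp) (ae1Par π B) (ae1Pk Q) acc := by
  refine ⟨3, by norm_num, fun xs a0 a1 h0 h01 h1 hx Q hQ => ?_⟩
  refine ⟨min ((xs - (a1 - 1)) / 240) ((1 - a1) / 41), lt_min (by linarith) (by linarith), fun a h ha0 ha1 hh hh0 acc hacc => ?_⟩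
  have k1 : h ≤ (xs - (a1 - 1)) / 240 := hh0.trans (min_le_left _ _)
  have k2 : h ≤ (1 - a1) / 41 := hh0.trans (min_le_right _ _)
  obtain ⟨hr, hpk, hreg, hfit⟩ := ae1_rt_ok hπ 2 xs a h 3 ⟨by linarith, by linarith⟩ (by linarith) Q hQ
  have hc : (ae1Rt π xs a h 3).c π = 1 := by
    show (if (false : Bool) = true then π.q - π.J else π.c2) = 1
    rw [if_neg (by simp), hπ.c2]
  have hS : (ae1Rt π xs a h 3).Sm π (ae1Pk Q) := by
    refine ⟨fun l hl => ?_, (fun _ h => by cases h), (fun h => by cases h)⟩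
    rw [ae1_p_sl hπ, hc]
    show (2 + 1) * l * h ≤ (xs - (a - 1)) / 2
    have : l = 1 ∨ l = 40 := by simpa [ae1Pk] using hl
    rcases this with rfl | rfl <;> linarith
  have hA := nm_pha_geo_core π hπ.val C0 1 (κ 1) (ae1Rt π xs a h 3) hr (le_refl _) (ae1Pk Q) hpk hS (hfit hh (by linarith))
  filter_upwards [nm_me_uf S hX 1 one_pos _ hA acc hacc] with n hn
  exact ⟨_, hn _ hreg⟩

/-! ## B. flatness -/

/-- `HomP` depends only on the partitions -/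
theorem ae1_homp_congr (c0 : ℝ) {α β α' β' : ℕ → Type} (X : S.Obs α) (Y : S.Obs β) (X' : S.Obs α') (Y' : S.Obs β')
    (hY : ∀ n ω ω', Y n ω = Y n ω' ↔ Y' n ω = Y' n ω') (hX : ∀ n ω ω', X n ω = X n ω' ↔ X' n ω = X' n ω')
    (h : S.HomP c0 X Y) : S.HomP c0 X' Y' := by
  have e1 : S.HC X Y = S.HC X' Y' := by
    unfold NmSeq.HC
    congr 1
    funext n
    congr 1
    exact ent_entC_congr _ _ _ _ _ (fun ω ω' _ _ => hY n ω ω') (fun ω ω' _ _ _ => hX n ω ω')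
  have e2 : ∀ n ω, ((S.D n).P 1).surC (X n) (Y n) ω = ((S.D n).P 1).surC (X' n) (Y' n) ω := fun n ω =>
    ent_surC_congr _ _ _ _ _ ω (fun ω' _ => hY n ω' ω) (fun ω' _ _ => hX n ω' ω)
  intro e he
  filter_upwards [h e he] with n hn
  simpa only [e1, e2] using hn

/-- LEAF L-256-E1-FLAT.   `S.ats [x] n ω = [atq x ω]` is an injective relabelling of the observation: same fibres, same `surC`, same `entC`, same `HC`   (`NmAt.Ok`: `ae1_par_fam`). -/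
theorem ae1_flat_ang (hπ : π.E1) (c0 : ℝ) (Ds : Set ℝ) (h1 : (1 : ℝ) ∈ Ds) (hF : S.FlatP c0 Ds) (x a : ℝ) (ha : 0 ≤ a ∧ a ≤ 1) :
    S.HomP c0 (S.Xc x) (S.nm (ae1Q π) a 0) := by
  obtain ⟨f1, -, f3, -, -⟩ := ae1_par_fam hπ
  have h := hF [NmAt.Xc x] [NmAt.nm (ae1Q π) a 0]
    (fun y hy => by
      rw [List.mem_singleton] at hy
      subst hy
      exact ⟨(fun h => by cases h), trivial⟩)
    (fun y hy => by
      rw [List.mem_singleton] at hy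
      subst hy
      exact ⟨f1, by rw [f3]; exact h1, ha.1, by rw [f3]; exact ha.2, le_refl _⟩)
  refine ae1_homp_congr S c0 _ _ _ _ (fun n ω ω' => ?_) (fun n ω ω' => ?_) h
  · simp [NmSeq.ats, NmSeq.nm, SfDoc.ats, SfDoc.atq]
  · simp [NmSeq.ats, NmSeq.Xc, SfDoc.ats, SfDoc.atq]

/-- LEAF L-256-E1-FLAT.   the same for `[P]_xs` given `(y_0, t_a)`      (`L = [Pc]`, `L' = [y0, tc a]`) -/
theorem ae1_flat_P (hπ : π.E1) (c0 : ℝ) (Ds : Set ℝ) (h1 : (1 : ℝ) ∈ Ds) (hF : S.FlatP c0 Ds) (xs a : ℝ) :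
    S.HomP c0 (fun n => (S.D n).Pc π (nmDsEq π) xs) (S.pr2 S.y0 (S.tc a)) := by
  have f3 : (nmDsEq π).De = 1 := (ae1_par_fam hπ).2.2.1
  have h := hF [NmAt.Pc (nmDsEq π) xs] [NmAt.y0, NmAt.tc a]
    (fun y hy => by
      rw [List.mem_singleton] at hy
      subst hy
      exact ⟨(fun h => by cases h), by rw [f3]; exact h1, Or.inr rfl⟩)
    (fun y hy => by
      have : y = NmAt.y0 ∨ y = NmAt.tc a := by simpa using hy
      rcases this with rfl | rfl <;> trivial)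
  refine ae1_homp_congr S c0 _ _ _ _ (fun n ω ω' => ?_) (fun n ω ω' => ?_) h
  · simp [NmSeq.ats, NmSeq.pr2, NmSeq.y0, NmSeq.tc, SfDoc.ats, SfDoc.atq, FLaw.pair]
  · simp [NmSeq.ats, SfDoc.ats, SfDoc.atq]

/-- LEAF L-256-E1-SG.   **the success event of the derivative lists.**   `xs < p_*(a)` ⟹ `S.HP ds xs a = 0`  (`HP` is `≥ 0` and nondecreasing in the depth: `nm_HP_HM`, `nm_HM_basic`; the set of `pst` is nonempty: at the depth `-C0 - 2` the bin has `≤ 3` values, `Core.bdd`);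
`ae1_flat_P` at the tolerance `e`: off probability `s^(c0 e)` the score is `≤ e log(1/s)`;  uncharged rows have probability `0`;  lists: `ae1_k_nval` with `N = s^-e`. -/
theorem ae1_s_G (hπ : π.E1) (hX : S.HasX) (c0 : ℝ) (Ds : Set ℝ) (h1 : (1 : ℝ) ∈ Ds) (hF : S.FlatP c0 Ds) (xs a e : ℝ) (he : 0 < e) (ha : 0 < a ∧ a < 1)
    (hx : xs < S.pst (nmDsEq π) a) :
    ∀ᶠ n in uf, ((S.D n).P 1).pr (fun ω => ¬ (S.D n).ae1G π xs a e ω) ≤ (S.D n).s ^ (c0 * e) ∧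
      ((S.D n).P 1).NVal ((S.D n).ae1G π xs a e) ((S.D n).Pc π (nmDsEq π) xs) (pair (S.D n).y0 ((S.D n).tc a)) ((S.D n).s ^ (-e)) := by
  have hHP : S.HP (nmDsEq π) xs a = 0 := nm_me_HP_below S hX (nmDsEq π) (ae1_par_fam hπ).2.2.1 hx
  have hHC : S.HC (fun n => (S.D n).Pc π (nmDsEq π) xs) (S.pr2 S.y0 (S.tc a)) = 0 := hHP
  have hom := ae1_flat_P S hπ c0 Ds h1 hF xs a e he
  rw [hHC] at hom
  filter_upwards [hom, ae1_s_small S 1 one_pos] with n hn hs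
  have hl : 0 < (S.D n).lgs := by
    show 0 < lg (S.D n).s
    unfold lg
    exact Real.log_pos (by rw [one_div]; exact (one_lt_inv₀ hs.1).2 hs.2)
  have hlog : Real.log ((S.D n).s ^ (-e)) = e * (S.D n).lgs := by
    rw [Real.log_rpow hs.1]
    show _ = e * lg (S.D n).s
    unfold lg
    rw [one_div, Real.log_inv]
    ring
  constructor
  · refine le_trans (ent_pr_mono _ fun ω hω hG => ?_) hn
    have h2 : e * (S.D n).lgs < ((S.D n).P 1).surC ((S.D n).Pc π (nmDsEq π) xs) (pair (S.D n).y0 ((S.D n).tc a)) ω := by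
      by_contra hcon
      exact hG ⟨hω, not_lt.1 hcon⟩
    rw [sub_zero]
    refine lt_of_lt_of_le ?_ (le_abs_self _)
    rw [lt_div_iff₀ hl]
    exact h2
  · have hk := ae1_k_nval ((S.D n).P 1) ((S.D n).Pc π (nmDsEq π) xs) (pair (S.D n).y0 ((S.D n).tc a)) ((S.D n).s ^ (-e))
      (Real.rpow_pos_of_pos hs.1 _)
    intro ω₀
    obtain ⟨T, hT, hT2⟩ := hk ω₀
    refine ⟨T, hT, fun ω hω hG hY => hT2 ω hω ?_ hY⟩
    rw [hlog]
    exact hG.2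

/-! ## C. scores of the tangent datum -/

/-- the dyadic level of the tangent grid is the level of the absolute grid -/
theorem ae1_an_lev {s h z : ℝ} (h0 : 0 < s) (h1 : s < 1) (hh : 0 < h) (hz : 0 ≤ z) : nmLev s (z * h) = ((tlev (s ^ h) z : ℕ) : ℤ) := by
  have hlb : 0 < Real.logb 2 (1 / s) := Real.logb_pos (by norm_num) (by rw [one_div]; exact (one_lt_inv₀ h0).2 h1)
  have e1 : Real.logb 2 (1 / s ^ h) = h * Real.logb 2 (1 / s) := by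
    rw [one_div, one_div, ← Real.inv_rpow h0.le, Real.logb_rpow_eq_mul_logb_of_pos (inv_pos.2 h0)]
  unfold nmLev tlev
  rw [e1, Int.natCast_ceil_eq_ceil (by positivity)]
  congr 1
  ring

/-- `2^level ≤ 2 s^(-zh)` -/
theorem ae1_an_pow {s h z : ℝ} (h0 : 0 < s) (h1 : s < 1) (hh : 0 < h) (hz : 0 ≤ z) : (2 : ℝ) ^ (tlev (s ^ h) z) ≤ 2 * s ^ (-(z * h)) := by
  have hlb : 0 < Real.logb 2 (1 / s) := Real.logb_pos (by norm_num) (by rw [one_div]; exact (one_lt_inv₀ h0).2 h1)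
  have e1 : Real.logb 2 (1 / s ^ h) = h * Real.logb 2 (1 / s) := by
    rw [one_div, one_div, ← Real.inv_rpow h0.le, Real.logb_rpow_eq_mul_logb_of_pos (inv_pos.2 h0)]
  have h2 : ((tlev (s ^ h) z : ℕ) : ℝ) ≤ z * (h * Real.logb 2 (1 / s)) + 1 := by
    unfold tlev
    rw [e1]
    exact (Nat.ceil_lt_add_one (by positivity)).le
  calc (2 : ℝ) ^ (tlev (s ^ h) z) = (2 : ℝ) ^ ((tlev (s ^ h) z : ℕ) : ℝ) := (Real.rpow_natCast _ _).symm
    _ ≤ (2 : ℝ) ^ (z * (h * Real.logb 2 (1 / s)) + 1) := Real.rpow_le_rpow_of_exponent_le (by norm_num) h2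
    _ = 2 * s ^ (-(z * h)) := by
        rw [Real.rpow_add (by norm_num), Real.rpow_one, mul_comm]
        congr 1
        have : z * (h * Real.logb 2 (1 / s)) = Real.logb 2 (1 / s) * (z * h) := by ring
        rw [this, Real.rpow_mul (by norm_num), Real.rpow_logb (by norm_num) (by norm_num) (by positivity), one_div, Real.inv_rpow h0.le,
          Real.rpow_neg h0.le]

/-- the angular cell of the absolute grid in the form of `ltk_nval_close` -/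
theorem ae1_an_Xc (D : SfDoc) {h z : ℝ} (h0 : 0 < D.s) (h1 : D.s < 1) (hh : 0 < h) (hz : 0 ≤ z) :
    D.Xc (z * h) = fun ω => ⌊(D.ray 1 ω).X * 2 ^ (tlev (D.s ^ h) z)⌋ := by
  funext ω
  show ⌊(D.ray 1 ω).X * (2 : ℝ) ^ nmLev D.s (z * h)⌋ = _
  rw [ae1_an_lev h0 h1 hh hz, zpow_natCast]

/-- the `X`-entry of `NmRep.close` at the boundary root -/
theorem ae1_an_close (D : SfDoc) (π : SfPar) {K0 e xs a h B : ℝ} (hR : NmRep D π (ae1Rt π xs a h B) K0 e) (dsp : ℝ → NmNm → NmNm → ItDsp) (ω : D.Row 1) (hω : (D.P 1).p ω ≠ 0) :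
    |(D.ray 1 ω).X - ((D.cs π (ae1Rt π xs a h B) ω).X : ℝ) - ((nmTan D π (ae1Rt π xs a h B) dsp).F ω).X| ≤ D.s ^ e := by
  have h1 := hR.close ω hω
  have h2 : |((D.raw π (ae1Rt π xs a h B).q.ds ω).phase D.s π (ae1Rt π xs a h B).q (ae1Rt π xs a h B).a (ae1Rt π xs a h B).v
      (!(ae1Rt π xs a h B).σ.lin) (D.cs π (ae1Rt π xs a h B) ω)).X
      - (D.fst π (ae1Rt π xs a h B) (D.side π (ae1Rt π xs a h B).q (ae1Rt π xs a h B).σ (ae1Rt π xs a h B).a ω)).X| ≤ D.s ^ e :=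
    le_trans ((le_max_left _ _).trans ((le_max_left _ _).trans (le_max_left _ _))) h1
  have e1 : ((D.raw π (ae1Rt π xs a h B).q.ds ω).phase D.s π (ae1Rt π xs a h B).q (ae1Rt π xs a h B).a (ae1Rt π xs a h B).v
      (!(ae1Rt π xs a h B).σ.lin) (D.cs π (ae1Rt π xs a h B) ω)).X = (D.ray 1 ω).X - ((D.cs π (ae1Rt π xs a h B) ω).X : ℝ) := by
    show ((D.ray 1 ω).X - ((D.cs π (ae1Rt π xs a h B) ω).X : ℝ) / (2 : ℝ) ^ nmLev D.s 0) / D.s ^ (0 : ℝ) = _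
    have : nmLev D.s 0 = 0 := by unfold nmLev; simp
    rw [this, zpow_zero, div_one, Real.rpow_zero, div_one]
  rw [e1] at h2
  exact h2

/-- `(X^(zh), C_*)` reads `X_z` and `(X_z, C_*)` reads `X^(zh)` -/
theorem ae1_an_lists (D : SfDoc) (π : SfPar) {K0 e xs a h B z : ℝ} (h0 : 0 < D.s) (h1 : D.s < 1) (hh : 0 < h) (hz : 0 ≤ z) (hR : NmRep D π (ae1Rt π xs a h B) K0 e)
    (hsm : 4 * D.s ^ (e - z * h) ≤ 1) (dsp : ℝ → NmNm → NmNm → ItDsp) :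
    (D.P 1).NVal (fun _ => True) ((nmTan D π (ae1Rt π xs a h B) dsp).Xn z) (pair (D.Xc (z * h)) (D.cs π (ae1Rt π xs a h B))) 4 ∧
    (D.P 1).NVal (fun _ => True) (D.Xc (z * h)) (pair ((nmTan D π (ae1Rt π xs a h B) dsp).Xn z) (D.cs π (ae1Rt π xs a h B))) 4 := by
  obtain ⟨m, hm⟩ : ∃ m, m = tlev (D.s ^ h) z := ⟨_, rfl⟩
  have hp : (0 : ℝ) < 2 ^ m := by positivity
  have hpow : (2 : ℝ) ^ m ≤ 2 * D.s ^ (-(z * h)) := hm ▸ ae1_an_pow h0 h1 hh hz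
  have hse : 0 < D.s ^ e := Real.rpow_pos_of_pos h0 _
  have herr : 2 * D.s ^ e * 2 ^ m ≤ 1 := by
    calc 2 * D.s ^ e * 2 ^ m ≤ 2 * D.s ^ e * (2 * D.s ^ (-(z * h))) := mul_le_mul_of_nonneg_left hpow (by positivity)
      _ = 4 * D.s ^ (e - z * h) := by
          rw [sub_eq_add_neg, Real.rpow_add h0]
          ring
      _ ≤ 1 := hsm
  have hR0 : (0 : ℝ) ≤ 1 / 2 ^ m + 2 * D.s ^ e := by positivity
  have hN : (1 / 2 ^ m + 2 * D.s ^ e) * 2 ^ m + 2 ≤ (4 : ℝ) := by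
    have : (1 / 2 ^ m + 2 * D.s ^ e) * 2 ^ m = 1 + 2 * D.s ^ e * 2 ^ m := by
      field_simp
    rw [this]
    linarith
  -- two reals in the same cell
  have hcell : ∀ u v : ℝ, ⌊u * 2 ^ m⌋ = ⌊v * 2 ^ m⌋ → |u - v| ≤ 1 / 2 ^ m := fun u v huv => by
    have := (Int.abs_sub_lt_one_of_floor_eq_floor huv).le
    rw [← sub_mul, abs_mul, abs_of_pos hp] at this
    rw [le_div_iff₀ hp]
    exact this
  have hXc := ae1_an_Xc D h0 h1 hh hz
  rw [← hm] at hXc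
  have hXn : (nmTan D π (ae1Rt π xs a h B) dsp).Xn z = fun ω => ⌊((nmTan D π (ae1Rt π xs a h B) dsp).F ω).X * 2 ^ m⌋ := by
    funext ω
    rw [hm]
    rfl
  constructor
  · rw [hXn]
    refine ltk_nval_mono _ (ltk_nval_close (D.P 1) (fun _ => True) (pair (D.Xc (z * h)) (D.cs π (ae1Rt π xs a h B)))
      (fun ω => ((nmTan D π (ae1Rt π xs a h B) dsp).F ω).X) m hR0 ?_) (fun _ h => h) (fun _ _ h => h) ⟨id, fun _ => rfl⟩ hN
    intro ω ω' hω hω' _ _ hA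
    have a1 : D.Xc (z * h) ω = D.Xc (z * h) ω' := congrArg Prod.fst hA
    have a2 : D.cs π (ae1Rt π xs a h B) ω = D.cs π (ae1Rt π xs a h B) ω' := congrArg Prod.snd hA
    rw [hXc] at a1
    have b1 := abs_le.1 (hcell _ _ a1)
    have b2 := abs_le.1 (ae1_an_close D π hR dsp ω hω)
    have b3 := abs_le.1 (ae1_an_close D π hR dsp ω' hω')
    rw [a2] at b2
    rw [abs_le]
    constructor <;> linarith [b1.1, b1.2, b2.1, b2.2, b3.1, b3.2]
  · rw [hXc]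
    refine ltk_nval_mono _ (ltk_nval_close (D.P 1) (fun _ => True) (pair ((nmTan D π (ae1Rt π xs a h B) dsp).Xn z) (D.cs π (ae1Rt π xs a h B)))
      (fun ω => (D.ray 1 ω).X) m hR0 ?_) (fun _ h => h) (fun _ _ h => h) ⟨id, fun _ => rfl⟩ hN
    intro ω ω' hω hω' _ _ hA
    have a1 : (nmTan D π (ae1Rt π xs a h B) dsp).Xn z ω = (nmTan D π (ae1Rt π xs a h B) dsp).Xn z ω' := congrArg Prod.fst hA
    have a2 : D.cs π (ae1Rt π xs a h B) ω = D.cs π (ae1Rt π xs a h B) ω' := congrArg Prod.snd hA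
    rw [hXn] at a1
    have b1 := abs_le.1 (hcell _ _ a1)
    have b2 := abs_le.1 (ae1_an_close D π hR dsp ω hω)
    have b3 := abs_le.1 (ae1_an_close D π hR dsp ω' hω')
    rw [a2] at b2
    rw [abs_le]
    constructor <;> linarith [b1.1, b1.2, b2.1, b2.2, b3.1, b3.2]

/-- `L = h log(1/s)` -/
theorem ae1_an_L (D : SfDoc) (π : SfPar) {xs a h B : ℝ} (h0 : 0 < D.s) (dsp : ℝ → NmNm → NmNm → ItDsp) : (nmTan D π (ae1Rt π xs a h B) dsp).L = h * D.lgs := by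
  show lg (D.s ^ h) = h * lg D.s
  unfold lg
  rw [one_div, one_div, Real.log_inv, Real.log_inv, Real.log_rpow h0]
  ring

/-- **two-sided angular score on one configuration** -/
theorem ae1_an_two (D : SfDoc) (π : SfPar) {K0 e xs a h B z τ1 u ε0 : ℝ} (h0 : 0 < D.s) (h1 : D.s < 1) (hh : 0 < h) (hz : 0 ≤ z) (hK0 : 1 ≤ K0)
    (hR : NmRep D π (ae1Rt π xs a h B) K0 e) (hsm : 4 * D.s ^ (e - z * h) ≤ 1)
    (hflat : (D.P 1).pr (fun ω => τ1 * h / 2 < |(D.P 1).surC (D.Xc (z * h)) (D.nm π (ae1Q π) a 0) ω / D.lgs - u|) ≤ ε0)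
    (hlog : Real.log (4 * K0 ^ 2) ≤ τ1 * (h * D.lgs) / 8) (dsp : ℝ → NmNm → NmNm → ItDsp) :
    (D.P 1).pr (fun ω => τ1 * (nmTan D π (ae1Rt π xs a h B) dsp).L
        < |(D.P 1).surC ((nmTan D π (ae1Rt π xs a h B) dsp).Xn z) (nmTan D π (ae1Rt π xs a h B) dsp).Cs ω
            - u / h * (nmTan D π (ae1Rt π xs a h B) dsp).L|) ≤ ε0 + 6 * Real.exp (-(τ1 * (h * D.lgs) / 8)) := by
  obtain ⟨L1, L2⟩ := ae1_an_lists D π h0 h1 hh hz hR hsm dsp
  have hK : 0 < K0 := by linarith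
  have hl : 0 < D.lgs := by
    show 0 < lg D.s
    unfold lg
    exact Real.log_pos (by rw [one_div]; exact (one_lt_inv₀ h0).2 h1)
  rw [ae1_an_L D π h0 dsp]
  obtain ⟨X, hX⟩ : ∃ X, X = (nmTan D π (ae1Rt π xs a h B) dsp).Xn z := ⟨_, rfl⟩
  obtain ⟨X', hX'⟩ : ∃ X', X' = D.Xc (z * h) := ⟨_, rfl⟩
  obtain ⟨Y', hY'⟩ : ∃ Y', Y' = D.nm π (ae1Q π) a 0 := ⟨_, rfl⟩
  obtain ⟨C, hC⟩ : ∃ C, C = D.cs π (ae1Rt π xs a h B) := ⟨_, rfl⟩
  have hCs : (nmTan D π (ae1Rt π xs a h B) dsp).Cs = C := hC.symm ▸ rfl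
  have rep1 : (D.P 1).NVal (fun _ => True) Y' C K0 := by rw [hY', hC]; exact hR.rep1
  have rep2 : (D.P 1).NVal (fun _ => True) C Y' K0 := by rw [hY', hC]; exact hR.rep2
  rw [hCs, ← hX]
  rw [← hX, ← hX', ← hC] at L1 L2
  rw [← hX', ← hY'] at hflat
  obtain ⟨t, ht⟩ : ∃ t, t = τ1 * (h * D.lgs) / 8 := ⟨_, rfl⟩
  rw [← ht] at hlog ⊢
  have hU1 : (D.P 1).NVal (fun _ => True) X' (pair X Y') (K0 * 4) := by
    have c1 : (D.P 1).NVal (fun _ => True) C (pair X Y') K0 :=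
      ltk_nval_mono _ rep2 (fun _ h => h) (fun _ _ h => congrArg Prod.snd h) ⟨id, fun _ => rfl⟩ le_rfl
    have c2 : (D.P 1).NVal (fun _ => True) X' (pair C (pair X Y')) 4 :=
      ltk_nval_mono _ L2 (fun _ h => h)
        (fun ω ω' h => Prod.ext (congrArg (fun p => p.2.1) h) (congrArg Prod.fst h)) ⟨id, fun _ => rfl⟩ le_rfl
    exact ltk_nval_mono _ (ltk_nval_comp (D.P 1) (fun _ => True) (pair X Y') C X' (by norm_num) c1 c2) (fun _ h => h) (fun _ _ h => h)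
      ⟨Prod.fst, fun _ => rfl⟩ le_rfl
  have T1 := ltk_transfer (D.P 1) (fun _ => True) X X' C Y' hK (by positivity) rep2 hU1 t
  have T2 := ltk_transfer (D.P 1) (fun _ => True) X' X Y' C hK (by norm_num : (0 : ℝ) < 4) rep1 L1 t
  have hsub : (D.P 1).pr (fun ω => τ1 * (h * D.lgs) < |(D.P 1).surC X C ω - u / h * (h * D.lgs)|) ≤
      (D.P 1).pr (fun ω => (τ1 * h / 2 < |(D.P 1).surC X' Y' ω / D.lgs - u| ∨
        (True ∧ (D.P 1).surC X C ω < (D.P 1).surC X' Y' ω - Real.log K0 - Real.log (K0 * 4) - 3 * t)) ∨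
        (True ∧ (D.P 1).surC X' Y' ω < (D.P 1).surC X C ω - Real.log K0 - Real.log 4 - 3 * t)) := by
    refine ent_pr_mono _ fun ω _ hω => ?_
    by_contra hno
    push Not at hno
    obtain ⟨⟨n1, n2⟩, n3⟩ := hno
    have n2' := n2 trivial
    have n3' := n3 trivial
    have e1 : u / h * (h * D.lgs) = u * D.lgs := by field_simp
    rw [e1] at hω
    have e2 : (D.P 1).surC X' Y' ω / D.lgs - u = ((D.P 1).surC X' Y' ω - u * D.lgs) / D.lgs := by field_simp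
    rw [e2, abs_div, abs_of_pos hl, div_le_iff₀ hl] at n1
    have l1 : Real.log K0 + Real.log (K0 * 4) = Real.log (4 * K0 ^ 2) := by
      rw [← Real.log_mul hK.ne' (by positivity)]
      congr 1
      ring
    have l2 : Real.log K0 + Real.log 4 ≤ Real.log (4 * K0 ^ 2) := by
      rw [← Real.log_mul hK.ne' (by norm_num)]
      exact Real.log_le_log (by positivity) (by nlinarith)
    have n1' := abs_le.1 n1
    have : |(D.P 1).surC X C ω - u * D.lgs| ≤ τ1 * (h * D.lgs) := by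
      rw [abs_le]
      constructor <;> nlinarith [n1'.1, n1'.2]
    linarith
  refine hsub.trans ((ent_pr_or_le _ _ _).trans ?_)
  have := ent_pr_or_le (D.P 1) (fun ω => τ1 * h / 2 < |(D.P 1).surC X' Y' ω / D.lgs - u|)
    (fun ω => True ∧ (D.P 1).surC X C ω < (D.P 1).surC X' Y' ω - Real.log K0 - Real.log (K0 * 4) - 3 * t)
  linarith

/-- **lower angular score given the child name at `a + 40 h`, on one configuration** -/
theorem ae1_an_low (D : SfDoc) (π : SfPar) {K0 e xs a h B τ1 u u' ε0 : ℝ} (hq : (ae1Q π).Ok π) (h0 : 0 < D.s) (h1 : D.s < 1) (hh : 0 < h) (hK0 : 1 ≤ K0)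
    (hR : NmRep D π (ae1Rt π xs a h B) K0 e) (hsm : 4 * D.s ^ (e - 6 * h) ≤ 1)
    (hflat : (D.P 1).pr (fun ω => τ1 * h / 4 < |(D.P 1).surC (D.Xc (6 * h)) (D.nm π (ae1Q π) (a + 40 * h) 0) ω / D.lgs - u'|) ≤ ε0)
    (hu : u - u' ≤ τ1 * h / 4) (hlog : Real.log (4 * (nmK0 * K0) ^ 2) ≤ τ1 * (h * D.lgs) / 8) (dsp : ℝ → NmNm → NmNm → ItDsp) :
    (D.P 1).pr (fun ω => (D.P 1).surC ((nmTan D π (ae1Rt π xs a h B) dsp).Xn 6)
          (pair ((nmTan D π (ae1Rt π xs a h B) dsp).O 40) (nmTan D π (ae1Rt π xs a h B) dsp).Cs) ω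
        < (u / h - τ1) * (nmTan D π (ae1Rt π xs a h B) dsp).L) ≤ ε0 + 3 * Real.exp (-(τ1 * (h * D.lgs) / 8)) := by
  obtain ⟨-, L2⟩ := ae1_an_lists D π h0 h1 hh (by norm_num : (0 : ℝ) ≤ 6) hR hsm dsp
  have hK : 0 < K0 := by linarith
  have hnK : (0 : ℝ) < nmK0 := by unfold nmK0; positivity
  have hl : 0 < D.lgs := by
    show 0 < lg D.s
    unfold lg
    exact Real.log_pos (by rw [one_div]; exact (one_lt_inv₀ h0).2 h1)
  rw [ae1_an_L D π h0 dsp]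
  obtain ⟨X, hX⟩ : ∃ X, X = (nmTan D π (ae1Rt π xs a h B) dsp).Xn 6 := ⟨_, rfl⟩
  obtain ⟨X', hX'⟩ : ∃ X', X' = D.Xc (6 * h) := ⟨_, rfl⟩
  obtain ⟨Y0, hY0⟩ : ∃ Y0, Y0 = D.nm π (ae1Q π) a 0 := ⟨_, rfl⟩
  obtain ⟨Y', hY'⟩ : ∃ Y', Y' = D.nm π (ae1Q π) (a + 40 * h) 0 := ⟨_, rfl⟩
  obtain ⟨C, hC⟩ : ∃ C, C = D.cs π (ae1Rt π xs a h B) := ⟨_, rfl⟩
  have hCs : (nmTan D π (ae1Rt π xs a h B) dsp).Cs = C := hC.symm ▸ rfl
  have hO : (nmTan D π (ae1Rt π xs a h B) dsp).O 40 = pair Y' C := by rw [hY', hC]; rfl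
  have rep2 : (D.P 1).NVal (fun _ => True) C Y0 K0 := by rw [hY0, hC]; exact hR.rep2
  have hup : (D.P 1).NVal (fun _ => True) Y0 Y' nmK0 := by
    rw [hY0, hY']
    exact nm_nval_up D π hq h0 h1 (by nlinarith) le_rfl
  rw [hCs, hO, ← hX]
  rw [← hX, ← hX', ← hC] at L2
  rw [← hX', ← hY'] at hflat
  obtain ⟨t, ht⟩ : ∃ t, t = τ1 * (h * D.lgs) / 8 := ⟨_, rfl⟩
  rw [← ht] at hlog ⊢
  -- the child name reads `C_*`
  have hCY : (D.P 1).NVal (fun _ => True) C Y' (nmK0 * K0) := by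
    have c2 : (D.P 1).NVal (fun _ => True) C (pair Y0 Y') K0 :=
      ltk_nval_mono _ rep2 (fun _ h => h) (fun _ _ h => congrArg Prod.fst h) ⟨id, fun _ => rfl⟩ le_rfl
    exact ltk_nval_mono _ (ltk_nval_comp (D.P 1) (fun _ => True) Y' Y0 C hK.le hup c2) (fun _ h => h) (fun _ _ h => h)
      ⟨Prod.fst, fun _ => rfl⟩ le_rfl
  have hY : (D.P 1).NVal (fun _ => True) (pair (pair Y' C) C) Y' (nmK0 * K0) := by
    intro ω₀
    obtain ⟨T, hT, hmem⟩ := hCY ω₀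
    refine ⟨T.image (fun c => ((Y' ω₀, c), c)), ?_, fun ω hω hG hA => ?_⟩
    · have : ((T.image (fun c => ((Y' ω₀, c), c))).card : ℝ) ≤ (T.card : ℝ) := by exact_mod_cast Finset.card_image_le
      exact this.trans hT
    · refine Finset.mem_image.2 ⟨C ω, hmem ω hω hG hA, ?_⟩
      show ((Y' ω₀, C ω), C ω) = ((Y' ω, C ω), C ω)
      rw [hA]
  have hU1 : (D.P 1).NVal (fun _ => True) X' (pair X Y') (nmK0 * K0 * 4) := by
    have c1 : (D.P 1).NVal (fun _ => True) C (pair X Y') (nmK0 * K0) :=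
      ltk_nval_mono _ hCY (fun _ h => h) (fun _ _ h => congrArg Prod.snd h) ⟨id, fun _ => rfl⟩ le_rfl
    have c2 : (D.P 1).NVal (fun _ => True) X' (pair C (pair X Y')) 4 :=
      ltk_nval_mono _ L2 (fun _ h => h)
        (fun ω ω' h => Prod.ext (congrArg (fun p => p.2.1) h) (congrArg Prod.fst h)) ⟨id, fun _ => rfl⟩ le_rfl
    exact ltk_nval_mono _ (ltk_nval_comp (D.P 1) (fun _ => True) (pair X Y') C X' (by norm_num) c1 c2) (fun _ h => h) (fun _ _ h => h)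
      ⟨Prod.fst, fun _ => rfl⟩ le_rfl
  have T1 := ltk_transfer (D.P 1) (fun _ => True) X X' (pair (pair Y' C) C) Y' (by positivity) (by positivity) hY hU1 t
  have hsub : (D.P 1).pr (fun ω => (D.P 1).surC X (pair (pair Y' C) C) ω < (u / h - τ1) * (h * D.lgs)) ≤
      (D.P 1).pr (fun ω => τ1 * h / 4 < |(D.P 1).surC X' Y' ω / D.lgs - u'| ∨
        (True ∧ (D.P 1).surC X (pair (pair Y' C) C) ω < (D.P 1).surC X' Y' ω - Real.log (nmK0 * K0) - Real.log (nmK0 * K0 * 4) - 3 * t)) := by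
    refine ent_pr_mono _ fun ω _ hω => ?_
    by_contra hno
    push Not at hno
    obtain ⟨n1, n2⟩ := hno
    have n2' := n2 trivial
    have e1 : (u / h - τ1) * (h * D.lgs) = u * D.lgs - τ1 * (h * D.lgs) := by field_simp
    rw [e1] at hω
    have e2 : (D.P 1).surC X' Y' ω / D.lgs - u' = ((D.P 1).surC X' Y' ω - u' * D.lgs) / D.lgs := by field_simp
    rw [e2, abs_div, abs_of_pos hl, div_le_iff₀ hl] at n1
    have l1 : Real.log (nmK0 * K0) + Real.log (nmK0 * K0 * 4) = Real.log (4 * (nmK0 * K0) ^ 2) := by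
      rw [← Real.log_mul (by positivity) (by positivity)]
      congr 1
      ring
    have n1' := abs_le.1 n1
    have hu' : (u - u') * D.lgs ≤ τ1 * h / 4 * D.lgs := mul_le_mul_of_nonneg_right hu hl.le
    nlinarith [n1'.1]
  refine hsub.trans ((ent_pr_or_le _ _ _).trans ?_)
  linarith

/-- numerics of the failure probabilities: `δ^(c0 τ1/4) + 6 δ^(τ1/8) ≤ δ^E1` -/
theorem ae1_an_num {s h c0 τ1 E1 lgs : ℝ} (h0 : 0 < s) (h1 : s < 1) (hh : 0 < h) (hc0 : 0 < c0) (hτ1 : 0 < τ1) (hE1 : E1 ≤ min c0 1 * τ1 / 16)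
    (hlgs : lgs = lg s) (h7 : s ^ (h * (min c0 1 * τ1 / 16)) ≤ 1 / 7) :
    s ^ (c0 * (τ1 * h / 4)) + 6 * Real.exp (-(τ1 * (h * lgs) / 8)) ≤ (s ^ h) ^ E1 := by
  obtain ⟨m, hm⟩ : ∃ m, m = min c0 1 * τ1 / 16 := ⟨_, rfl⟩
  rw [← hm] at hE1 h7
  have hmin : 0 < min c0 1 := lt_min hc0 one_pos
  have hm0 : 0 < m := by rw [hm]; positivity
  have hx : 0 < s ^ (h * m) := Real.rpow_pos_of_pos h0 _
  have a1 : s ^ (c0 * (τ1 * h / 4)) ≤ s ^ (h * m) * s ^ (h * m) := by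
    rw [← Real.rpow_add h0]
    refine Real.rpow_le_rpow_of_exponent_ge h0 h1.le ?_
    have : min c0 1 ≤ c0 := min_le_left _ _
    have h2 : min c0 1 * (τ1 * h) ≤ c0 * (τ1 * h) := mul_le_mul_of_nonneg_right this (by positivity)
    rw [hm]
    nlinarith
  have a2 : Real.exp (-(τ1 * (h * lgs) / 8)) ≤ s ^ (h * m) * s ^ (h * m) := by
    rw [← Real.rpow_add h0, Real.rpow_def_of_pos h0]
    refine Real.exp_le_exp.2 ?_
    have hls : Real.log s < 0 := Real.log_neg h0 h1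
    have e : lgs = -Real.log s := by rw [hlgs]; unfold lg; rw [one_div, Real.log_inv]
    rw [e]
    have : min c0 1 ≤ 1 := min_le_right _ _
    have h2 : min c0 1 * (τ1 * h) ≤ 1 * (τ1 * h) := mul_le_mul_of_nonneg_right this (by positivity)
    have h3 : h * m + h * m ≤ τ1 * h / 8 := by rw [hm]; nlinarith
    nlinarith
  have a3 : s ^ (h * m) ≤ (s ^ h) ^ E1 := by
    rw [← Real.rpow_mul h0.le]
    exact Real.rpow_le_rpow_of_exponent_ge h0 h1.le (mul_le_mul_of_nonneg_left hE1 hh.le)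
  have a4 : 7 * (s ^ (h * m) * s ^ (h * m)) ≤ s ^ (h * m) := by nlinarith
  linarith

/-- eventually `log N ≤ c log(1/s)` -/
theorem ae1_an_log_small (N c : ℝ) (hN : 0 < N) (hc : 0 < c) : ∀ᶠ n in uf, Real.log N ≤ c * (S.D n).lgs := by
  filter_upwards [nm_me_pow_small S hc (inv_pos.2 hN), ae1_s_small S 1 one_pos] with n hn hs
  have := Real.log_le_log (Real.rpow_pos_of_pos hs.1 _) hn
  rw [Real.log_rpow hs.1, Real.log_inv] at this
  show _ ≤ c * lg (S.D n).s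
  unfold lg
  rw [one_div, Real.log_inv]
  linarith

/-- LEAF L-256-E1-ANG.   **two-sided angular scores, power-small failure.**   `M z = U(z h; a, 0)/h`.
`ae1_flat_ang` at the tolerance `τ1 h/2`: failure `s^(c0 τ1 h/2) = δ^(c0 τ1/2)`.   Lists on the support: `NmRep.rep1`, `rep2` (`K0`);  `NmRep.close` (`X`-entry, `v = 0`): `|X_ω - xc(C_*) - F.X| ≤ s^e`, `s^e ≤ s^(6h)/8` for small `s`,
`tlev δ z = nmLev s (z h)`: `X_z` has `≤ 3` values given `(X^(zh), C_*)`, `X^(zh)` has `≤ 3 K0` values given `(X_z, 𝒞(a,0))`.   `ltk_transfer` in both directions with `t = τ1 L/8`: failure `6 δ^(τ1/8)`, loss `log(3 K0²) + 3 τ1 L/8 ≤ τ1 L/2`. -/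
theorem ae1_s_ang (hπ : π.E1) (c0 : ℝ) (hc0 : 0 < c0) (Ds : Set ℝ) (h1 : (1 : ℝ) ∈ Ds) (hF : S.FlatP c0 Ds) (K0 e xs a h B z τ1 E1 : ℝ) (hK0 : 1 ≤ K0)
    (ha : 0 < a ∧ a < 1) (hh : 0 < h) (hz : 0 ≤ z ∧ z ≤ 6) (hze : 6 * h < e) (hτ1 : 0 < τ1) (hE1 : E1 ≤ min c0 1 * τ1 / 16) :
    ∀ᶠ n in uf, NmRep (S.D n) π (ae1Rt π xs a h B) K0 e → ∀ dsp : ℝ → NmNm → NmNm → ItDsp,
      ((S.D n).P 1).pr (fun ω => τ1 * (nmTan (S.D n) π (ae1Rt π xs a h B) dsp).L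
        < |((S.D n).P 1).surC ((nmTan (S.D n) π (ae1Rt π xs a h B) dsp).Xn z) (nmTan (S.D n) π (ae1Rt π xs a h B) dsp).Cs ω
            - S.U (ae1Q π) (z * h) a 0 / h * (nmTan (S.D n) π (ae1Rt π xs a h B) dsp).L|) ≤ ((S.D n).s ^ h) ^ E1 := by
  have hmin : 0 < min c0 1 := lt_min hc0 one_pos
  have hom := ae1_flat_ang S hπ c0 Ds h1 hF (z * h) a ⟨ha.1.le, ha.2.le⟩ (τ1 * h / 2) (by positivity)
  filter_upwards [hom, ae1_s_small S 1 one_pos, nm_me_pow_small S (sub_pos.2 hze) (by norm_num : (0 : ℝ) < 1 / 4),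
    ae1_an_log_small S (4 * K0 ^ 2) (τ1 * h / 8) (by positivity) (by positivity),
    nm_me_pow_small S (by positivity : 0 < h * (min c0 1 * τ1 / 16)) (by norm_num : (0 : ℝ) < 1 / 7)] with n hn hs hsm hlog h7 hR dsp
  have hsm' : 4 * (S.D n).s ^ (e - z * h) ≤ 1 := by
    have : (S.D n).s ^ (e - z * h) ≤ (S.D n).s ^ (e - 6 * h) :=
      Real.rpow_le_rpow_of_exponent_ge hs.1 hs.2.le (by nlinarith [hz.2])
    linarith
  have key := ae1_an_two (S.D n) π hs.1 hs.2 hh hz.1 hK0 hR hsm' (u := S.U (ae1Q π) (z * h) a 0) (τ1 := τ1) hn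
    (by have : τ1 * (h * (S.D n).lgs) / 8 = τ1 * h / 8 * (S.D n).lgs := by ring
        rw [this]; exact hlog) dsp
  refine key.trans ?_
  have hnum := ae1_an_num hs.1 hs.2 hh hc0 hτ1 hE1 (rfl : (S.D n).lgs = lg (S.D n).s) h7
  refine le_trans ?_ hnum
  have : (S.D n).s ^ (c0 * (τ1 * h / 2)) ≤ (S.D n).s ^ (c0 * (τ1 * h / 4)) :=
    Real.rpow_le_rpow_of_exponent_ge hs.1 hs.2.le (by nlinarith [mul_pos hτ1 hh])
  linarith

/-- LEAF L-256-E1-ANG.   **lower angular score given the child at `l = 40`.**   `ae1_flat_ang` at `(a + 40 h, 0)`, tolerance `τ1 h/4`;  `hng`;  `ltk_transfer` with `T = X_6`, `Y = (O 40, C_*)`, `U = X^(6h)`, `Y' = 𝒞(a+40h, 0)`: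
`Y` has `≤ nmK0 K0` values given `Y'` (`nm_nval_up`, `rep2`), `U` has `≤ 3 nmK0 K0` values given `(T, Y')`. -/
theorem ae1_s_ang40 (hπ : π.E1) (c0 : ℝ) (hc0 : 0 < c0) (Ds : Set ℝ) (h1 : (1 : ℝ) ∈ Ds) (hF : S.FlatP c0 Ds) (K0 e xs a h B τ1 E1 : ℝ) (hK0 : 1 ≤ K0)
    (ha : 0 < a ∧ a + 40 * h < 1) (hh : 0 < h) (hze : 6 * h < e) (hτ1 : 0 < τ1) (hE1 : E1 ≤ min c0 1 * τ1 / 16)
    (hng : S.U (ae1Q π) (6 * h) a 0 - S.U (ae1Q π) (6 * h) (a + 40 * h) 0 ≤ τ1 * h / 4) :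
    ∀ᶠ n in uf, NmRep (S.D n) π (ae1Rt π xs a h B) K0 e → ∀ dsp : ℝ → NmNm → NmNm → ItDsp,
      ((S.D n).P 1).pr (fun ω => ((S.D n).P 1).surC ((nmTan (S.D n) π (ae1Rt π xs a h B) dsp).Xn 6)
          (pair ((nmTan (S.D n) π (ae1Rt π xs a h B) dsp).O 40) (nmTan (S.D n) π (ae1Rt π xs a h B) dsp).Cs) ω
        < (S.U (ae1Q π) (6 * h) a 0 / h - τ1) * (nmTan (S.D n) π (ae1Rt π xs a h B) dsp).L) ≤ ((S.D n).s ^ h) ^ E1 := by
  have hmin : 0 < min c0 1 := lt_min hc0 one_pos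
  have hnK : (0 : ℝ) < nmK0 := by unfold nmK0; positivity
  have hq : (ae1Q π).Ok π := nm_fam_ok π hπ.val _ (ae1_par_fam hπ).1
  have hom := ae1_flat_ang S hπ c0 Ds h1 hF (6 * h) (a + 40 * h) ⟨by nlinarith [ha.1], ha.2.le⟩ (τ1 * h / 4) (by positivity)
  filter_upwards [hom, ae1_s_small S 1 one_pos, nm_me_pow_small S (sub_pos.2 hze) (by norm_num : (0 : ℝ) < 1 / 4),
    ae1_an_log_small S (4 * (nmK0 * K0) ^ 2) (τ1 * h / 8) (by positivity) (by positivity),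
    nm_me_pow_small S (by positivity : 0 < h * (min c0 1 * τ1 / 16)) (by norm_num : (0 : ℝ) < 1 / 7)] with n hn hs hsm hlog h7 hR dsp
  have key := ae1_an_low (S.D n) π hq hs.1 hs.2 hh hK0 hR (by linarith) (u := S.U (ae1Q π) (6 * h) a 0) (τ1 := τ1) hn hng
    (by have : τ1 * (h * (S.D n).lgs) / 8 = τ1 * h / 8 * (S.D n).lgs := by ring
        rw [this]; exact hlog) dsp
  refine key.trans ?_
  have hnum := ae1_an_num hs.1 hs.2 hh hc0 hτ1 hE1 (rfl : (S.D n).lgs = lg (S.D n).s) h7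
  refine le_trans ?_ hnum
  have := Real.exp_pos (-(τ1 * (h * (S.D n).lgs) / 8))
  linarith

omit S in

/-- a list of values of `C` is read by a list of values of `X` -/
theorem ae1_cnt_list {Ω α β : Type} [Fintype Ω] (P : FLaw Ω) (X : Ω → α) (C : Ω → β) (K0 : ℝ) (hK : 0 ≤ K0)
    (h : P.NVal (fun _ => True) X C K0) (LL : Finset β) :
    ∃ LL' : Finset α, (LL'.card : ℝ) ≤ K0 * LL.card ∧ ∀ ω, P.p ω ≠ 0 → C ω ∈ LL → X ω ∈ LL' := by
  choose T hT hmem using h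
  obtain ⟨f, hf⟩ : ∃ f : β → Finset α, f = fun c => if hc : ∃ ω₀, C ω₀ = c then T hc.choose else ∅ := ⟨_, rfl⟩
  have hfc : ∀ c, ((f c).card : ℝ) ≤ K0 := by
    intro c
    rw [hf]
    by_cases hc : ∃ ω₀, C ω₀ = c
    · simp only [dif_pos hc]
      exact hT _
    · simp only [dif_neg hc]
      simpa using hK
  refine ⟨LL.biUnion f, ?_, fun ω hω hC => ?_⟩
  · calc ((LL.biUnion f).card : ℝ) ≤ ((∑ c ∈ LL, (f c).card : ℕ) : ℝ) := by exact_mod_cast Finset.card_biUnion_le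
      _ = ∑ c ∈ LL, ((f c).card : ℝ) := by push_cast; rfl
      _ ≤ ∑ _c ∈ LL, K0 := Finset.sum_le_sum fun c _ => hfc c
      _ = K0 * LL.card := by rw [Finset.sum_const, nsmul_eq_mul, mul_comm]
  · refine Finset.mem_biUnion.2 ⟨C ω, hC, ?_⟩
    have hc : ∃ ω₀, C ω₀ = C ω := ⟨ω, rfl⟩
    rw [hf]
    simp only [dif_pos hc]
    exact hmem hc.choose ω hω trivial hc.choose_spec.symm

omit S in

/-- the support of a pair -/
theorem ae1_cnt_supp {Ω α β : Type} [Fintype Ω] (P : FLaw Ω) (Y : Ω → α) (C : Ω → β) (N : ℝ) (hN : 0 ≤ N)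
    (h : P.NVal (fun _ => True) C Y N) (Sset : Finset α) (hS : ∀ ω, P.p ω ≠ 0 → Y ω ∈ Sset) :
    ∃ F : Finset (α × β), (F.card : ℝ) ≤ N * Sset.card ∧ ∀ ω, P.p ω ≠ 0 → (Y ω, C ω) ∈ F := by
  have h' : P.NVal (fun _ => True) (fun ω => (Y ω, C ω)) Y N := by
    intro ω₀
    obtain ⟨T, hT, hmem⟩ := h ω₀
    refine ⟨T.image (fun c => (Y ω₀, c)), ?_, fun ω hω hG hA => ?_⟩
    · have : ((T.image (fun c => (Y ω₀, c))).card : ℝ) ≤ (T.card : ℝ) := by exact_mod_cast Finset.card_image_le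
      exact this.trans hT
    · refine Finset.mem_image.2 ⟨C ω, hmem ω hω hG hA, ?_⟩
      show (Y ω₀, C ω) = (Y ω, C ω)
      rw [hA]
  obtain ⟨F, hF, hmem⟩ := ae1_cnt_list P (fun ω => (Y ω, C ω)) Y N hN h' Sset
  exact ⟨F, hF, fun ω hω => hmem ω hω (hS ω hω)⟩

omit S in

/-- one configuration -/
theorem ae1_cnt_doc (D : SfDoc) (π : SfPar) (hq : (ae1Q π).Ok π) {C0 K0 e xs a h B τ1 E1 E' acc Za Zb Hup M : ℝ} (h0 : 0 < D.s) (h1 : D.s < 1)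
    (hK0 : 1 ≤ K0) (hh : 0 < h) (hτ1 : 0 < τ1) (hE1 : E1 ≤ τ1 / 8) (hacc : acc = τ1 * h / 4) (hZ : Zb - Za = Hup * h) (hM : M = |C0| + |Za| + 1)
    (hek : D.s ^ C0 ≤ D.ek ∧ D.ek ≤ D.s ^ (-C0))
    (hcan : ∀ LL : Finset NmNm, (LL.card : ℝ) ≤ D.ek * D.s ^ (-Za + acc) → (D.P 1).pr (fun ω => D.nm π (ae1Q π) a 0 ω ∈ LL) ≤ D.s ^ (acc / 2))
    (heq : ∃ S : Finset NmNm, (S.card : ℝ) ≤ D.ek * D.s ^ (-Zb - acc) ∧ ∀ ω, (D.P 1).p ω ≠ 0 → D.nm π (ae1Q π) (a + h) 0 ω ∈ S)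
    (hlog : Real.log (nmK0 * K0 ^ 2) ≤ τ1 * h / 2 * D.lgs) (hpow : D.s ^ (h * E') ≤ τ1 * h / M)
    (hR : NmRep D π (ae1Rt π xs a h B) K0 e) (dsp : ℝ → NmNm → NmNm → ItDsp) :
    ∃ NO NC : ℝ, 0 < NC ∧
      (∀ LL : Finset NmNm, (LL.card : ℝ) ≤ NC →
        (D.P 1).pr (fun ω => (nmTan D π (ae1Rt π xs a h B) dsp).Cs ω ∈ LL) ≤ (D.s ^ h) ^ E1) ∧
      (∃ F : Finset (NmNm × NmNm), (F.card : ℝ) ≤ NO ∧ ∀ ω, (D.P 1).p ω ≠ 0 → (nmTan D π (ae1Rt π xs a h B) dsp).O 1 ω ∈ F) ∧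
      Real.log NO - Real.log NC ≤ (Hup + τ1) * (nmTan D π (ae1Rt π xs a h B) dsp).L ∧
      (D.s ^ h) ^ E' * Real.log NC ≤ τ1 * (nmTan D π (ae1Rt π xs a h B) dsp).L := by
  have hK : 0 < K0 := by linarith
  have hnK : (0 : ℝ) < nmK0 := by unfold nmK0; positivity
  have hek0 : 0 < D.ek := lt_of_lt_of_le (Real.rpow_pos_of_pos h0 _) hek.1
  have hl : 0 < D.lgs := by
    show 0 < lg D.s
    unfold lg
    exact Real.log_pos (by rw [one_div]; exact (one_lt_inv₀ h0).2 h1)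
  have hlgs : Real.log D.s = -D.lgs := by
    show _ = -lg D.s
    unfold lg
    rw [one_div, Real.log_inv, neg_neg]
  have hacc0 : 0 < acc := by rw [hacc]; positivity
  rw [ae1_an_L D π h0 dsp]
  obtain ⟨Y0, hY0⟩ : ∃ Y0, Y0 = D.nm π (ae1Q π) a 0 := ⟨_, rfl⟩
  obtain ⟨Y', hY'⟩ : ∃ Y', Y' = D.nm π (ae1Q π) (a + h) 0 := ⟨_, rfl⟩
  obtain ⟨C, hC⟩ : ∃ C, C = D.cs π (ae1Rt π xs a h B) := ⟨_, rfl⟩
  have hCs : (nmTan D π (ae1Rt π xs a h B) dsp).Cs = C := hC.symm ▸ rfl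
  have hO : (nmTan D π (ae1Rt π xs a h B) dsp).O 1 = fun ω => (Y' ω, C ω) := by
    rw [hY', hC]
    funext ω
    show (D.nm π (ae1Q π) (a + 1 * h) 0 ω, _) = _
    rw [one_mul]
  have rep1 : (D.P 1).NVal (fun _ => True) Y0 C K0 := by rw [hY0, hC]; exact hR.rep1
  have rep2 : (D.P 1).NVal (fun _ => True) C Y0 K0 := by rw [hY0, hC]; exact hR.rep2
  have hup : (D.P 1).NVal (fun _ => True) Y0 Y' nmK0 := by
    rw [hY0, hY']
    exact nm_nval_up D π hq h0 h1 (by linarith) le_rfl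
  have hCY : (D.P 1).NVal (fun _ => True) C Y' (nmK0 * K0) := by
    have c2 : (D.P 1).NVal (fun _ => True) C (pair Y0 Y') K0 :=
      ltk_nval_mono _ rep2 (fun _ h => h) (fun _ _ h => congrArg Prod.fst h) ⟨id, fun _ => rfl⟩ le_rfl
    exact ltk_nval_mono _ (ltk_nval_comp (D.P 1) (fun _ => True) Y' Y0 C hK.le hup c2) (fun _ h => h) (fun _ _ h => h)
      ⟨Prod.fst, fun _ => rfl⟩ le_rfl
  rw [hCs, hO]
  rw [← hY0] at hcan
  rw [← hY'] at heq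
  obtain ⟨pa, hpa⟩ : ∃ x, x = D.s ^ (-Za + acc) := ⟨_, rfl⟩
  obtain ⟨pb, hpb⟩ : ∃ x, x = D.s ^ (-Zb - acc) := ⟨_, rfl⟩
  have hpa0 : 0 < pa := hpa ▸ Real.rpow_pos_of_pos h0 _
  have hpb0 : 0 < pb := hpb ▸ Real.rpow_pos_of_pos h0 _
  rw [← hpa] at hcan
  rw [← hpb] at heq
  have lpa : Real.log pa = (Za - acc) * D.lgs := by rw [hpa, Real.log_rpow h0, hlgs]; ring
  have lpb : Real.log pb = (Zb + acc) * D.lgs := by rw [hpb, Real.log_rpow h0, hlgs]; ring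
  have hsh0 : 0 < D.s ^ h := Real.rpow_pos_of_pos h0 _
  have hsh1 : D.s ^ h ≤ 1 := Real.rpow_le_one h0.le h1.le hh.le
  refine ⟨nmK0 * K0 * (D.ek * pb), D.ek * pa / K0, by positivity, ?_, ?_, ?_, ?_⟩
  · intro LL hLL
    obtain ⟨LL', hc, hmem⟩ := ae1_cnt_list (D.P 1) Y0 C K0 hK.le rep1 LL
    have h2 : (LL'.card : ℝ) ≤ D.ek * pa := by
      refine hc.trans ?_
      calc K0 * (LL.card : ℝ) ≤ K0 * (D.ek * pa / K0) := mul_le_mul_of_nonneg_left hLL hK.le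
        _ = D.ek * pa := by field_simp
    calc (D.P 1).pr (fun ω => C ω ∈ LL) ≤ (D.P 1).pr (fun ω => Y0 ω ∈ LL') := ent_pr_mono _ hmem
      _ ≤ D.s ^ (acc / 2) := hcan LL' h2
      _ = (D.s ^ h) ^ (τ1 / 8) := by
          rw [← Real.rpow_mul h0.le, hacc]
          congr 1
          ring
      _ ≤ (D.s ^ h) ^ E1 := Real.rpow_le_rpow_of_exponent_ge hsh0 hsh1 hE1
  · obtain ⟨Sset, hS, hmem⟩ := heq
    obtain ⟨F, hF, hFm⟩ := ae1_cnt_supp (D.P 1) Y' C (nmK0 * K0) (by positivity) hCY Sset hmem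
    exact ⟨F, hF.trans (mul_le_mul_of_nonneg_left hS (by positivity)), hFm⟩
  · have e1 : Real.log (nmK0 * K0 * (D.ek * pb)) = Real.log nmK0 + Real.log K0 + (Real.log D.ek + Real.log pb) := by
      rw [Real.log_mul (by positivity) (by positivity), Real.log_mul hnK.ne' hK.ne', Real.log_mul hek0.ne' hpb0.ne']
    have e2 : Real.log (D.ek * pa / K0) = Real.log D.ek + Real.log pa - Real.log K0 := by
      rw [Real.log_div (by positivity) hK.ne', Real.log_mul hek0.ne' hpa0.ne']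
    have e3 : Real.log (nmK0 * K0 ^ 2) = Real.log nmK0 + 2 * Real.log K0 := by
      rw [Real.log_mul hnK.ne' (by positivity), Real.log_pow]
      push_cast
      ring
    rw [e1, e2, lpa, lpb]
    rw [e3] at hlog
    have e4 : (Zb + acc) * D.lgs - (Za - acc) * D.lgs = (Hup * h + τ1 * h / 2) * D.lgs := by
      have : Zb = Za + Hup * h := by linarith
      rw [this, hacc]
      ring
    have e5 : (Hup + τ1) * (h * D.lgs) = (Hup * h + τ1 * h / 2) * D.lgs + τ1 * h / 2 * D.lgs := by ring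
    linarith
  · have e2 : Real.log (D.ek * pa / K0) = Real.log D.ek + Real.log pa - Real.log K0 := by
      rw [Real.log_div (by positivity) hK.ne', Real.log_mul hek0.ne' hpa0.ne']
    have l1 : Real.log D.ek ≤ C0 * D.lgs := by
      have := Real.log_le_log hek0 hek.2
      rw [Real.log_rpow h0, hlgs] at this
      linarith
    have l2 : 0 ≤ Real.log K0 := Real.log_nonneg hK0
    have hM0 : 0 < M := by rw [hM]; positivity
    have l3 : Real.log (D.ek * pa / K0) ≤ M * D.lgs := by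
      rw [e2, lpa]
      have a1 : C0 ≤ |C0| := le_abs_self _
      have a2 : Za ≤ |Za| := le_abs_self _
      have : (C0 + (Za - acc)) * D.lgs ≤ M * D.lgs := mul_le_mul_of_nonneg_right (by rw [hM]; linarith) hl.le
      nlinarith
    have hp : (D.s ^ h) ^ E' = D.s ^ (h * E') := by rw [← Real.rpow_mul h0.le]
    rw [hp]
    have hp0 : 0 ≤ D.s ^ (h * E') := (Real.rpow_pos_of_pos h0 _).le
    calc D.s ^ (h * E') * Real.log (D.ek * pa / K0) ≤ D.s ^ (h * E') * (M * D.lgs) := mul_le_mul_of_nonneg_left l3 hp0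
      _ ≤ τ1 * h / M * (M * D.lgs) := mul_le_mul_of_nonneg_right hpow (by positivity)
      _ = τ1 * (h * D.lgs) := by field_simp

/-- LEAF L-256-E1-CNT.   **boundary equality of (canon)** (06 l.381-384).   `Z(a,0) = Hup a - (1 - η)`, `Hup = 2 + 3d - 2Γ - η` (`ae1_par_fam`).
`nm_canon` at `(a, 0)` with `acc = τ1 h/4` (through `nm_A_uf`, any `τ`): lists of `≤ ek s^(-Z(a,0) + acc)` names have probability `≤ s^(acc/2) = δ^(τ1/8)`;  `C_* ∈ LL` ⟹ the name lies in the union of the lists of `rep1`:  `NC = ek s^(-Z(a,0)+acc)/K0`.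
`nm_equal` at `(a + h, 0)` with `acc`: the names lie in a set of `≤ ek s^(-Z(a+h,0) - acc)` elements;  `O 1 = (name, C_*)`, `C_*` has `≤ nmK0 K0` values given the name:  `NO = nmK0 K0 ek s^(-Z(a+h,0)-acc)`.
`log NO - log NC = (Hup h + 2 acc) log(1/s) + log(nmK0 K0²) ≤ (Hup + τ1) L`;   `log NC ≤ (C0 + |Z| + 1) log(1/s)`, `δ^E' → 0`. -/
theorem ae1_s_cnt (hπ : π.E1) (hX : S.HasX) (K0 e xs a h B τ1 E1 E' : ℝ) (hK0 : 1 ≤ K0) (ha : 0 < a ∧ a + h < 1) (hh : 0 < h) (hτ1 : 0 < τ1)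
    (hE1 : E1 ≤ τ1 / 8) (hE' : 0 < E') :
    ∀ᶠ n in uf, NmRep (S.D n) π (ae1Rt π xs a h B) K0 e → ∀ dsp : ℝ → NmNm → NmNm → ItDsp, ∃ NO NC : ℝ, 0 < NC ∧
      (∀ LL : Finset NmNm, (LL.card : ℝ) ≤ NC →
        ((S.D n).P 1).pr (fun ω => (nmTan (S.D n) π (ae1Rt π xs a h B) dsp).Cs ω ∈ LL) ≤ ((S.D n).s ^ h) ^ E1) ∧
      (∃ F : Finset (NmNm × NmNm), (F.card : ℝ) ≤ NO ∧ ∀ ω, ((S.D n).P 1).p ω ≠ 0 → (nmTan (S.D n) π (ae1Rt π xs a h B) dsp).O 1 ω ∈ F) ∧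
      Real.log NO - Real.log NC ≤ ((2 + 3 * π.d - 2 * π.Γ - π.η) + τ1) * (nmTan (S.D n) π (ae1Rt π xs a h B) dsp).L ∧
      ((S.D n).s ^ h) ^ E' * Real.log NC ≤ τ1 * (nmTan (S.D n) π (ae1Rt π xs a h B) dsp).L := by
  have hv : π.Valid := hπ.val
  obtain ⟨hfam, -, -, -, hpt⟩ := ae1_par_fam hπ
  obtain ⟨-, hdomA, hZa⟩ := hpt a ha.1 (by linarith)
  obtain ⟨heqB, -, hZb⟩ := hpt (a + h) (by linarith) ha.2.le
  have hq : (ae1Q π).Ok π := nm_fam_ok π hv _ hfam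
  obtain ⟨acc, hacc⟩ : ∃ acc, acc = τ1 * h / 4 := ⟨_, rfl⟩
  have hacc0 : 0 < acc := by rw [hacc]; positivity
  have hnK : (0 : ℝ) < nmK0 := by unfold nmK0; positivity
  have hK : 0 < K0 := by linarith
  obtain ⟨M, hM⟩ : ∃ M, M = |C0| + |(ae1Q π).Z π a 0| + 1 := ⟨_, rfl⟩
  have hM0 : 0 < M := by rw [hM]; positivity
  filter_upwards [nm_A_uf S hX 1 one_pos _ (nm_canon π hv C0 1 (κ 1) (ae1Q π) hfam a 0 hdomA) acc hacc0,
    nm_A_uf S hX 1 one_pos _ (nm_equal π hv C0 1 (κ 1) (ae1Q π) hfam (a + h) 0 heqB) acc hacc0,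
    ae1_s_small S 1 one_pos,
    ae1_an_log_small S (nmK0 * K0 ^ 2) (τ1 * h / 2) (by positivity) (by positivity),
    nm_me_pow_small S (by positivity : 0 < h * E') (by positivity : 0 < τ1 * h / M)] with n hcan heq hs hlog hpow hR dsp
  exact ae1_cnt_doc (S.D n) π hq hs.1 hs.2 hK0 hh hτ1 hE1 hacc (by rw [hZa, hZb]; ring) hM (S.fine n 1 one_pos).ok.core.hek hcan heq hlog hpow hR dsp

/-! ## D. profiles -/

/-- LEAF L-256-E1-NG.   **(ng) on the boundary `v = 0`, moved roots.**   `nm_tr_ng` (first part) with `v = 0 ∈ (-1, 1)`, `(a0, a1) = (0, 1)`, `G = 40`; hypotheses from `nm_U_basic`, `nm_U_incr` (stated at all real parameters).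
`x ↦ U(x; a, 0) - U(x; a + 40h, 0)` is nondecreasing (`nm_U_incr`): the defect at `x = 6h` is `≤` the defect at `x = 40h`;  a displacement `|a' - a| ≤ ηm h` costs `2 C ηm h` (Lipschitz). -/
theorem ae1_ng (hπ : π.E1) : ∀ᵐ a : ℝ, a ∈ Set.Ioo (0 : ℝ) 1 → ∀ ε : ℝ, 0 < ε → ∃ ηm h0 : ℝ, 0 < ηm ∧ 0 < h0 ∧ ∀ h : ℝ, 0 < h → h < h0 →
    ∀ a' : ℝ, |a' - a| ≤ ηm * h → S.U (ae1Q π) (6 * h) a' 0 - S.U (ae1Q π) (6 * h) (a' + 40 * h) 0 ≤ ε * h := by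
  have hv : π.Valid := hπ.val
  have hq : (ae1Q π).Fam π := (ae1_par_fam hπ).1
  obtain ⟨hinc, C, hC⟩ := nm_U_incr S hv (ae1Q π) hq
  have hng := (nm_tr_ng (fun x a v => S.U (ae1Q π) x a v) 0 1 (-1) 1 C
    (fun a _ v _ => (nm_U_basic S hv (ae1Q π) hq a v).1)
    (fun a _ v _ x x' h1 h2 _ => (nm_U_basic S hv (ae1Q π) hq a v).2 x x' h1 h2)
    (fun a _ a' _ v _ v' _ x x' h1 h2 h3 h4 _ => hinc a a' v v' x x' h1 h2 h3 h4)
    (fun a _ a' _ v _ v' _ x => hC a a' v v' x)).1 0 ⟨by norm_num, by norm_num⟩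
  filter_upwards [hng] with a ha haI ε hε
  have ht := ha haI 40 (by norm_num)
  have hev : ∀ᶠ h : ℝ in 𝓝[>] 0,
      (S.U (ae1Q π) (0 + 40 * h) a 0 - S.U (ae1Q π) (0 + 40 * h) (a + 40 * h) 0) / h < ε / 2 :=
    ht.eventually (gt_mem_nhds (by linarith))
  rw [eventually_nhdsWithin_iff, Metric.eventually_nhds_iff] at hev
  obtain ⟨h0, hh0, hev⟩ := hev
  have hC1 : 0 < |C| + 1 := by positivity
  refine ⟨ε / (4 * (|C| + 1)), h0, by positivity, hh0, ?_⟩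
  intro h hh hhlt a' ha'
  have h1 : (S.U (ae1Q π) (0 + 40 * h) a 0 - S.U (ae1Q π) (0 + 40 * h) (a + 40 * h) 0) / h < ε / 2 := by
    apply hev _ hh
    rw [Real.dist_eq, sub_zero, abs_of_pos hh]
    exact hhlt
  rw [div_lt_iff₀ hh, zero_add] at h1
  -- monotone defect
  have h2 := hinc a (a + 40 * h) 0 0 (6 * h) (40 * h) (by linarith) le_rfl (by linarith) (by linarith)
  -- moved roots
  have h3 := hC a' a 0 0 (6 * h)
  have h4 := hC (a' + 40 * h) (a + 40 * h) 0 0 (6 * h)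
  have e1 : |a' + 40 * h - (a + 40 * h)| = |a' - a| := by congr 1; ring
  rw [e1] at h4
  simp only [sub_self, abs_zero, add_zero] at h3 h4
  have h5 : C * |a' - a| ≤ ε / 4 * h := by
    calc C * |a' - a| ≤ (|C| + 1) * |a' - a| :=
          mul_le_mul_of_nonneg_right (by linarith [le_abs_self C]) (abs_nonneg _)
      _ ≤ (|C| + 1) * (ε / (4 * (|C| + 1)) * h) := mul_le_mul_of_nonneg_left ha' hC1.le
      _ = ε / 4 * h := by field_simp
  have h6 := (abs_le.1 h3).2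
  have h7 := (abs_le.1 h4).1
  linarith

/-- LEAF L-256-E1-MEM.   **the lower slope `k_0 + 2Γ`** (06 l.329-337).   `j = a + (a1 - a)/2`;  `nm_m_slab` at `v = 0` (`u = 0`, `l(a', 0) = a' - 1 ≤ b_1 j`): `R_j(x) - R_j(0) ≤ U(x; a', 0)` for `a' < j`;  `nm_mr`: `R_j(0) = 0`;
`nm_mr_strong` at `j` with `σ/2`, `ρ' = min (σ/2) (j - a0)` (`b_1 j + σ/2 ≤ b_1 i + σ ≤ p_*(i)` for `j - σ/2 ≤ i ≤ j`), `π.LS = 1`, `π.mu 1 = 1 - d + 2Γ` (`ae1_par_exp`). -/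
theorem ae1_mem (hπ : π.E1) (hX : S.HasX) (Ds : Set ℝ) (h1 : (1 : ℝ) ∈ Ds) (hF : S.Flat Ds) (a0 a1 σ : ℝ) (h0 : 0 ≤ a0) (h11 : a1 ≤ 1) (hσ : 0 < σ)
    (hs : ∀ a ∈ Set.Ioo a0 a1, π.b1 a + σ ≤ S.pst (nmDsEq π) a) (a : ℝ) (ha : a ∈ Set.Ioo a0 a1) :
    ∃ ρ : ℝ, 0 < ρ ∧ ∀ a' : ℝ, |a' - a| ≤ ρ → ∀ x : ℝ, 0 ≤ x → x < ρ → (1 - π.d + 2 * π.Γ) * x ≤ S.U (ae1Q π) x a' 0 := by
  obtain ⟨ha0, ha1⟩ := ha
  obtain ⟨j, hj⟩ : ∃ j : ℝ, j = a + (a1 - a) / 2 := ⟨_, rfl⟩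
  have hja : a < j := by linarith
  have hj1 : j < a1 := by linarith
  have hj0 : 0 < j := by linarith
  obtain ⟨hfam, hraw, hDe, hgl, -⟩ := ae1_par_fam hπ
  obtain ⟨-, ej1, eju, -, -, eCr, eLS, emu⟩ := ae1_par_exp hπ j
  have hb : 0 < π.Cr := by rw [eCr]; norm_num
  obtain ⟨lam0, hlam, hslab⟩ := nm_m_slab S hπ.val hX hπ.hyb hb (ae1Q π) hfam rfl
  have hR0 : S.Rj j 0 = 0 := by
    have := (nm_mr S hπ.val hX hπ.hyb j ⟨hj0, by linarith⟩).1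
    rwa [eju] at this
  obtain ⟨ρ', hρ'⟩ : ∃ ρ' : ℝ, ρ' = min (σ / 2) (j - a0) := ⟨_, rfl⟩
  have hρ'0 : 0 < ρ' := by rw [hρ']; exact lt_min (by linarith) (by linarith)
  have hρ'1 : ρ' ≤ σ / 2 := by rw [hρ']; exact min_le_left _ _
  have hρ'2 : ρ' ≤ j - a0 := by rw [hρ']; exact min_le_right _ _
  have hstr := nm_mr_strong S hπ.val hX Ds h1 hF hπ.hyb hb (nmDsEq π) hraw j (σ / 2) ρ' ⟨hj0, by linarith⟩ (by linarith) hρ'0
    (fun i hi1 hi2 => by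
      have h2 := hs i ⟨by linarith, by linarith⟩
      rw [(ae1_par_exp hπ i).2.1] at h2
      rw [ej1]
      linarith)
  rw [eLS, emu, eju] at hstr
  refine ⟨min ρ' (min (a / 2) ((j - a) / 2)), lt_min hρ'0 (lt_min (by linarith) (by linarith)), fun a' ha' x hx0 hx => ?_⟩
  have hx1 : x < ρ' := lt_of_lt_of_le hx (min_le_left _ _)
  have b1 : |a' - a| ≤ a / 2 := ha'.trans ((min_le_right _ _).trans (min_le_left _ _))
  have b2 : |a' - a| ≤ (j - a) / 2 := ha'.trans ((min_le_right _ _).trans (min_le_right _ _))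
  rw [abs_le] at b1 b2
  have ha'0 : 0 < a' := by linarith [b1.1]
  have ha'j : a' < j := by linarith [b2.2]
  rcases hx0.eq_or_lt with rfl | hxpos
  · rw [mul_zero, (nm_U_basic S hπ.val (ae1Q π) hfam a' 0).1]
  · have c1 := hstr x hxpos (by rw [one_mul]; exact hx1) (by rw [one_mul]; linarith)
    rw [zero_add] at c1
    have hl : (ae1Q π).l π a' 0 = a' - 1 := by
      show (nmDsEq π).b a' + 0 = a' - 1
      rw [(ae1_par_exp hπ a').2.2.2.2.1, add_zero]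
    have c2 := hslab a' j 0 x ha'0 ha'j (by rw [hDe]; linarith) (fun h => by rw [hgl] at h; cases h) (by rw [eju])
      (by rw [eju, sub_zero]; exact mul_nonneg hlam.le (by linarith)) (by rw [hl, ej1]; linarith) hx0
    rw [hR0, sub_zero] at c2
    exact c1.trans c2

/-- LEAF L-256-E1-MEM.   the slope cannot exceed the angular capacity (`ae1_mem`, `nm_U_basic`: `U(x; a, 0) ≤ x`) -/
theorem ae1_g_le (hπ : π.E1) (hX : S.HasX) (Ds : Set ℝ) (h1 : (1 : ℝ) ∈ Ds) (hF : S.Flat Ds) (a0 a1 σ : ℝ) (h0 : 0 ≤ a0) (h11 : a1 ≤ 1) (hσ : 0 < σ)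
    (hs : ∀ a ∈ Set.Ioo a0 a1, π.b1 a + σ ≤ S.pst (nmDsEq π) a) (a : ℝ) (ha : a ∈ Set.Ioo a0 a1) : 1 - π.d + 2 * π.Γ ≤ 1 := by
  obtain ⟨ρ, hρ, H⟩ := ae1_mem S hπ hX Ds h1 hF a0 a1 σ h0 h11 hσ hs a ha
  have c1 := H a (by rw [sub_self, abs_zero]; exact hρ.le) (ρ / 2) (by linarith) (by linarith)
  obtain ⟨u0, u1⟩ := nm_U_basic S hπ.val (ae1Q π) (ae1_par_fam hπ).1 a 0
  have c2 := (u1 0 (ρ / 2) le_rfl (by linarith)).2
  rw [u0] at c2
  have c3 : (1 - π.d + 2 * π.Γ) * (ρ / 2) ≤ 1 * (ρ / 2) := by linarith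
  exact le_of_mul_le_mul_right c3 (by linarith)

end

end Claimed.Agent.R256
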